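import Vale.Agent.P207.Defs
import Vale.Agent.P255.Bdl.B2

/-!
# P207: working definitions (the metric of P255, the system of exponential maps, growth)
-/

open scoped Manifold ContDiff ENNReal Topology
open Bundle MeasureTheory Set Filter

noncomputable section

namespace Vale.Agent.P207

open Vale.Agent.P255 (RMetric coefIn Gam Riem IsGeo Metric Npc ExpSys toMetric geo expg)

variable {n : ℕ} {M : Type} [TopologicalSpace M] [ChartedSpace (EV n) M]
  [IsManifold 𝓘(ℝ, EV n) ∞ M]

/-- the working form of a metric: its coefficients in all charts -/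
abbrev mt (g : RMetric (EV n) M) : Metric (EV n) M := toMetric g

/-- homotopy classes of paths -/
abbrev Cl {M : Type} [TopologicalSpace M] (x y : M) : Type := Path.Homotopic.Quotient x y

variable [CompactSpace M] [T2Space M]

/-- the system of exponential maps of a metric of nonpositive curvature -/
def sys (g : RMetric (EV n) M) (h : Npc (mt g)) : ExpSys (EV n) M :=
  (P255.isExp_expg (mt g)).toExpSys (P255.isExp_expg (mt g)).gaussAt
    ((P255.isExp_expg (mt g)).rauchAt h)

/-- At most exponential growth, with rate `s`, of the number of homotopy classes of length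
`≤ R`. -/
def GrowthLE (S : ExpSys (EV n) M) (s : ℝ) : Prop :=
  ∃ C : ℝ, ∀ (x y : M) (R : ℝ), 0 ≤ R →
    {α : Cl x y | S.len α ≤ R}.Finite ∧ ({α : Cl x y | S.len α ≤ R}.ncard : ℝ) ≤ C * Real.exp (s * R)

/-- `E` is `(N,ε)`-separated for `T`. -/
def Sep {X : Type} [PseudoMetricSpace X] (T : X → X) (N : ℕ) (ε : ℝ) (E : Finset X) : Prop :=
  ∀ x ∈ E, ∀ y ∈ E, x ≠ y → ∃ i < N, ε ≤ dist (T^[i] x) (T^[i] y)

omit [CompactSpace M] [T2Space M] in
/-- the working inner product at `x` is the inner product of `g` -/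
theorem ip_eq (g : RMetric (EV n) M) (x : M) (v w : TangentSpace 𝓘(ℝ, EV n) x) :
    (mt g).ip x (v : EV n) (w : EV n) = g.inner x v w := by
  have hu : chartAt (EV n) x x ∈ (chartAt (EV n) x).target := mem_chart_target (EV n) x
  have hx : x = (chartAt (EV n) x).symm (chartAt (EV n) x x) :=
    ((chartAt (EV n) x).left_inv (mem_chart_source (EV n) x)).symm
  have h := P255.coefL_apply g x hu x hx (v : EV n) (w : EV n)
  exact h.trans (congrArg₂ (fun a b : EV n => g.inner x (a : TangentSpace 𝓘(ℝ, EV n) x)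
    (b : TangentSpace 𝓘(ℝ, EV n) x)) (P255.fderiv_trans_self x hu (v : EV n))
    (P255.fderiv_trans_self x hu (w : EV n)))

/-- the unit vector `v` at `x` -/
def mkUT (g : RMetric (EV n) M) (x : M) (v : EV n) (h : (mt g).ip x v v = 1) : UT g :=
  ⟨⟨x, v⟩, by rw [← h]; exact (ip_eq g x v v).symm⟩

/-- the action of an orthogonal `J` on the unit tangent bundle -/
def jmap {g : RMetric (EV n) M} {J : EndField n M} (hJ : IsKaehler g J) (p : UT g) : UT g :=
  ⟨⟨p.1.1, J p.1.1 p.1.2⟩, by rw [hJ.2.1]; exact p.2⟩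

theorem sys_e (g : RMetric (EV n) M) (h : Npc (mt g)) : (sys g h).e = expg (mt g) := rfl

theorem sys_ip (g : RMetric (EV n) M) (h : Npc (mt g)) : (sys g h).ip = (mt g).ip := rfl

end Vale.Agent.P207
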