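import Vale.Agent.P207.BlkV0

/-!
# P207, block D (locally symmetric metrics): working definitions
-/

open scoped Manifold ContDiff ENNReal Topology
open Bundle MeasureTheory Set Filter

noncomputable section

namespace Vale.Agent.P207

open Vale.Agent.P255 (RMetric coefIn Gam Riem IsGeo Metric Npc ExpSys toMetric geo expg cc curvOp)

variable {n : ℕ} {M : Type} [TopologicalSpace M] [ChartedSpace (EV n) M]
  [IsManifold 𝓘(ℝ, EV n) ∞ M]

/-- the density of the Riemannian Lebesgue measure of `T_m M` w.r.t. the Lebesgue measure -/
abbrev dens0 (g : RMetric (EV n) M) (m : M) : ℝ := dens g m (chartAt (EV n) m m)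

variable [CompactSpace M] [T2Space M]

/-- the Jacobian of `exp_m : T_m M = EV n → M` at `v`, w.r.t. the Lebesgue measure of `EV n` and the
Riemannian volume of `M` (computed in the chart at `exp_m v`) -/
def jac (g : RMetric (EV n) M) (m : M) (v : EV n) : ℝ :=
  |(fderiv ℝ (fun w => chartAt (EV n) (expg (mt g) m v) (expg (mt g) m w)) v).det| *
    dens g (expg (mt g) m v) (chartAt (EV n) (expg (mt g) m v) (expg (mt g) m v))

/-- the norm of `v` as a tangent vector at `m` -/
abbrev nm (g : RMetric (EV n) M) (m : M) (v : EV n) : ℝ := Real.sqrt ((mt g).ip m v v)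

end Vale.Agent.P207
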