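import Vale.Agent.P207.Base

/-!
# P207, block F: the unit tangent bundle and the geodesic flow
-/

open scoped Manifold ContDiff ENNReal Topology
open Bundle MeasureTheory Set Filter

noncomputable section

set_option maxSynthPendingDepth 3

namespace Vale.Agent.P207

open Vale.Agent.P255 (RMetric coefIn Gam Riem IsGeo Metric Npc ExpSys toMetric geo expg cc trans
  IsGeodesic coefL)

variable {n : ℕ} {M : Type} [TopologicalSpace M] [ChartedSpace (EV n) M]
  [IsManifold 𝓘(ℝ, EV n) ∞ M]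

/-! ### charts of the tangent bundle -/

section Charts

/-- the state (position, velocity) of a tangent vector in the chart at `a` -/
def chT (a : M) (p : TangentBundle 𝓘(ℝ, EV n) M) : EV n × EV n :=
  (chartAt (EV n) a p.1, fderiv ℝ (trans (EV n) p.1 a) (chartAt (EV n) p.1 p.1) p.2)

/-- the tangent vector with given state in the chart at `a` -/
def chTs (a : M) (y : EV n × EV n) : TangentBundle 𝓘(ℝ, EV n) M :=
  ⟨(chartAt (EV n) a).symm y.1,
    fderiv ℝ (trans (EV n) a ((chartAt (EV n) a).symm y.1)) y.1 y.2⟩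

theorem fderiv_trans_back (a : M) {x : M} (hx : x ∈ (chartAt (EV n) a).source) (v : EV n) :
    fderiv ℝ (trans (EV n) a x) (chartAt (EV n) a x)
      (fderiv ℝ (trans (EV n) x a) (chartAt (EV n) x x) v) = v := by
  have h := P255.fderiv_trans_comp (E := EV n) x a x (u := chartAt (EV n) x x)
    (mem_chart_target (EV n) x) (by rw [(chartAt (EV n) x).left_inv (mem_chart_source _ x)]; exact hx)
    (by rw [(chartAt (EV n) x).left_inv (mem_chart_source _ x)]; exact mem_chart_source _ x) v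
  rw [P255.fderiv_trans_self x (mem_chart_target (EV n) x),
    P255.trans_symm_source x a (mem_chart_source (EV n) x)] at h
  exact h

theorem fderiv_trans_forth (a : M) {x : M} (hx : x ∈ (chartAt (EV n) a).source) (v : EV n) :
    fderiv ℝ (trans (EV n) x a) (chartAt (EV n) x x)
      (fderiv ℝ (trans (EV n) a x) (chartAt (EV n) a x) v) = v := by
  have hu := (chartAt (EV n) a).map_source hx
  have h := P255.fderiv_trans_comp (E := EV n) a x a (u := chartAt (EV n) a x)
    hu (by rw [(chartAt (EV n) a).left_inv hx]; exact mem_chart_source _ x)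
    (by rw [(chartAt (EV n) a).left_inv hx]; exact hx) v
  rw [P255.fderiv_trans_self a hu, P255.trans_symm_source a x hx] at h
  exact h

theorem triv_eq_chT (a : M) {p : TangentBundle 𝓘(ℝ, EV n) M}
    (hp : p.1 ∈ (chartAt (EV n) a).source) :
    (trivializationAt (EV n) (TangentSpace 𝓘(ℝ, EV n)) a p) = (p.1, (chT a p).2) := by
  obtain ⟨x, v⟩ := p
  have hx : x ∈ (trivializationAt (EV n) (TangentSpace 𝓘(ℝ, EV n)) a).baseSet := hp
  set w : EV n := fderiv ℝ (trans (EV n) x a) (chartAt (EV n) x x) v with hw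
  have h1 := congrArg (fun L : EV n →L[ℝ] EV n => L w) (P255.symmL_eq_fderiv (E := EV n) a hp)
  have h2 : (trivializationAt (EV n) (TangentSpace 𝓘(ℝ, EV n)) a).symm x w = v := by
    have h3 := (trivializationAt (EV n) (TangentSpace 𝓘(ℝ, EV n)) a).symmL_apply (R := ℝ)
      (b := x) hx w
    exact h3.symm.trans (h1.trans (fderiv_trans_back a hp v))
  have h4 := (trivializationAt (EV n) (TangentSpace 𝓘(ℝ, EV n)) a).apply_mk_symm hx w
  rw [h2] at h4
  exact h4

theorem chTs_eq_symm (a : M) {y : EV n × EV n} (hy : y.1 ∈ (chartAt (EV n) a).target) :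
    chTs a y = (trivializationAt (EV n)
      (TangentSpace 𝓘(ℝ, EV n)) a).toOpenPartialHomeomorph.symm
        ((chartAt (EV n) a).symm y.1, y.2) := by
  have hx : (chartAt (EV n) a).symm y.1 ∈ (chartAt (EV n) a).source :=
    (chartAt (EV n) a).map_target hy
  have hx' : (chartAt (EV n) a).symm y.1 ∈
    (trivializationAt (EV n) (TangentSpace 𝓘(ℝ, EV n)) a).baseSet := hx
  have h1 := (trivializationAt (EV n) (TangentSpace 𝓘(ℝ, EV n)) a).mk_symm hx' y.2
  rw [← h1]
  unfold chTs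
  have h2 := congrArg (fun L : EV n →L[ℝ] EV n => L y.2) (P255.symmL_eq_fderiv (E := EV n) a hx)
  have h3 := (trivializationAt (EV n) (TangentSpace 𝓘(ℝ, EV n)) a).symmL_apply (R := ℝ)
      (b := (chartAt (EV n) a).symm y.1) hx' y.2
  have h4 := h3.symm.trans h2
  rw [h4]
  simp only [(chartAt (EV n) a).right_inv hy]

theorem chTs_chT (a : M) {p : TangentBundle 𝓘(ℝ, EV n) M}
    (hp : p.1 ∈ (chartAt (EV n) a).source) : chTs a (chT a p) = p := by
  rw [chTs_eq_symm a ((chartAt (EV n) a).map_source hp)]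
  have h1 := (trivializationAt (EV n)
    (TangentSpace 𝓘(ℝ, EV n)) a).toOpenPartialHomeomorph.left_inv (x := p) (by
      rw [Trivialization.source_eq]; exact hp)
  have h2 := triv_eq_chT a hp
  have h3 : (chartAt (EV n) a).symm (chT a p).1 = p.1 := (chartAt (EV n) a).left_inv hp
  rw [h3, ← h2]
  exact h1

theorem chT_chTs (a : M) {y : EV n × EV n} (hy : y.1 ∈ (chartAt (EV n) a).target) :
    chT a (chTs a y) = y := by
  have hx : (chartAt (EV n) a).symm y.1 ∈ (chartAt (EV n) a).source :=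
    (chartAt (EV n) a).map_target hy
  unfold chT chTs
  apply Prod.ext
  · exact (chartAt (EV n) a).right_inv hy
  · have h := fderiv_trans_forth a hx y.2
    rw [(chartAt (EV n) a).right_inv hy] at h
    exact h

theorem continuousAt_chT (a : M) {p : TangentBundle 𝓘(ℝ, EV n) M}
    (hp : p.1 ∈ (chartAt (EV n) a).source) : ContinuousAt (chT a) p := by
  have h1 : ContinuousAt (trivializationAt (EV n) (TangentSpace 𝓘(ℝ, EV n)) a) p :=
    (trivializationAt (EV n)
      (TangentSpace 𝓘(ℝ, EV n)) a).toOpenPartialHomeomorph.continuousAt (x := p) (by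
      rw [Trivialization.source_eq]; exact hp)
  have hc : Continuous (fun p : TangentBundle 𝓘(ℝ, EV n) M => p.1) :=
    FiberBundle.continuous_proj (EV n) (TangentSpace 𝓘(ℝ, EV n))
  have h2 : ContinuousAt (fun q : TangentBundle 𝓘(ℝ, EV n) M => chartAt (EV n) a q.1) p :=
    ContinuousAt.comp (g := chartAt (EV n) a) ((chartAt (EV n) a).continuousAt hp)
      hc.continuousAt
  have h3 := h2.prodMk h1.snd
  refine h3.congr ?_
  filter_upwards [hc.continuousAt.preimage_mem_nhds
    ((chartAt (EV n) a).open_source.mem_nhds hp)] with q hq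
  have h4 := triv_eq_chT a (p := q) hq
  rw [h4]
  rfl

theorem continuousAt_chTs (a : M) {y : EV n × EV n} (hy : y.1 ∈ (chartAt (EV n) a).target) :
    ContinuousAt (chTs a) y := by
  have hx : (chartAt (EV n) a).symm y.1 ∈ (chartAt (EV n) a).source :=
    (chartAt (EV n) a).map_target hy
  have h1 : ContinuousAt (trivializationAt (EV n)
      (TangentSpace 𝓘(ℝ, EV n)) a).toOpenPartialHomeomorph.symm
        ((chartAt (EV n) a).symm y.1, y.2) := by
    apply (trivializationAt (EV n)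
      (TangentSpace 𝓘(ℝ, EV n)) a).toOpenPartialHomeomorph.continuousAt_symm
    rw [Trivialization.mem_target]
    exact hx
  have h2 : ContinuousAt (fun y : EV n × EV n => ((chartAt (EV n) a).symm y.1, y.2)) y :=
    (ContinuousAt.comp (g := (chartAt (EV n) a).symm)
      ((chartAt (EV n) a).continuousAt_symm hy) continuousAt_fst).prodMk continuousAt_snd
  have h3 := ContinuousAt.comp (x := y) (g := (trivializationAt (EV n)
      (TangentSpace 𝓘(ℝ, EV n)) a).toOpenPartialHomeomorph.symm)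
      (f := fun y : EV n × EV n => ((chartAt (EV n) a).symm y.1, y.2)) h1 h2
  refine h3.congr ?_
  filter_upwards [continuousAt_fst.preimage_mem_nhds
    ((chartAt (EV n) a).open_target.mem_nhds hy)] with q hq
  exact (chTs_eq_symm a hq).symm

/-- the inner product in a chart -/
theorem inner_eq_coefL (g : RMetric (EV n) M) (a : M) {x : M}
    (hx : x ∈ (chartAt (EV n) a).source) (v w : EV n) :
    coefL g a (chartAt (EV n) a x)
      (fderiv ℝ (trans (EV n) x a) (chartAt (EV n) x x) v)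
      (fderiv ℝ (trans (EV n) x a) (chartAt (EV n) x x) w) = (mt g).ip x v w := by
  refine (P255.coefL_apply g a ((chartAt (EV n) a).map_source hx) x
    ((chartAt (EV n) a).left_inv hx).symm _ _).trans ?_
  refine Eq.trans ?_ (ip_eq g x v w).symm
  exact congrArg₂ (fun a b : EV n => g.inner x (a : TangentSpace 𝓘(ℝ, EV n) x)
    (b : TangentSpace 𝓘(ℝ, EV n) x)) (fderiv_trans_back a hx v) (fderiv_trans_back a hx w)

/-- the norm of a tangent vector, from its state in a chart -/
theorem inner_chT (g : RMetric (EV n) M) (a : M) {p : TangentBundle 𝓘(ℝ, EV n) M}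
    (hp : p.1 ∈ (chartAt (EV n) a).source) :
    (coefL g a (chT a p).1 (chT a p).2 (chT a p).2 : ℝ) = g.inner p.1 p.2 p.2 :=
  (inner_eq_coefL g a hp p.2 p.2).trans (ip_eq g p.1 p.2 p.2)

/-- the norm of a tangent vector, from its state in a chart -/
theorem inner_chTs (g : RMetric (EV n) M) (a : M) {y : EV n × EV n}
    (hy : y.1 ∈ (chartAt (EV n) a).target) :
    g.inner (chTs a y).1 (chTs a y).2 (chTs a y).2 = coefL g a y.1 y.2 y.2 := by
  have hx : (chTs a y).1 ∈ (chartAt (EV n) a).source := (chartAt (EV n) a).map_target hy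
  rw [← inner_chT g a hx, chT_chTs a hy]

theorem continuous_pt_TB : Continuous (fun p : TangentBundle 𝓘(ℝ, EV n) M => p.1) :=
  FiberBundle.continuous_proj (EV n) (TangentSpace 𝓘(ℝ, EV n))

end Charts

/-! ### topology of the unit tangent bundle -/

section Top

theorem t2Space_TB [T2Space M] : T2Space (TangentBundle 𝓘(ℝ, EV n) M) := by
  rw [t2Space_iff_disjoint_nhds]
  intro p q hpq
  by_cases h : p.1 = q.1
  · have hp : p.1 ∈ (chartAt (EV n) p.1).source := mem_chart_source _ _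
    have hq : q.1 ∈ (chartAt (EV n) p.1).source := h ▸ hp
    have hne : chT p.1 p ≠ chT p.1 q := by
      intro he
      apply hpq
      rw [← chTs_chT p.1 hp, ← chTs_chT p.1 hq, he]
    exact (continuousAt_chT p.1 hp).tendsto.disjoint (disjoint_nhds_nhds.2 hne)
      (continuousAt_chT p.1 hq).tendsto
  · exact (continuous_pt_TB.tendsto p).disjoint (disjoint_nhds_nhds.2 h)
      (continuous_pt_TB.tendsto q)

theorem secondCountable_TB [CompactSpace M] :
    SecondCountableTopology (TangentBundle 𝓘(ℝ, EV n) M) := by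
  have hM : SecondCountableTopology M := ChartedSpace.secondCountable_of_sigmaCompact (EV n) M
  obtain ⟨t, ht⟩ := isCompact_univ.elim_nhds_subcover (X := M)
    (fun a => (chartAt (EV n) a).source) (fun a _ => chart_source_mem_nhds (EV n) a)
  let e : t → OpenPartialHomeomorph (TangentBundle 𝓘(ℝ, EV n) M) (M × EV n) := fun a =>
    (trivializationAt (EV n) (TangentSpace 𝓘(ℝ, EV n)) a.1).toOpenPartialHomeomorph
  have : ∀ a : t, SecondCountableTopology (e a).source := fun a =>
    (e a).secondCountableTopology_source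
  refine TopologicalSpace.secondCountableTopology_of_countable_cover
    (U := fun a : t => (e a).source) (fun a => (e a).open_source) ?_
  rw [eq_univ_iff_forall]
  intro p
  have hp := ht.2 (mem_univ p.1)
  simp only [mem_iUnion] at hp
  obtain ⟨a, ha, hpa⟩ := hp
  refine mem_iUnion.2 ⟨⟨a, ha⟩, ?_⟩
  change p ∈ (trivializationAt (EV n) (TangentSpace 𝓘(ℝ, EV n)) a).toOpenPartialHomeomorph.source
  rw [Trivialization.source_eq]
  exact hpa

theorem isCompact_UT [CompactSpace M] (g : RMetric (EV n) M) :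
    IsCompact {p : TangentBundle 𝓘(ℝ, EV n) M | g.inner p.1 p.2 p.2 = 1} := by
  -- local compactness
  have key : ∀ a : M, ∃ N ∈ 𝓝 a, ∃ K : Set (TangentBundle 𝓘(ℝ, EV n) M), IsCompact K ∧
      {p : TangentBundle 𝓘(ℝ, EV n) M | p.1 ∈ N ∧ g.inner p.1 p.2 p.2 = 1} ⊆ K ∧
      K ⊆ {p : TangentBundle 𝓘(ℝ, EV n) M | g.inner p.1 p.2 p.2 = 1} := by
    intro a
    have hG := (mt g).isMetricOn a
    obtain ⟨c, hc, hm⟩ := hG.lower_bound (mem_chart_target (EV n) a)
    have hopen := (chartAt (EV n) a).open_target.mem_nhds (mem_chart_target (EV n) a)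
    obtain ⟨r, hr, hball⟩ := Metric.nhds_basis_closedBall.mem_iff.1 (inter_mem hm hopen)
    set B := Metric.closedBall (chartAt (EV n) a a) r with hB
    set S : Set (EV n × EV n) := {y | y.1 ∈ B ∧ coefL g a y.1 y.2 y.2 = 1} with hS
    have hcont : ContinuousOn (fun y : EV n × EV n => coefL g a y.1 y.2 y.2)
        (B ×ˢ (univ : Set (EV n))) := by
      have h1 : ContinuousOn (fun y : EV n × EV n => coefL g a y.1) (B ×ˢ (univ : Set (EV n))) :=
        (P255.contDiffOn_coefL g a).continuousOn.comp continuousOn_fst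
          (fun y hy => (hball hy.1).2)
      exact (h1.clm_apply continuousOn_snd).clm_apply continuousOn_snd
    have hSc : IsCompact S := by
      have h2 : S = (B ×ˢ Metric.closedBall (0 : EV n) (Real.sqrt (1 / c))) ∩
          (fun y : EV n × EV n => coefL g a y.1 y.2 y.2) ⁻¹' {1} := by
        ext y
        simp only [hS, Set.mem_ofPred_eq, mem_inter_iff, mem_prod, mem_preimage, mem_singleton_iff]
        constructor
        · rintro ⟨h3, h4⟩
          refine ⟨⟨h3, ?_⟩, h4⟩
          rw [mem_closedBall_zero_iff]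
          apply Real.le_sqrt_of_sq_le
          rw [le_div_iff₀ hc]
          have h5 := (hball h3).1 y.2
          have h6 : (mt g).coef a y.1 y.2 y.2 = 1 := h4
          linarith only [h5, h6]
        · rintro ⟨⟨h3, -⟩, h4⟩
          exact ⟨h3, h4⟩
      rw [h2]
      have h7 : IsCompact (B ×ˢ Metric.closedBall (0 : EV n) (Real.sqrt (1 / c))) :=
        (isCompact_closedBall _ _).prod (isCompact_closedBall _ _)
      exact h7.of_isClosed_subset ((hcont.mono
        (prod_mono_right (subset_univ _))).preimage_isClosed_of_isClosed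
        h7.isClosed isClosed_singleton) inter_subset_left
    refine ⟨(chartAt (EV n) a) ⁻¹' B ∩ (chartAt (EV n) a).source, ?_, chTs a '' S, ?_, ?_, ?_⟩
    · exact inter_mem (((chartAt (EV n) a).continuousAt (mem_chart_source (EV n) a))
        (Metric.closedBall_mem_nhds _ hr)) (chart_source_mem_nhds (EV n) a)
    · apply hSc.image_of_continuousOn
      intro y hy
      exact (continuousAt_chTs a (hball hy.1).2).continuousWithinAt
    · rintro p ⟨⟨hp1, hp2⟩, hp3⟩
      refine ⟨chT a p, ⟨hp1, ?_⟩, chTs_chT a hp2⟩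
      exact (inner_chT g a hp2).trans hp3
    · rintro _ ⟨y, hy, rfl⟩
      exact (inner_chTs g a (hball hy.1).2).trans hy.2
  choose N hN K hK h1 h2 using key
  obtain ⟨t, ht⟩ := isCompact_univ.elim_nhds_subcover (X := M) N (fun a _ => hN a)
  have h3 : {p : TangentBundle 𝓘(ℝ, EV n) M | g.inner p.1 p.2 p.2 = 1} = ⋃ a ∈ t, K a := by
    apply Subset.antisymm
    · intro p hp
      have hp' := ht.2 (mem_univ p.1)
      simp only [mem_iUnion] at hp' ⊢
      obtain ⟨a, ha, hpa⟩ := hp'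
      exact ⟨a, ha, h1 a ⟨hpa, hp⟩⟩
    · exact iUnion₂_subset fun a _ => h2 a
  rw [h3]
  exact t.isCompact_biUnion fun a _ => hK a

variable [CompactSpace M] [T2Space M]

theorem compactSpace_UT (g : RMetric (EV n) M) : CompactSpace (UT g) :=
  isCompact_iff_compactSpace.1 (isCompact_UT g)

theorem t2Space_UT (g : RMetric (EV n) M) : T2Space (UT g) := by
  have := t2Space_TB (n := n) (M := M)
  exact inferInstanceAs (T2Space {p : TangentBundle 𝓘(ℝ, EV n) M // g.inner p.1 p.2 p.2 = 1})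

theorem secondCountable_UT (g : RMetric (EV n) M) : SecondCountableTopology (UT g) := by
  have := secondCountable_TB (n := n) (M := M)
  exact TopologicalSpace.Subtype.secondCountableTopology
    {p : TangentBundle 𝓘(ℝ, EV n) M | g.inner p.1 p.2 p.2 = 1}

theorem metrizableSpace_UT (g : RMetric (EV n) M) : TopologicalSpace.MetrizableSpace (UT g) := by
  have := t2Space_UT g
  have := compactSpace_UT g
  have := secondCountable_UT g
  infer_instance

end Top

/-! ### geodesics and their states -/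

section Geo

theorem isGeodesic_of_isGeo {g : RMetric (EV n) M} {γ : ℝ → M} (h : IsGeo g γ) :
    IsGeodesic (mt g) γ where
  cont := h.1.continuousOn
  eqn := by
    intro a t _ ha
    obtain ⟨e1, e2, e3⟩ := h.2 a t ha
    refine ⟨e1, e2, ?_⟩
    rw [P255.covDer_eq ((mt g).isMetricOn a) (F := coefIn g a) (fun _ _ _ _ => rfl)
      ((chartAt (EV n) a).map_source ha)] at e3
    exact eq_neg_of_add_eq_zero_left e3

theorem isGeo_of_isGeodesic {g : RMetric (EV n) M} {γ : ℝ → M} (h : IsGeodesic (mt g) γ) :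
    IsGeo g γ := by
  refine ⟨continuousOn_univ.1 h.cont, fun a t ha => ?_⟩
  obtain ⟨e1, e2, e3⟩ := h.eqn a t (mem_univ _) ha
  refine ⟨e1, e2, ?_⟩
  rw [P255.covDer_eq ((mt g).isMetricOn a) (F := coefIn g a) (fun _ _ _ _ => rfl)
    ((chartAt (EV n) a).map_source ha)]
  exact eq_neg_iff_add_eq_zero.1 e3

/-- the velocity of a curve, a point of the tangent bundle -/
def stv (γ : ℝ → M) (t : ℝ) : TangentBundle 𝓘(ℝ, EV n) M :=
  ⟨γ t, deriv (cc (E := EV n) γ (γ t)) t⟩

theorem chT_stv {g : RMetric (EV n) M} {γ : ℝ → M} (h : IsGeodesic (mt g) γ) {a : M} {t : ℝ}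
    (ha : γ t ∈ (chartAt (EV n) a).source) :
    chT a (stv γ t) = (cc γ a t, deriv (cc (E := EV n) γ a) t) := by
  have h0 : γ t ∈ (chartAt (EV n) (γ t)).source := mem_chart_source _ _
  unfold chT stv
  refine Prod.ext rfl ?_
  exact (P255.deriv_cc_trans (h.continuousAt t) h0 ha (h.eqn (γ t) t (mem_univ _) h0).1).symm

theorem stv_eq_of_deriv {g : RMetric (EV n) M} {γ : ℝ → M} (h : IsGeodesic (mt g) γ) {t : ℝ}
    {p : TangentBundle 𝓘(ℝ, EV n) M} (hp : γ t = p.1)
    (hv : deriv (cc (E := EV n) γ p.1) t = p.2) : stv γ t = p := by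
  have ha : (stv (n := n) γ t).1 ∈ (chartAt (EV n) p.1).source := by
    change γ t ∈ _
    rw [hp]; exact mem_chart_source _ _
  have ha' : p.1 ∈ (chartAt (EV n) p.1).source := mem_chart_source _ _
  refine (chTs_chT p.1 ha).symm.trans (Eq.trans ?_ (chTs_chT p.1 ha'))
  rw [chT_stv h ha]
  congr 1
  apply Prod.ext
  · change chartAt (EV n) p.1 (γ t) = _
    rw [hp]; rfl
  · exact hv.trans (P255.fderiv_trans_self p.1 (mem_chart_target (EV n) p.1) _).symm

/-- the norm of the velocity is constant -/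
theorem inner_stv {g : RMetric (EV n) M} {γ : ℝ → M} (h : IsGeodesic (mt g) γ) (t : ℝ) :
    g.inner (stv (n := n) γ t).1 (stv (n := n) γ t).2 (stv (n := n) γ t).2 =
      g.inner (stv (n := n) γ 0).1 (stv (n := n) γ 0).2 (stv (n := n) γ 0).2 := by
  rw [← ip_eq, ← ip_eq]
  exact h.sp_const isOpen_univ isPreconnected_univ (mem_univ t) (mem_univ 0)

variable [T2Space M]

/-- uniqueness of geodesics -/
theorem geodesic_ext {g : RMetric (EV n) M} {γ₁ γ₂ : ℝ → M} (h₁ : IsGeodesic (mt g) γ₁)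
    (h₂ : IsGeodesic (mt g) γ₂) {t : ℝ} (h : stv (n := n) γ₁ t = stv γ₂ t) : γ₁ = γ₂ := by
  have h0 : γ₁ t ∈ (chartAt (EV n) (γ₁ t)).source := mem_chart_source _ _
  have he : γ₁ t = γ₂ t := congrArg (fun p : TangentBundle 𝓘(ℝ, EV n) M => p.1) h
  have h1 := congrArg (chT (γ₁ t)) h
  rw [chT_stv h₁ h0, chT_stv h₂ (he ▸ h0)] at h1
  exact P255.IsGeodesic.ext h₁ h₂ he h0 (congrArg Prod.snd h1)

/-- shift of a geodesic -/
theorem isGeodesic_shift {g : RMetric (EV n) M} {γ : ℝ → M} (h : IsGeodesic (mt g) γ) (t : ℝ) :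
    IsGeodesic (mt g) (fun s => γ (s + t)) := by
  have h1 := P255.IsGeodesicOn.comp_affine h isOpen_univ 1 t
  simp only [one_mul] at h1
  exact h1.mono (fun _ _ => mem_univ _)

theorem stv_shift (γ : ℝ → M) (s t : ℝ) :
    stv (n := n) (fun s => γ (s + t)) s = stv γ (s + t) := by
  unfold stv
  congr 1
  exact deriv_comp_add_const (cc (E := EV n) γ (γ (s + t))) t s

variable [CompactSpace M]

theorem stv_geo_zero (g : RMetric (EV n) M) (p : TangentBundle 𝓘(ℝ, EV n) M) :
    stv (geo (mt g) p.1 (p.2 : EV n)) 0 = p :=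
  stv_eq_of_deriv (P255.isGeodesic_geo (mt g) p.1 (p.2 : EV n)) (P255.geo_zero (mt g) p.1 _)
    (P255.deriv_geo (mt g) p.1 _)

/-- every geodesic is `geo` of its initial velocity -/
theorem eq_geo {g : RMetric (EV n) M} {γ : ℝ → M} (h : IsGeodesic (mt g) γ)
    {p : TangentBundle 𝓘(ℝ, EV n) M} (hp : stv γ 0 = p) : γ = geo (mt g) p.1 (p.2 : EV n) :=
  geodesic_ext h (P255.isGeodesic_geo (mt g) p.1 _) (hp.trans (stv_geo_zero g p).symm)

end Geo

/-! ### the flow -/

section Flow

set_option linter.unusedSectionVars false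

variable [CompactSpace M] [T2Space M] {g : RMetric (EV n) M} {φ ψ : ℝ → UT g → UT g}

omit [CompactSpace M] [T2Space M] in
theorem mfderiv_curve {γ : ℝ → M} (h : IsGeodesic (mt g) γ) (t : ℝ) :
    (mfderiv 𝓘(ℝ, ℝ) 𝓘(ℝ, EV n) γ t (1 : ℝ) : EV n) = deriv (cc (E := EV n) γ (γ t)) t := by
  have h0 : γ t ∈ (chartAt (EV n) (γ t)).source := mem_chart_source _ _
  have hd : DifferentiableAt ℝ (cc (E := EV n) γ (γ t)) t := (h.eqn (γ t) t (mem_univ _) h0).1
  have h1 : HasMFDerivAt 𝓘(ℝ, ℝ) 𝓘(ℝ, EV n) γ t (fderiv ℝ (cc (E := EV n) γ (γ t)) t) := by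
    refine ⟨h.continuousAt t, ?_⟩
    simp only [modelWithCornersSelf_coe, range_id]
    exact hd.hasFDerivAt.hasFDerivWithinAt
  rw [h1.mfderiv]
  exact fderiv_apply_one_eq_deriv (f := cc (E := EV n) γ (γ t)) (x := t)

theorem exists_geoFlow (g : RMetric (EV n) M) : ∃ φ : ℝ → UT g → UT g, IsGeoFlow g φ := by
  refine ⟨fun t p => ⟨stv (geo (mt g) p.1.1 (p.1.2 : EV n)) t, ?_⟩, fun p => ⟨?_, ?_, ?_⟩⟩
  · rw [inner_stv (P255.isGeodesic_geo (mt g) p.1.1 (p.1.2 : EV n)), stv_geo_zero g p.1]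
    exact p.2
  · exact Subtype.ext (stv_geo_zero g p.1)
  · exact isGeo_of_isGeodesic (P255.isGeodesic_geo (mt g) p.1.1 (p.1.2 : EV n))
  · intro t
    exact mfderiv_curve (P255.isGeodesic_geo (mt g) p.1.1 (p.1.2 : EV n)) t

theorem IsGeoFlow.val_eq (hφ : IsGeoFlow g φ) (t : ℝ) (p : UT g) :
    (φ t p).1 = stv (geo (mt g) p.1.1 (p.1.2 : EV n)) t := by
  obtain ⟨h0, h1, h2⟩ := hφ p
  have hc := isGeodesic_of_isGeo h1
  have h3 : ∀ t, stv (fun t => (φ t p).pt) t = (φ t p).1 := by
    intro t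
    have h4 := h2 t
    have h5 := mfderiv_curve hc t
    exact congrArg (fun v : TangentSpace 𝓘(ℝ, EV n) (φ t p).1.1 =>
      (⟨(φ t p).1.1, v⟩ : TangentBundle 𝓘(ℝ, EV n) M)) (h5.symm.trans h4)
  have h7 := eq_geo hc ((h3 0).trans (congrArg Subtype.val h0))
  rw [← h3 t, h7]

theorem IsGeoFlow.unique (hφ : IsGeoFlow g φ) (hψ : IsGeoFlow g ψ) : φ = ψ := by
  funext t p
  exact Subtype.ext ((hφ.val_eq t p).trans (hψ.val_eq t p).symm)

theorem IsGeoFlow.add (hφ : IsGeoFlow g φ) (s t : ℝ) (p : UT g) :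
    φ (s + t) p = φ s (φ t p) := by
  apply Subtype.ext
  have h1 := P255.isGeodesic_geo (mt g) p.1.1 (p.1.2 : EV n)
  have h2 := isGeodesic_shift h1 t
  have h3 : stv (n := n) (fun s => geo (mt g) p.1.1 (p.1.2 : EV n) (s + t)) 0 = (φ t p).1 := by
    rw [stv_shift, zero_add, hφ.val_eq]
  have h4 := eq_geo h2 h3
  rw [hφ.val_eq (s + t) p, hφ.val_eq s (φ t p), ← h4, stv_shift]

theorem IsGeoFlow.zero (hφ : IsGeoFlow g φ) (p : UT g) : φ 0 p = p := (hφ p).1

theorem IsGeoFlow.pt_eq (hφ : IsGeoFlow g φ) (t : ℝ) (p : UT g) :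
    (φ t p).pt = geo (mt g) p.pt (p.vec : EV n) t :=
  congrArg (fun p : TangentBundle 𝓘(ℝ, EV n) M => p.1) (hφ.val_eq t p)

theorem IsGeoFlow.vec_eq (hφ : IsGeoFlow g φ) (t : ℝ) (p : UT g) :
    ((φ t p).vec : EV n) =
      deriv (cc (E := EV n) (geo (mt g) p.pt (p.vec : EV n)) (φ t p).pt) t := by
  have h := mfderiv_curve (isGeodesic_of_isGeo (hφ p).2.1) t
  have h2 := ((hφ p).2.2 t).symm.trans h
  refine h2.trans ?_
  congr 2
  funext s
  exact hφ.pt_eq s p

/-- the state of the flow in a chart -/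
theorem IsGeoFlow.chT_eq (hφ : IsGeoFlow g φ) {t : ℝ} {p : UT g} {a : M}
    (ha : (φ t p).pt ∈ (chartAt (EV n) a).source) :
    chT a (φ t p).1 = (cc (geo (mt g) p.pt (p.vec : EV n)) a t,
      deriv (cc (E := EV n) (geo (mt g) p.pt (p.vec : EV n)) a) t) := by
  rw [hφ.val_eq]
  rw [hφ.pt_eq] at ha
  exact chT_stv (P255.isGeodesic_geo (mt g) p.1.1 (p.1.2 : EV n)) ha

theorem continuous_val (g : RMetric (EV n) M) : Continuous (fun p : UT g => p.1) :=
  continuous_subtype_val

theorem continuous_pt (g : RMetric (EV n) M) : Continuous (fun p : UT g => p.pt) :=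
  continuous_pt_TB.comp (continuous_val g)

/-- flow boxes: near `p₀`, for short times, the flow in the chart at `a` is the local flow `Φ` -/
theorem IsGeoFlow.exists_box (hφ : IsGeoFlow g φ) (p₀ : UT g) {a : M}
    (ha : p₀.pt ∈ (chartAt (EV n) a).source) :
    ∃ ε > 0, ∃ W : Set (EV n × EV n), IsOpen W ∧ chT a p₀.1 ∈ W ∧
      W ⊆ (chartAt (EV n) a).target ×ˢ (univ : Set (EV n)) ∧
      ∃ Φ : ℝ → EV n × EV n → EV n × EV n,
      (∀ x ∈ W, Φ 0 x = x) ∧
      (∀ x ∈ W, ∀ t ∈ Ioo (-ε) ε, Φ t x ∈ (chartAt (EV n) a).target ×ˢ (univ : Set (EV n)) ∧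
        HasDerivAt (fun s => Φ s x) (P255.geoField ((mt g).coef a) (Φ t x)) t) ∧
      ContDiffOn ℝ 1 (fun p : ℝ × (EV n × EV n) => Φ p.1 p.2) (Ioo (-ε) ε ×ˢ W) ∧
      (∀ x ∈ W, ∀ w, ∀ t ∈ Ioo (-ε) ε,
        HasDerivAt (fun s => fderiv ℝ (Φ s) x w)
          (fderiv ℝ (P255.geoField ((mt g).coef a)) (Φ t x) (fderiv ℝ (Φ t) x w)) t) ∧
      ∀ p : UT g, p.pt ∈ (chartAt (EV n) a).source → chT a p.1 ∈ W → ∀ t ∈ Ioo (-ε) ε,
        (φ t p).pt ∈ (chartAt (EV n) a).source ∧ chT a (φ t p).1 = Φ t (chT a p.1) := by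
  obtain ⟨ε, hε, W, hWo, hxW, Φ, hΦ0, hΦ, hΦ1, hΦ2⟩ :=
    P255.exists_flow (P255.geoField ((mt g).coef a))
    ((chartAt (EV n) a).target ×ˢ (univ : Set (EV n)))
    ((chartAt (EV n) a).open_target.prod isOpen_univ) ((mt g).isMetricOn a).contDiffOn_geoField
    (chT a p₀.1) ⟨(chartAt (EV n) a).map_source ha, mem_univ _⟩
  refine ⟨ε, hε, W, hWo, hxW, ?_, Φ, hΦ0, hΦ, hΦ1, hΦ2, ?_⟩
  · intro x hx
    have h := (hΦ x hx 0 ⟨by linarith only [hε], hε⟩).1
    rwa [hΦ0 x hx] at h
  · intro p hp hpW t ht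
    have hgeo := P255.isGeodesic_geo (mt g) p.1.1 (p.1.2 : EV n)
    have h0 : chT a p.1 = (cc (geo (mt g) p.1.1 (p.1.2 : EV n)) a 0,
        deriv (cc (E := EV n) (geo (mt g) p.1.1 (p.1.2 : EV n)) a) 0) := by
      have h1 := hφ.chT_eq (t := 0) (p := p) (a := a) (by rw [hφ.zero]; exact hp)
      rw [hφ.zero] at h1
      exact h1
    have hz : geo (mt g) p.1.1 (p.1.2 : EV n) 0 = p.1.1 := P255.geo_zero (mt g) _ _
    have hp0 : geo (mt g) p.1.1 (p.1.2 : EV n) 0 ∈ (chartAt (EV n) a).source :=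
      (congrArg (fun x => x ∈ (chartAt (EV n) a).source) hz).mpr hp
    have h2 := hgeo.flow hε hΦ0 hΦ (t₀ := 0) (a := a) hp0 (by rw [← h0]; exact hpW) ht
    rw [zero_add, ← h0] at h2
    have h3 : (φ t p).pt ∈ (chartAt (EV n) a).source := by
      rw [hφ.pt_eq]; exact h2.1
    exact ⟨h3, (hφ.chT_eq h3).trans h2.2⟩

theorem IsGeoFlow.continuous_local (hφ : IsGeoFlow g φ) (p₀ : UT g) :
    ∃ U ∈ 𝓝 p₀, ∃ ε > 0, ∀ p ∈ U, ∀ t : ℝ, |t| < ε →
      ContinuousAt (fun q : ℝ × UT g => φ q.1 q.2) (t, p) := by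
  have ha : p₀.pt ∈ (chartAt (EV n) p₀.pt).source := mem_chart_source _ _
  set a := p₀.pt with hadef
  obtain ⟨ε, hε, W, hWo, hxW, hWt, Φ, hΦ0, hΦ, hΦ1, -, hbox⟩ := hφ.exists_box p₀ ha
  have hU : {p : UT g | p.pt ∈ (chartAt (EV n) a).source ∧ chT a p.1 ∈ W} ∈ 𝓝 p₀ := by
    refine inter_mem ?_ ?_
    · exact (continuous_pt g).continuousAt.preimage_mem_nhds
        ((chartAt (EV n) a).open_source.mem_nhds ha)
    · exact (ContinuousAt.comp (g := chT a) (f := fun p : UT g => p.1) (continuousAt_chT a ha)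
        (continuous_val g).continuousAt).preimage_mem_nhds (hWo.mem_nhds hxW)
  obtain ⟨U, hUsub, hUo, hU0⟩ := mem_nhds_iff.1 hU
  refine ⟨U, hUo.mem_nhds hU0, ε, hε, fun p hp t ht => ?_⟩
  have htε : t ∈ Ioo (-ε) ε := abs_lt.1 ht
  have hpU := hUsub hp
  have h1 : ∀ᶠ q : ℝ × UT g in 𝓝 (t, p), q.1 ∈ Ioo (-ε) ε ∧ q.2 ∈ U := by
    have h2 : ∀ᶠ q : ℝ × UT g in 𝓝 (t, p), q.1 ∈ Ioo (-ε) ε :=
      continuous_fst.continuousAt.eventually (isOpen_Ioo.mem_nhds htε)
    have h3 : ∀ᶠ q : ℝ × UT g in 𝓝 (t, p), q.2 ∈ U :=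
      continuous_snd.continuousAt.eventually (hUo.mem_nhds hp)
    exact h2.and h3
  have h2 : (fun q : ℝ × UT g => (φ q.1 q.2).1) =ᶠ[𝓝 (t, p)]
      fun q => chTs a (Φ q.1 (chT a q.2.1)) := by
    filter_upwards [h1] with q hq
    have h3 := hbox q.2 (hUsub hq.2).1 (hUsub hq.2).2 q.1 hq.1
    rw [← h3.2]
    exact (chTs_chT a h3.1).symm
  have h3 : ContinuousAt (fun q : ℝ × UT g => chTs a (Φ q.1 (chT a q.2.1))) (t, p) := by
    have h4 : ContinuousAt (fun x : ℝ × (EV n × EV n) => Φ x.1 x.2) (t, chT a p.1) :=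
      (hΦ1.contDiffAt ((isOpen_Ioo.prod hWo).mem_nhds ⟨htε, hpU.2⟩)).continuousAt
    have h5 : ContinuousAt (fun q : ℝ × UT g => (q.1, chT a q.2.1)) (t, p) := by
      refine continuousAt_fst.prodMk ?_
      exact ContinuousAt.comp (g := chT a) (f := fun q : ℝ × UT g => q.2.1)
        (continuousAt_chT a hpU.1) ((continuous_val g).comp continuous_snd).continuousAt
    have h6 := ContinuousAt.comp (f := fun q : ℝ × UT g => (q.1, chT a q.2.1))
      (g := fun x : ℝ × (EV n × EV n) => Φ x.1 x.2) (x := (t, p)) h4 h5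
    exact ContinuousAt.comp (g := chTs a) (x := (t, p))
      (f := fun q : ℝ × UT g => Φ q.1 (chT a q.2.1))
      (continuousAt_chTs a (hΦ (chT a p.1) hpU.2 t htε).1.1) h6
  have h7 := h3.congr h2.symm
  exact Topology.IsInducing.subtypeVal.continuousAt_iff.2 h7

theorem IsGeoFlow.continuous (hφ : IsGeoFlow g φ) :
    Continuous (fun q : ℝ × UT g => φ q.1 q.2) := by
  have hcomp := compactSpace_UT g
  have h1 : ∃ ε > 0, ∀ p ∈ (univ : Set (UT g)), ∀ t : ℝ, |t| < ε →
      ContinuousAt (fun q : ℝ × UT g => φ q.1 q.2) (t, p) := by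
    refine isCompact_univ.induction_on (p := fun S : Set (UT g) => ∃ ε > 0, ∀ p ∈ S, ∀ t : ℝ,
      |t| < ε → ContinuousAt (fun q : ℝ × UT g => φ q.1 q.2) (t, p)) ?_ ?_ ?_ ?_
    · exact ⟨1, one_pos, fun p hp => hp.elim⟩
    · rintro S T hST ⟨ε, hε, h⟩
      exact ⟨ε, hε, fun p hp => h p (hST hp)⟩
    · rintro S T ⟨ε, hε, h⟩ ⟨ε', hε', h'⟩
      refine ⟨min ε ε', lt_min hε hε', ?_⟩
      rintro p (hp | hp) t ht
      · exact h p hp t (lt_of_lt_of_le ht (min_le_left _ _))
      · exact h' p hp t (lt_of_lt_of_le ht (min_le_right _ _))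
    · intro p _
      obtain ⟨U, hU, ε, hε, h⟩ := hφ.continuous_local p
      exact ⟨U, mem_nhdsWithin_of_mem_nhds hU, ε, hε, h⟩
  obtain ⟨ε, hε, h1⟩ := h1
  have h2 : ∀ N : ℕ, ∀ (t : ℝ) (p : UT g), |t| < (N + 1) * ε →
      ContinuousAt (fun q : ℝ × UT g => φ q.1 q.2) (t, p) := by
    intro N
    induction N with
    | zero =>
      intro t p ht
      exact h1 p (mem_univ _) t (by simpa using ht)
    | succ N ih =>
      intro t p ht
      push_cast at ht
      set k : ℝ := (N : ℝ) + 1 with hk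
      have hk0 : 0 < k := by positivity
      have e1 : ∀ (s : ℝ) (x : UT g), φ s x = φ (s / (k + 1)) (φ (s * k / (k + 1)) x) := by
        intro s x
        rw [← hφ.add]
        congr 1
        field_simp
        ring
      have e2 : |t * k / (k + 1)| < k * ε := by
        rw [abs_div, abs_mul, abs_of_pos hk0, abs_of_pos (by positivity : (0 : ℝ) < k + 1),
          div_lt_iff₀ (by positivity)]
        calc |t| * k < (k + 1) * ε * k := mul_lt_mul_of_pos_right ht hk0
          _ = k * ε * (k + 1) := by ring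
      have e3 : |t / (k + 1)| < ε := by
        rw [abs_div, abs_of_pos (by positivity : (0 : ℝ) < k + 1), div_lt_iff₀ (by positivity)]
        calc |t| < (k + 1) * ε := ht
          _ = ε * (k + 1) := by ring
      have e4 : ContinuousAt (fun q : ℝ × UT g => φ (q.1 * k / (k + 1)) q.2) (t, p) :=
        ContinuousAt.comp (x := (t, p)) (g := fun q : ℝ × UT g => φ q.1 q.2)
          (f := fun q : ℝ × UT g => (q.1 * k / (k + 1), q.2)) (ih _ p e2)
          (by fun_prop)
      have e5 : ContinuousAt (fun q : ℝ × UT g =>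
          (q.1 / (k + 1), φ (q.1 * k / (k + 1)) q.2)) (t, p) :=
        ContinuousAt.prodMk (by fun_prop) e4
      have e6 := ContinuousAt.comp (x := (t, p)) (g := fun q : ℝ × UT g => φ q.1 q.2)
          (f := fun q : ℝ × UT g => (q.1 / (k + 1), φ (q.1 * k / (k + 1)) q.2))
          (h1 _ (mem_univ _) _ e3) e5
      refine e6.congr (Eventually.of_forall fun q => ?_)
      exact (e1 q.1 q.2).symm
  rw [continuous_iff_continuousAt]
  rintro ⟨t, p⟩
  obtain ⟨N, hN⟩ := exists_nat_gt (|t| / ε)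
  refine h2 N t p ?_
  rw [div_lt_iff₀ hε] at hN
  nlinarith only [hN, hε]

theorem IsGeoFlow.continuous_right (hφ : IsGeoFlow g φ) (t : ℝ) : Continuous (φ t) :=
  hφ.continuous.comp (Continuous.prodMk continuous_const continuous_id)

theorem IsGeoFlow.continuous_left (hφ : IsGeoFlow g φ) (p : UT g) : Continuous (fun t => φ t p) :=
  hφ.continuous.comp (Continuous.prodMk continuous_id continuous_const)

theorem IsGeoFlow.iterate (hφ : IsGeoFlow g φ) (t : ℝ) (k : ℕ) (p : UT g) :
    (φ t)^[k] p = φ (k * t) p := by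
  induction k generalizing p with
  | zero => simp [hφ.zero]
  | succ k ih =>
    rw [Function.iterate_succ_apply, ih, ← hφ.add]
    congr 1
    push_cast
    ring

end Flow

end Vale.Agent.P207
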