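import Vale.Agent.P207.Base

/-!
# P207, block V, part 0: chart calculus for densities and spherical averages
-/

open scoped Manifold ContDiff ENNReal Topology
open Bundle MeasureTheory Set Filter

noncomputable section

set_option maxSynthPendingDepth 3
set_option linter.unusedSectionVars false

namespace Vale.Agent.P207

open Vale.Agent.P255 (RMetric coefIn Gam Riem IsGeo Metric Npc ExpSys toMetric geo expg trans coefL
  IsMetricOn)

/-! ### Gram matrices -/

section Gram

variable {n : ℕ}

/-- Gram matrix of a bilinear form in the standard basis -/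
def gramE (B : EV n →L[ℝ] EV n →L[ℝ] ℝ) : Matrix (Fin n) (Fin n) ℝ :=
  Matrix.of fun i j => B (EuclideanSpace.single i 1) (EuclideanSpace.single j 1)

/-- the standard basis -/
abbrev stdB (n : ℕ) : Module.Basis (Fin n) ℝ (EV n) := (EuclideanSpace.basisFun (Fin n) ℝ).toBasis

/-- the algebraic bilinear form -/
def toBF (B : EV n →L[ℝ] EV n →L[ℝ] ℝ) : LinearMap.BilinForm ℝ (EV n) :=
  LinearMap.mk₂ ℝ (fun v w => B v w) (by simp) (by simp) (by simp) (by simp)

theorem toBF_apply (B : EV n →L[ℝ] EV n →L[ℝ] ℝ) (v w : EV n) : toBF B v w = B v w := rfl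

theorem gramE_eq (B : EV n →L[ℝ] EV n →L[ℝ] ℝ) :
    gramE B = LinearMap.BilinForm.toMatrix (stdB n) (toBF B) := by
  ext i j
  simp [gramE, LinearMap.BilinForm.toMatrix_apply, toBF_apply]

theorem gramE_comp_det (B : EV n →L[ℝ] EV n →L[ℝ] ℝ) (D : EV n →L[ℝ] EV n) :
    (gramE (B.bilinearComp D D)).det = D.det ^ 2 * (gramE B).det := by
  have h : toBF (B.bilinearComp D D) = (toBF B).comp (D : EV n →ₗ[ℝ] EV n) (D : EV n →ₗ[ℝ] EV n) := by
    ext i j
    rfl
  rw [gramE_eq, gramE_eq, h, LinearMap.BilinForm.toMatrix_comp (stdB n) (stdB n),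
    Matrix.det_mul, Matrix.det_mul, Matrix.det_transpose, LinearMap.det_toMatrix]
  change LinearMap.det _ * _ * LinearMap.det _ = (LinearMap.det (D : EV n →ₗ[ℝ] EV n)) ^ 2 * _
  ring

theorem gramE_det_pos {B : EV n →L[ℝ] EV n →L[ℝ] ℝ} (hs : ∀ v w, B v w = B w v)
    (hp : ∀ v, v ≠ 0 → 0 < B v v) : 0 < (gramE B).det := by
  apply Matrix.PosDef.det_pos
  refine Matrix.PosDef.of_dotProduct_mulVec_pos ?_ ?_
  · ext i j
    simp [gramE, hs (EuclideanSpace.single j 1)]
  · intro x hx
    have hx' : (WithLp.toLp 2 x : EV n) ≠ 0 := by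
      intro h
      apply hx
      have := congrArg (fun y : EV n => (y : Fin n → ℝ)) h
      simpa using this
    have h1 := hp _ hx'
    have h2 : (WithLp.toLp 2 x : EV n) = ∑ i, x i • EuclideanSpace.single i (1 : ℝ) := by
      ext j
      simp [Finset.sum_apply, Pi.single_apply]
    rw [h2] at h1
    refine h1.trans_eq ?_
    simp only [map_sum, map_smul, dotProduct, Matrix.mulVec, gramE, Matrix.of_apply, star_trivial,
      sum_apply, smul_apply, smul_eq_mul, Finset.mul_sum]
    refine Finset.sum_comm.trans ?_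
    refine Finset.sum_congr rfl fun i _ => Finset.sum_congr rfl fun j _ => ?_
    ring

end Gram

/-! ### densities of the volume in charts -/

section Dens

variable {n : ℕ} {M : Type} [TopologicalSpace M] [ChartedSpace (EV n) M]
  [IsManifold 𝓘(ℝ, EV n) ∞ M]

/-- density of the volume in the chart at `a` -/
def dens (g : RMetric (EV n) M) (a : M) (u : EV n) : ℝ := Real.sqrt (gramE (coefL g a u)).det

theorem isRiemVol_iff [MeasurableSpace M] {g : RMetric (EV n) M} {μ : Measure M} :
    IsRiemVol g μ ↔ ∀ (a : M) (s : Set M), MeasurableSet s → s ⊆ (chartAt (EV n) a).source →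
      μ s = ∫⁻ u in (chartAt (EV n) a) '' s, ENNReal.ofReal (dens g a u) := Iff.rfl

theorem coefL_symm (g : RMetric (EV n) M) (a : M) {u : EV n} (hu : u ∈ (chartAt (EV n) a).target)
    (v w : EV n) : coefL g a u v w = coefL g a u w v := (mt g).symm a u hu v w

theorem coefL_pos (g : RMetric (EV n) M) (a : M) {u : EV n} (hu : u ∈ (chartAt (EV n) a).target)
    {v : EV n} (hv : v ≠ 0) : 0 < coefL g a u v v := (mt g).pos a u hu v hv

theorem coefL_trans (g : RMetric (EV n) M) (a b : M) {u : EV n}
    (hu : u ∈ (chartAt (EV n) a).target)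
    (hb : (chartAt (EV n) a).symm u ∈ (chartAt (EV n) b).source) :
    coefL g a u = (coefL g b (trans (EV n) a b u)).bilinearComp (fderiv ℝ (trans (EV n) a b) u)
      (fderiv ℝ (trans (EV n) a b) u) := by
  ext v w
  exact ((mt g).compat a b u hu hb v w).symm

theorem dens_trans (g : RMetric (EV n) M) (a b : M) {u : EV n}
    (hu : u ∈ (chartAt (EV n) a).target)
    (hb : (chartAt (EV n) a).symm u ∈ (chartAt (EV n) b).source) :
    dens g a u = |(fderiv ℝ (trans (EV n) a b) u).det| * dens g b (trans (EV n) a b u) := by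
  unfold dens
  rw [coefL_trans g a b hu hb, gramE_comp_det, Real.sqrt_mul (sq_nonneg _), Real.sqrt_sq_eq_abs]

theorem dens_pos (g : RMetric (EV n) M) (a : M) {u : EV n} (hu : u ∈ (chartAt (EV n) a).target) :
    0 < dens g a u :=
  Real.sqrt_pos.2 (gramE_det_pos (coefL_symm g a hu) (fun _ hv => coefL_pos g a hu hv))

theorem continuousOn_coefL (g : RMetric (EV n) M) (a : M) :
    ContinuousOn (coefL g a) (chartAt (EV n) a).target := ((mt g).smooth a).continuousOn

theorem continuousOn_dens (g : RMetric (EV n) M) (a : M) :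
    ContinuousOn (dens g a) (chartAt (EV n) a).target := by
  refine Real.continuous_sqrt.comp_continuousOn ?_
  have h1 : Continuous (fun B : EV n →L[ℝ] EV n →L[ℝ] ℝ => (gramE B).det) := by
    apply Continuous.matrix_det
    refine continuous_matrix fun i j => ?_
    exact (ContinuousLinearMap.apply ℝ ℝ (EuclideanSpace.single j (1 : ℝ) : EV n)).continuous.comp
      (ContinuousLinearMap.apply ℝ (EV n →L[ℝ] ℝ)
        (EuclideanSpace.single i (1 : ℝ) : EV n)).continuous
  exact h1.comp_continuousOn (continuousOn_coefL g a)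

omit [IsManifold 𝓘(ℝ, EV n) ∞ M] in
/-- images of measurable sets under charts are measurable -/
theorem measurableSet_chart_image [MeasurableSpace M] [BorelSpace M] (a : M) {s : Set M}
    (hs : MeasurableSet s) (h : s ⊆ (chartAt (EV n) a).source) :
    MeasurableSet (chartAt (EV n) a '' s) := by
  have e : chartAt (EV n) a '' s = (chartAt (EV n) a).target ∩ (chartAt (EV n) a).symm ⁻¹' s := by
    ext u
    constructor
    · rintro ⟨x, hx, rfl⟩
      exact ⟨(chartAt (EV n) a).map_source (h hx), by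
        simpa [(chartAt (EV n) a).left_inv (h hx)] using hx⟩
    · rintro ⟨h1, h2⟩
      exact ⟨_, h2, (chartAt (EV n) a).right_inv h1⟩
  rw [e]
  have hm : MeasurableSet (chartAt (EV n) a).target := (chartAt (EV n) a).open_target.measurableSet
  have hc : ContinuousOn (chartAt (EV n) a).symm (chartAt (EV n) a).target :=
    (chartAt (EV n) a).continuousOn_symm
  have h1 : Measurable ((chartAt (EV n) a).target.domRestrict (chartAt (EV n) a).symm) :=
    (continuousOn_iff_continuous_domRestrict.1 hc).measurable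
  have h2 := hm.subtype_image (h1 hs)
  convert h2 using 1
  ext u
  constructor
  · rintro ⟨h3, h4⟩; exact ⟨⟨u, h3⟩, h4, rfl⟩
  · rintro ⟨⟨v, h3⟩, h4, rfl⟩; exact ⟨h3, h4⟩

omit [IsManifold 𝓘(ℝ, EV n) ∞ M] in
theorem trans_image (a b : M) {s : Set M} (ha : s ⊆ (chartAt (EV n) a).source) :
    chartAt (EV n) b '' s = trans (EV n) a b '' (chartAt (EV n) a '' s) := by
  rw [image_image]
  refine image_congr fun x hx => ?_
  simp only [P255.trans, (chartAt (EV n) a).left_inv (ha hx)]

omit [IsManifold 𝓘(ℝ, EV n) ∞ M] in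
theorem injOn_trans (a b : M) {s : Set M} (ha : s ⊆ (chartAt (EV n) a).source)
    (hb : s ⊆ (chartAt (EV n) b).source) : InjOn (trans (EV n) a b) (chartAt (EV n) a '' s) := by
  rintro _ ⟨x, hx, rfl⟩ _ ⟨y, hy, rfl⟩ h
  simp only [P255.trans, (chartAt (EV n) a).left_inv (ha hx), (chartAt (EV n) a).left_inv (ha hy)] at h
  rw [(chartAt (EV n) b).injOn (hb hx) (hb hy) h]

/-- change of charts in integrals against the volume density -/
theorem lintegral_chart_image [MeasurableSpace M] [BorelSpace M] (g : RMetric (EV n) M) (a b : M)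
    {s : Set M} (hs : MeasurableSet s) (ha : s ⊆ (chartAt (EV n) a).source)
    (hb : s ⊆ (chartAt (EV n) b).source) (f : M → ℝ≥0∞) :
    ∫⁻ u in chartAt (EV n) b '' s, ENNReal.ofReal (dens g b u) * f ((chartAt (EV n) b).symm u) =
      ∫⁻ u in chartAt (EV n) a '' s, ENNReal.ofReal (dens g a u) * f ((chartAt (EV n) a).symm u) := by
  rw [trans_image a b ha, lintegral_image_eq_lintegral_abs_det_fderiv_mul volume
    (measurableSet_chart_image a hs ha) (f' := fun u => fderiv ℝ (trans (EV n) a b) u) ?_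
    (injOn_trans a b ha hb)]
  · refine setLIntegral_congr_fun (measurableSet_chart_image a hs ha) ?_
    rintro _ ⟨x, hx, rfl⟩
    have hu := (chartAt (EV n) a).map_source (ha hx)
    have e : (chartAt (EV n) a).symm (chartAt (EV n) a x) = x := (chartAt (EV n) a).left_inv (ha hx)
    have e2 : (chartAt (EV n) b).symm (trans (EV n) a b (chartAt (EV n) a x)) = x := by
      simp only [P255.trans, e, (chartAt (EV n) b).left_inv (hb hx)]
    have hb' : (chartAt (EV n) a).symm (chartAt (EV n) a x) ∈ (chartAt (EV n) b).source := by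
      rw [e]; exact hb hx
    simp only [e, e2]
    rw [dens_trans g a b hu hb', ENNReal.ofReal_mul (abs_nonneg _), mul_assoc]
  · rintro _ ⟨x, hx, rfl⟩
    have hu := (chartAt (EV n) a).map_source (ha hx)
    have e : (chartAt (EV n) a).symm (chartAt (EV n) a x) = x := (chartAt (EV n) a).left_inv (ha hx)
    have hb' : (chartAt (EV n) a).symm (chartAt (EV n) a x) ∈ (chartAt (EV n) b).source := by
      rw [e]; exact hb hx
    exact ((P255.contDiffAt_trans_chart a b hu hb').differentiableAt (by simp)).hasFDerivAt.hasFDerivWithinAt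

end Dens

/-! ### averages over balls of quadratic forms -/

section Avg

variable {n : ℕ}

/-- the open unit ball of `B` -/
def ballB (B : EV n →L[ℝ] EV n →L[ℝ] ℝ) : Set (EV n) := {v | B v v < 1}

/-- the average over the unit ball of `B` -/
def avgB (B : EV n →L[ℝ] EV n →L[ℝ] ℝ) (F : EV n → ℝ) : ℝ :=
  (∫ v in ballB B, F v) / volume.real (ballB B)

theorem continuous_quad (B : EV n →L[ℝ] EV n →L[ℝ] ℝ) : Continuous (fun v => B v v) :=
  B.continuous.clm_apply continuous_id

theorem isOpen_ballB (B : EV n →L[ℝ] EV n →L[ℝ] ℝ) : IsOpen (ballB B) :=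
  isOpen_lt (continuous_quad B) continuous_const

theorem measurableSet_ballB (B : EV n →L[ℝ] EV n →L[ℝ] ℝ) : MeasurableSet (ballB B) :=
  (isOpen_ballB B).measurableSet

theorem zero_mem_ballB (B : EV n →L[ℝ] EV n →L[ℝ] ℝ) : (0 : EV n) ∈ ballB B := by
  simp [ballB]

theorem det_ne_zero_of_injective {D : EV n →L[ℝ] EV n} (hD : Function.Injective D) :
    LinearMap.det (D : EV n →ₗ[ℝ] EV n) ≠ 0 := by
  have h1 : LinearMap.ker (D : EV n →ₗ[ℝ] EV n) = ⊥ := LinearMap.ker_eq_bot.2 hD
  have h2 := (LinearMap.isUnit_iff_ker_eq_bot (D : EV n →ₗ[ℝ] EV n)).2 h1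
  exact (LinearMap.isUnit_det _ h2).ne_zero

theorem measurableEmbedding_of_injective {D : EV n →L[ℝ] EV n} (hD : Function.Injective D) :
    MeasurableEmbedding D := by
  have hs : Function.Surjective D := by
    have := LinearMap.injective_iff_surjective (f := (D : EV n →ₗ[ℝ] EV n))
    exact this.1 hD
  let e : EV n ≃ₗ[ℝ] EV n := LinearEquiv.ofBijective (D : EV n →ₗ[ℝ] EV n) ⟨hD, hs⟩
  have : (D : EV n → EV n) = e.toContinuousLinearEquiv.toHomeomorph := rfl
  rw [this]
  exact e.toContinuousLinearEquiv.toHomeomorph.measurableEmbedding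

theorem setIntegral_comp_linear {D : EV n →L[ℝ] EV n} (hD : Function.Injective D) (s : Set (EV n))
    (F : EV n → ℝ) :
    ∫ v in D ⁻¹' s, F (D v) = |(LinearMap.det (D : EV n →ₗ[ℝ] EV n))⁻¹| * ∫ v in s, F v := by
  have h1 := Measure.map_linearMap_addHaar_eq_smul_addHaar (volume : Measure (EV n))
    (f := (D : EV n →ₗ[ℝ] EV n)) (det_ne_zero_of_injective hD)
  have h2 := (measurableEmbedding_of_injective hD).setIntegral_map (μ := volume) F s
  have h3 : Measure.map (⇑(D : EV n →ₗ[ℝ] EV n)) volume = Measure.map (⇑D) volume := rfl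
  rw [← h2, ← h3, h1, Measure.restrict_smul, integral_smul_measure,
    ENNReal.toReal_ofReal (abs_nonneg _), smul_eq_mul]

theorem ballB_comp (B : EV n →L[ℝ] EV n →L[ℝ] ℝ) (D : EV n →L[ℝ] EV n) :
    ballB (B.bilinearComp D D) = D ⁻¹' ballB B := rfl

/-- linear change of variables -/
theorem avgB_comp (B : EV n →L[ℝ] EV n →L[ℝ] ℝ) {D : EV n →L[ℝ] EV n}
    (hD : Function.Injective D) (F : EV n → ℝ) :
    avgB (B.bilinearComp D D) (fun v => F (D v)) = avgB B F := by
  unfold avgB
  have h1 := setIntegral_comp_linear hD (ballB B) (fun _ => (1 : ℝ))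
  simp only [integral_const, smul_eq_mul, mul_one, measureReal_restrict_apply MeasurableSet.univ,
    univ_inter] at h1
  rw [ballB_comp, setIntegral_comp_linear hD, h1, mul_div_mul_left]
  exact abs_ne_zero.2 (inv_ne_zero (det_ne_zero_of_injective hD))

theorem volume_ballB_pos (B : EV n →L[ℝ] EV n →L[ℝ] ℝ) : 0 < volume (ballB B) :=
  (isOpen_ballB B).measure_pos _ ⟨0, zero_mem_ballB B⟩

/-- the form `B` is bounded from below by `c |v|²` -/
def LB (B : EV n →L[ℝ] EV n →L[ℝ] ℝ) (c : ℝ) : Prop := 0 < c ∧ ∀ v, c * ‖v‖ ^ 2 ≤ B v v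

theorem LB.ballB_subset {B : EV n →L[ℝ] EV n →L[ℝ] ℝ} {c : ℝ} (h : LB B c) :
    ballB B ⊆ Metric.closedBall 0 (Real.sqrt (1 / c)) := by
  intro v hv
  rw [mem_closedBall_zero_iff]
  apply Real.le_sqrt_of_sq_le
  rw [le_div_iff₀ h.1]
  have := h.2 v
  have h2 : B v v < 1 := hv
  linarith

theorem LB.volume_ballB_lt_top {B : EV n →L[ℝ] EV n →L[ℝ] ℝ} {c : ℝ} (h : LB B c) :
    volume (ballB B) < (⊤ : ℝ≥0∞) :=
  (measure_mono h.ballB_subset).trans_lt (isCompact_closedBall _ _).measure_lt_top

theorem LB.pos {B : EV n →L[ℝ] EV n →L[ℝ] ℝ} {c : ℝ} (h : LB B c) {v : EV n} (hv : v ≠ 0) :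
    0 < B v v := lt_of_lt_of_le (mul_pos h.1 (by positivity)) (h.2 v)

theorem LB.nonneg {B : EV n →L[ℝ] EV n →L[ℝ] ℝ} {c : ℝ} (h : LB B c) (v : EV n) :
    0 ≤ B v v := le_trans (mul_nonneg h.1.le (by positivity)) (h.2 v)

theorem LB.volume_real_pos {B : EV n →L[ℝ] EV n →L[ℝ] ℝ} {c : ℝ} (h : LB B c) :
    0 < volume.real (ballB B) :=
  ENNReal.toReal_pos (volume_ballB_pos B).ne' h.volume_ballB_lt_top.ne

theorem LB.convex_ballB {B : EV n →L[ℝ] EV n →L[ℝ] ℝ} {c : ℝ} (h : LB B c) :
    Convex ℝ (ballB B) := by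
  intro v hv w hw a b ha hb hab
  have h1 : B v v < 1 := hv
  have h2 : B w w < 1 := hw
  have h3 := h.nonneg (v - w)
  simp only [map_sub, sub_apply] at h3
  change B (a • v + b • w) (a • v + b • w) < 1
  simp only [map_add, map_smul, add_apply, smul_apply, smul_eq_mul]
  have hb' : b = 1 - a := by linarith
  subst hb'
  have h4 : 0 ≤ a * (1 - a) := mul_nonneg ha hb
  have h5 : a * B v v + (1 - a) * B w w < 1 := by
    rcases eq_or_lt_of_le ha with rfl | ha'
    · simpa using h2
    · nlinarith
  nlinarith [mul_nonneg h4 h3]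

/-- the unit sphere of a positive form is a null set -/
theorem LB.volume_sphere {B : EV n →L[ℝ] EV n →L[ℝ] ℝ} {c : ℝ} (h : LB B c) :
    volume {v | B v v = 1} = 0 := by
  refine measure_mono_null ?_ (h.convex_ballB.addHaar_frontier volume)
  intro v hv
  have hv : B v v = 1 := hv
  rw [frontier, (isOpen_ballB B).interior_eq]
  refine ⟨?_, fun h' => ?_⟩
  · have h1 : Tendsto (fun t : ℝ => t • v) (𝓝[<] 1) (𝓝 ((1 : ℝ) • v)) :=
      ((continuous_id.smul continuous_const).tendsto 1).mono_left nhdsWithin_le_nhds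
    rw [one_smul] at h1
    refine mem_closure_of_tendsto h1 ?_
    have h2 : ∀ᶠ t : ℝ in 𝓝[<] 1, 0 < t :=
      (lt_mem_nhds (by norm_num : (0 : ℝ) < 1)).filter_mono nhdsWithin_le_nhds
    filter_upwards [h2, self_mem_nhdsWithin] with t ht1 ht2
    have ht2 : t < 1 := ht2
    change B (t • v) (t • v) < 1
    simp only [map_smul, smul_apply, smul_eq_mul, hv]
    nlinarith
  · have : B v v < 1 := h'
    linarith

/-- continuity of integrals over balls -/
theorem continuousAt_integral_ballB {X : Type} [TopologicalSpace X] [FirstCountableTopology X]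
    {B : X → EV n →L[ℝ] EV n →L[ℝ] ℝ} {x₀ : X} (hB : ContinuousAt B x₀) {c : ℝ}
    (hc : ∀ᶠ x in 𝓝 x₀, LB (B x) c) {F : X → EV n → ℝ} {C : ℝ} (hC : ∀ᶠ x in 𝓝 x₀, ∀ v, |F x v| ≤ C)
    (hm : ∀ᶠ x in 𝓝 x₀, Measurable (F x)) (hF : ∀ᵐ v, ContinuousAt (fun x => F x v) x₀) :
    ContinuousAt (fun x => ∫ v in ballB (B x), F x v) x₀ := by
  have hc0 := hc.self_of_nhds
  have hC0 : 0 ≤ C := (abs_nonneg _).trans (hC.self_of_nhds 0)
  have e : (fun x => ∫ v in ballB (B x), F x v) =
      fun x => ∫ v, (ballB (B x)).indicator (F x) v := by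
    funext x
    rw [integral_indicator (measurableSet_ballB _)]
  rw [e]
  refine continuousAt_of_dominated
    (bound := (Metric.closedBall 0 (Real.sqrt (1 / c))).indicator (fun _ => C)) ?_ ?_ ?_ ?_
  · filter_upwards [hm] with x hx
    exact (hx.indicator (measurableSet_ballB _)).aestronglyMeasurable
  · filter_upwards [hc, hC] with x hx hx2
    refine Eventually.of_forall fun v => ?_
    by_cases hv : v ∈ ballB (B x)
    · rw [indicator_of_mem hv, indicator_of_mem (hx.ballB_subset hv)]
      exact hx2 v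
    · rw [indicator_of_notMem hv, norm_zero]
      exact indicator_nonneg (fun _ _ => hC0) _
  · rw [integrable_indicator_iff measurableSet_closedBall]
    exact integrableOn_const (isCompact_closedBall _ _).measure_lt_top.ne
  · have h1 : ∀ᵐ v : EV n, B x₀ v v ≠ 1 := by
      rw [ae_iff]
      simpa using hc0.volume_sphere
    filter_upwards [hF, h1] with v hv hv1
    have h2 : ContinuousAt (fun x => B x v v) x₀ :=
      ((ContinuousLinearMap.apply ℝ ℝ v).continuous.continuousAt.comp
        ((ContinuousLinearMap.apply ℝ (EV n →L[ℝ] ℝ) v).continuous.continuousAt.comp hB))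
    rcases lt_or_gt_of_ne hv1 with h3 | h3
    · have h4 : ∀ᶠ x in 𝓝 x₀, B x v v < 1 := h2.eventually (gt_mem_nhds h3)
      refine hv.congr ?_
      filter_upwards [h4] with x hx
      rw [indicator_of_mem (show v ∈ ballB (B x) from hx)]
    · have h4 : ∀ᶠ x in 𝓝 x₀, 1 < B x v v := h2.eventually (lt_mem_nhds h3)
      refine (continuousAt_const (y := (0 : ℝ))).congr ?_
      filter_upwards [h4] with x hx
      rw [indicator_of_notMem (show v ∉ ballB (B x) from fun h => not_lt_of_gt hx h)]

theorem continuousAt_avgB {X : Type} [TopologicalSpace X] [FirstCountableTopology X]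
    {B : X → EV n →L[ℝ] EV n →L[ℝ] ℝ} {x₀ : X} (hB : ContinuousAt B x₀) {c : ℝ}
    (hc : ∀ᶠ x in 𝓝 x₀, LB (B x) c) {F : X → EV n → ℝ} {C : ℝ} (hC : ∀ᶠ x in 𝓝 x₀, ∀ v, |F x v| ≤ C)
    (hm : ∀ᶠ x in 𝓝 x₀, Measurable (F x)) (hF : ∀ᵐ v, ContinuousAt (fun x => F x v) x₀) :
    ContinuousAt (fun x => avgB (B x) (F x)) x₀ := by
  have hc0 := hc.self_of_nhds
  have h1 := continuousAt_integral_ballB hB hc hC hm hF
  have h2 := continuousAt_integral_ballB (F := fun _ _ => (1 : ℝ)) (C := 1) hB hc
    (Eventually.of_forall fun _ _ => by simp) (Eventually.of_forall fun _ => measurable_const)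
    (Eventually.of_forall fun _ => continuousAt_const)
  simp only [integral_const, smul_eq_mul, mul_one, measureReal_restrict_apply MeasurableSet.univ,
    univ_inter] at h2
  exact h1.div h2 hc0.volume_real_pos.ne'

end Avg

/-! ### the average over the unit sphere in a chart -/

section Sph

variable {n : ℕ} {M : Type} [TopologicalSpace M] [ChartedSpace (EV n) M]
  [IsManifold 𝓘(ℝ, EV n) ∞ M]

/-- the inner product at `x` as a form on `EV n` -/
def innerB (g : RMetric (EV n) M) (x : M) : EV n →L[ℝ] EV n →L[ℝ] ℝ := g.inner x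

theorem innerB_apply (g : RMetric (EV n) M) (x : M) (v w : TangentSpace 𝓘(ℝ, EV n) x) :
    innerB g x v w = g.inner x v w := rfl

theorem sphAvg_eq (g : RMetric (EV n) M) (a : UT g → ℝ) (x : M) :
    sphAvg g a x = avgB (innerB g x) (fun v => radial g a x v) := rfl

/-- the derivative of the inverse of the chart at `b`, at the point `x` -/
def Dc (b x : M) : EV n →L[ℝ] EV n := fderiv ℝ (trans (EV n) b x) (chartAt (EV n) b x)

theorem Dc_injective (b : M) {x : M} (hx : x ∈ (chartAt (EV n) b).source) :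
    Function.Injective (Dc (n := n) b x) := by
  rw [injective_iff_map_eq_zero]
  intro v hv
  refine P255.fderiv_trans_injective b x ((chartAt (EV n) b).map_source hx) ?_ hv
  rw [(chartAt (EV n) b).left_inv hx]
  exact mem_chart_source (EV n) x

omit [IsManifold 𝓘(ℝ, EV n) ∞ M] in
theorem Dc_self (x : M) (v : EV n) : Dc x x v = v :=
  P255.fderiv_trans_self x (mem_chart_target (EV n) x) v

theorem innerB_Dc (g : RMetric (EV n) M) (b : M) {x : M} (hx : x ∈ (chartAt (EV n) b).source)
    (v w : EV n) : innerB g x (Dc b x v) (Dc b x w) = coefL g b (chartAt (EV n) b x) v w :=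
  (P255.coefL_apply g b ((chartAt (EV n) b).map_source hx) x
    ((chartAt (EV n) b).left_inv hx).symm v w).symm

theorem coefL_eq_comp (g : RMetric (EV n) M) (b : M) {x : M}
    (hx : x ∈ (chartAt (EV n) b).source) :
    coefL g b (chartAt (EV n) b x) = (innerB g x).bilinearComp (Dc b x) (Dc b x) := by
  ext v w
  exact (innerB_Dc g b hx v w).symm

/-- the average over the unit sphere at `x`, computed in the chart at `b` -/
theorem sphAvg_chart (g : RMetric (EV n) M) (a : UT g → ℝ) (b : M) {x : M}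
    (hx : x ∈ (chartAt (EV n) b).source) :
    sphAvg g a x = avgB (coefL g b (chartAt (EV n) b x)) (fun v => radial g a x (Dc b x v)) := by
  rw [sphAvg_eq, coefL_eq_comp g b hx]
  exact (avgB_comp (innerB g x) (Dc_injective b hx) (fun v => radial g a x v)).symm

theorem innerB_eq_coefL (g : RMetric (EV n) M) (x : M) :
    innerB g x = coefL g x (chartAt (EV n) x x) := by
  ext v w
  rw [← innerB_Dc g x (mem_chart_source (EV n) x), Dc_self, Dc_self]

/-- a uniform lower bound of the metric near `b`, in the chart at `b` -/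
theorem exists_LB (g : RMetric (EV n) M) (b : M) :
    ∃ c, ∀ᶠ x in 𝓝 b, LB (coefL g b (chartAt (EV n) b x)) c := by
  have h := ((mt g).isMetricOn b).lower_bound (mem_chart_target (EV n) b)
  obtain ⟨c, hc, hm⟩ := h
  have h1 : ContinuousAt (chartAt (EV n) b) b :=
    (chartAt (EV n) b).continuousAt (mem_chart_source (EV n) b)
  refine ⟨c, ?_⟩
  filter_upwards [h1.eventually hm] with x hx
  exact ⟨hc, hx⟩

theorem innerB_LB (g : RMetric (EV n) M) (x : M) : ∃ c, LB (innerB g x) c := by
  obtain ⟨c, hc⟩ := exists_LB g x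
  exact ⟨c, by rw [innerB_eq_coefL]; exact hc.self_of_nhds⟩

/-- tangent vectors given in the chart at `b` -/
def tv (b : M) (z : M × EV n) : TangentBundle 𝓘(ℝ, EV n) M := ⟨z.1, Dc b z.1 z.2⟩

theorem continuousOn_tv (b : M) :
    ContinuousOn (tv (n := n) b) ((chartAt (EV n) b).source ×ˢ univ) := by
  have h := (trivializationAt (EV n) (TangentSpace 𝓘(ℝ, EV n)) b).continuousOn_symm
  refine h.congr ?_
  rintro ⟨x, v⟩ ⟨hx, -⟩
  have hx : x ∈ (chartAt (EV n) b).source := hx
  have h1 := congrArg (fun L : EV n →L[ℝ] EV n => L v) (P255.symmL_eq_fderiv (E := EV n) b hx)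
  have h2 := (trivializationAt (EV n) (TangentSpace 𝓘(ℝ, EV n)) b).symmL_apply (R := ℝ) (b := x)
    hx v
  exact congrArg (fun w : TangentSpace 𝓘(ℝ, EV n) x => (⟨x, w⟩ : TangentBundle 𝓘(ℝ, EV n) M))
    (h1.symm.trans h2)

/-- the unit vector in the direction `v`, in the chart at `b` -/
theorem unitDir_Dc (g : RMetric (EV n) M) (b : M) {x : M} (hx : x ∈ (chartAt (EV n) b).source)
    {v : EV n} (h : (Dc b x v : TangentSpace 𝓘(ℝ, EV n) x) ≠ 0) :
    (unitDir g x (Dc b x v) h).1 =
      tv b (x, (Real.sqrt (coefL g b (chartAt (EV n) b x) v v))⁻¹ • v) := by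
  rw [← innerB_Dc g b hx]
  unfold unitDir tv
  simp only [map_smul]
  rfl

theorem Dc_ne_zero (b : M) {x : M} (hx : x ∈ (chartAt (EV n) b).source) {v : EV n} (hv : v ≠ 0) :
    Dc b x v ≠ 0 := fun h => hv (Dc_injective b hx (h.trans (map_zero _).symm))

/-- continuity of a function of the direction, in the chart at `b` -/
theorem continuousOn_radial (g : RMetric (EV n) M) {a : UT g → ℝ} (ha : Continuous a) (b : M) :
    ContinuousOn (fun z : M × EV n => radial g a z.1 (Dc b z.1 z.2))
      ((chartAt (EV n) b).source ×ˢ {0}ᶜ) := by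
  rw [continuousOn_iff_continuous_domRestrict]
  let S : Set (M × EV n) := (chartAt (EV n) b).source ×ˢ {0}ᶜ
  let U : S → UT g := fun z => unitDir g z.1.1 (Dc b z.1.1 z.1.2) (Dc_ne_zero b z.2.1 z.2.2)
  have hU : Continuous U := by
    refine Continuous.subtype_mk (f := fun z : S => (U z).1) ?_ (fun z => (U z).2)
    have e : (fun z : S => (U z).1) = fun z : S => tv b (z.1.1,
        (Real.sqrt (coefL g b (chartAt (EV n) b z.1.1) z.1.2 z.1.2))⁻¹ • z.1.2) := by
      funext z
      exact unitDir_Dc g b z.2.1 _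
    rw [e]
    have h1 : ContinuousOn (fun z : M × EV n => tv (n := n) b (z.1,
        (Real.sqrt (coefL g b (chartAt (EV n) b z.1) z.2 z.2))⁻¹ • z.2)) S := by
      refine (continuousOn_tv b).comp ?_ (fun z hz => ⟨hz.1, mem_univ _⟩)
      have h3 : ContinuousOn (fun z : M × EV n =>
          Real.sqrt (coefL g b (chartAt (EV n) b z.1) z.2 z.2)) S := by
        refine Real.continuous_sqrt.comp_continuousOn ?_
        have h2 : ContinuousOn (fun z : M × EV n => coefL g b (chartAt (EV n) b z.1)) S := by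
          refine (continuousOn_coefL g b).comp ?_ (fun z hz => (chartAt (EV n) b).map_source hz.1)
          exact (chartAt (EV n) b).continuousOn.comp continuousOn_fst (fun z hz => hz.1)
        exact (h2.clm_apply continuousOn_snd).clm_apply continuousOn_snd
      have h4 := (h3.inv₀ (by
        rintro ⟨x, v⟩ ⟨hx, hv⟩
        exact (Real.sqrt_pos.2 (coefL_pos g b ((chartAt (EV n) b).map_source hx) hv)).ne')).smul
          continuousOn_snd
      exact continuousOn_fst.prodMk h4
    exact continuousOn_iff_continuous_domRestrict.1 h1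
  have e : S.domRestrict (fun z : M × EV n => radial g a z.1 (Dc b z.1 z.2)) = fun z => a (U z) := by
    funext z
    exact dif_neg (Dc_ne_zero b z.2.1 z.2.2)
  rw [e]
  exact ha.comp hU

theorem continuousOn_radial_self (g : RMetric (EV n) M) {a : UT g → ℝ} (ha : Continuous a)
    (x : M) : ContinuousOn (fun v : EV n => radial g a x v) {0}ᶜ := by
  have h1 := (continuousOn_radial g ha x).comp (f := fun v : EV n => (x, v)) (s := {0}ᶜ)
    (continuous_const.prodMk continuous_id).continuousOn (fun v hv => ⟨mem_chart_source (EV n) x, hv⟩)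
  refine h1.congr fun v hv => ?_
  simp only [Function.comp, Dc_self]

theorem measurable_radial (g : RMetric (EV n) M) {a : UT g → ℝ} (ha : Continuous a) (x : M) :
    Measurable (fun v : EV n => radial g a x v) := by
  have h1 := continuousOn_radial_self g ha x
  have h2 : (fun v : EV n => radial g a x v) =
      ({0}ᶜ : Set (EV n)).piecewise (fun v : EV n => radial g a x v) (fun _ => 0) := by
    classical
    funext v
    by_cases hv : v = 0
    · subst hv
      rw [piecewise_eq_of_notMem _ _ _ (by simp)]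
      exact dif_pos rfl
    · rw [piecewise_eq_of_mem _ _ _ hv]
  rw [h2]
  exact h1.measurable_piecewise continuousOn_const (measurableSet_singleton _).compl

theorem abs_radial_le (g : RMetric (EV n) M) {a : UT g → ℝ} {C : ℝ} (hC : ∀ p, |a p| ≤ C)
    (hC0 : 0 ≤ C) (x : M) (v : TangentSpace 𝓘(ℝ, EV n) x) : |radial g a x v| ≤ C := by
  unfold radial
  split_ifs
  · simpa using hC0
  · exact hC _

end Sph

/-! ### the volume of the unit ball -/

section Ball

variable {n : ℕ}

theorem toBF_injective {B B' : EV n →L[ℝ] EV n →L[ℝ] ℝ} (h : toBF B = toBF B') : B = B' := by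
  ext v w
  exact congrArg (fun b : LinearMap.BilinForm ℝ (EV n) => b v w) h

theorem gramE_injective {B B' : EV n →L[ℝ] EV n →L[ℝ] ℝ} (h : gramE B = gramE B') : B = B' := by
  rw [gramE_eq, gramE_eq] at h
  exact toBF_injective ((LinearMap.BilinForm.toMatrix (stdB n)).injective h)

theorem gramE_posDef {B : EV n →L[ℝ] EV n →L[ℝ] ℝ} (hs : ∀ v w, B v w = B w v)
    (hp : ∀ v, v ≠ 0 → 0 < B v v) : (gramE B).PosDef := by
  refine Matrix.PosDef.of_dotProduct_mulVec_pos ?_ ?_
  · ext i j
    simp [gramE, hs (EuclideanSpace.single j 1)]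
  · intro x hx
    have hx' : (WithLp.toLp 2 x : EV n) ≠ 0 := by
      intro h
      apply hx
      have := congrArg (fun y : EV n => (y : Fin n → ℝ)) h
      simpa using this
    have h1 := hp _ hx'
    have h2 : (WithLp.toLp 2 x : EV n) = ∑ i, x i • EuclideanSpace.single i (1 : ℝ) := by
      ext j
      simp [Finset.sum_apply, Pi.single_apply]
    rw [h2] at h1
    refine h1.trans_eq ?_
    simp only [map_sum, map_smul, dotProduct, Matrix.mulVec, gramE, Matrix.of_apply, star_trivial,
      sum_apply, smul_apply, smul_eq_mul, Finset.mul_sum]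
    refine Finset.sum_comm.trans ?_
    refine Finset.sum_congr rfl fun i _ => Finset.sum_congr rfl fun j _ => ?_
    ring

/-- a positive form is the pull back of the standard inner product -/
theorem exists_sqrt_form {B : EV n →L[ℝ] EV n →L[ℝ] ℝ} (hs : ∀ v w, B v w = B w v)
    (hp : ∀ v, v ≠ 0 → 0 < B v v) :
    ∃ D : EV n →L[ℝ] EV n, Function.Injective D ∧ B = (innerSL ℝ).bilinearComp D D := by
  obtain ⟨P, hP⟩ : ∃ P : Matrix (Fin n) (Fin n) ℝ, gramE B = P.conjTranspose * P := by
    open scoped MatrixOrder in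
    exact CStarAlgebra.nonneg_iff_eq_star_mul_self.mp (gramE_posDef hs hp).posSemidef.nonneg
  let D : EV n →L[ℝ] EV n := (Matrix.toEuclideanLin P).toContinuousLinearMap
  have hD : ∀ i k, D (EuclideanSpace.single i 1) k = P k i := by
    intro i k
    simp [D, Matrix.toLpLin_apply]
  have hB : B = (innerSL ℝ).bilinearComp D D := by
    apply gramE_injective
    rw [hP]
    ext i j
    change (P.conjTranspose * P) i j =
      inner ℝ (D (EuclideanSpace.single i 1)) (D (EuclideanSpace.single j 1))
    rw [PiLp.inner_apply, Matrix.mul_apply]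
    refine Finset.sum_congr rfl fun k _ => ?_
    rw [hD, hD, Matrix.conjTranspose_apply]
    simp [mul_comm]
  refine ⟨D, ?_, hB⟩
  rw [injective_iff_map_eq_zero]
  intro v hv
  by_contra h
  have h1 := hp v h
  rw [hB] at h1
  change 0 < inner ℝ (D v) (D v) at h1
  rw [hv, inner_zero_left] at h1
  exact lt_irrefl _ h1

/-- the volume of the unit ball of a positive form -/
theorem volume_real_ballB {B : EV n →L[ℝ] EV n →L[ℝ] ℝ} (hs : ∀ v w, B v w = B w v)
    (hp : ∀ v, v ≠ 0 → 0 < B v v) :
    volume.real (ballB B) = volume.real (Metric.ball (0 : EV n) 1) / Real.sqrt (gramE B).det := by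
  obtain ⟨D, hD, hB⟩ := exists_sqrt_form hs hp
  have h1 := setIntegral_comp_linear hD (Metric.ball (0 : EV n) 1) (fun _ => (1 : ℝ))
  simp only [integral_const, smul_eq_mul, mul_one, measureReal_restrict_apply MeasurableSet.univ,
    univ_inter] at h1
  have h2 : ballB B = D ⁻¹' Metric.ball (0 : EV n) 1 := by
    ext v
    rw [hB]
    change inner ℝ (D v) (D v) < 1 ↔ _
    rw [real_inner_self_eq_norm_sq, mem_preimage, mem_ball_zero_iff]
    constructor
    · intro h
      nlinarith [norm_nonneg (D v)]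
    · intro h
      nlinarith [norm_nonneg (D v)]
  have h3 : (gramE B).det = (LinearMap.det (D : EV n →ₗ[ℝ] EV n)) ^ 2 := by
    rw [hB, gramE_comp_det]
    have h4 : gramE (innerSL ℝ : EV n →L[ℝ] EV n →L[ℝ] ℝ) = 1 := by
      ext i j
      change inner ℝ (EuclideanSpace.single i (1 : ℝ)) (EuclideanSpace.single j (1 : ℝ)) = _
      rw [EuclideanSpace.inner_single_left]
      simp [Matrix.one_apply]
    rw [h4, Matrix.det_one, mul_one]
  rw [h2, h1, h3, Real.sqrt_sq_eq_abs, abs_inv, inv_mul_eq_div]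

end Ball

section Sph2

variable {n : ℕ} {M : Type} [TopologicalSpace M] [ChartedSpace (EV n) M]
  [IsManifold 𝓘(ℝ, EV n) ∞ M]

/-- (S1) of block L -/
theorem sphAvg_chart' (g : RMetric (EV n) M) (a : UT g → ℝ) (b : M) {u : EV n}
    (hu : u ∈ (chartAt (EV n) b).target) :
    sphAvg g a ((chartAt (EV n) b).symm u) =
      (∫ w in {w : EV n | coefIn g b u w w < 1}, radial g a ((chartAt (EV n) b).symm u)
        ((mfderiv 𝓘(ℝ, EV n) 𝓘(ℝ, EV n) (chartAt (EV n) b).symm u : EV n →L[ℝ] EV n) w : EV n)) /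
      volume.real {w : EV n | coefIn g b u w w < 1} := by
  rw [sphAvg_chart g a b ((chartAt (EV n) b).map_target hu), P255.mfderiv_chart_symm_eq b hu]
  unfold Dc
  rw [(chartAt (EV n) b).right_inv hu]
  rfl

/-- (S2) of block L -/
theorem volume_ball_chart (g : RMetric (EV n) M) (b : M) {u : EV n}
    (hu : u ∈ (chartAt (EV n) b).target) :
    volume.real {w : EV n | coefIn g b u w w < 1} =
      volume.real (Metric.ball (0 : EV n) 1) / Real.sqrt (Matrix.of fun i j : Fin n =>
        coefIn g b u (EuclideanSpace.single i 1) (EuclideanSpace.single j 1)).det :=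
  volume_real_ballB (B := coefL g b u) (coefL_symm g b hu) (fun _ hv => coefL_pos g b hu hv)

theorem det_coefIn_pos (g : RMetric (EV n) M) (b : M) {u : EV n}
    (hu : u ∈ (chartAt (EV n) b).target) :
    0 < (Matrix.of fun i j : Fin n =>
        coefIn g b u (EuclideanSpace.single i 1) (EuclideanSpace.single j 1)).det :=
  gramE_det_pos (B := coefL g b u) (coefL_symm g b hu) (fun _ hv => coefL_pos g b hu hv)

end Sph2

end Vale.Agent.P207
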