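import Vale.Agent.P207.BlkF
import Vale.Agent.P207.BlkV0

/-!
# P207, block V: existence, uniqueness and full support of the volume and of the Liouville measure
-/

open scoped Manifold ContDiff ENNReal Topology
open Bundle MeasureTheory Set Filter

noncomputable section

set_option maxSynthPendingDepth 3
set_option linter.unusedSectionVars false

namespace Vale.Agent.P207

open Vale.Agent.P255 (RMetric coefIn Gam Riem IsGeo Metric Npc ExpSys toMetric geo expg trans coefL)

variable {n : ℕ} {M : Type} [TopologicalSpace M] [ChartedSpace (EV n) M]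
  [IsManifold 𝓘(ℝ, EV n) ∞ M] [CompactSpace M] [T2Space M]

/-! ### the volume -/

section Vol

variable [MeasurableSpace M] [BorelSpace M]

omit [IsManifold 𝓘(ℝ, EV n) ∞ M] [T2Space M] [MeasurableSpace M] [BorelSpace M] in
/-- finitely many charts cover `M` -/
theorem exists_chart_cover (n : ℕ) (M : Type) [TopologicalSpace M] [ChartedSpace (EV n) M]
    [CompactSpace M] : ∃ (k : ℕ) (b : Fin k → M), ∀ x : M, ∃ i, x ∈ (chartAt (EV n) (b i)).source := by
  obtain ⟨t, ht⟩ := isCompact_univ.elim_nhds_subcover (fun x : M => (chartAt (EV n) x).source)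
    (fun x _ => (chartAt (EV n) x).open_source.mem_nhds (mem_chart_source _ x))
  refine ⟨t.card, fun i => (t.equivFin.symm i : M), fun x => ?_⟩
  obtain ⟨y, hy⟩ := mem_iUnion.1 (ht.2 (mem_univ x))
  obtain ⟨hy, hx⟩ := mem_iUnion.1 hy
  exact ⟨t.equivFin ⟨y, hy⟩, by simpa using hx⟩

/-- the pieces of a disjoint measurable partition into subsets of chart domains -/
def piece {k : ℕ} (b : Fin k → M) (i : Fin k) : Set M :=
  (chartAt (EV n) (b i)).source \ ⋃ j : Fin k, ⋃ _ : j < i, (chartAt (EV n) (b j)).source

omit [IsManifold 𝓘(ℝ, EV n) ∞ M] [CompactSpace M] [T2Space M] in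
theorem measurableSet_piece {k : ℕ} (b : Fin k → M) (i : Fin k) :
    MeasurableSet (piece (n := n) b i) :=
  (chartAt (EV n) (b i)).open_source.measurableSet.diff (MeasurableSet.iUnion fun j =>
    MeasurableSet.iUnion fun _ => (chartAt (EV n) (b j)).open_source.measurableSet)

omit [IsManifold 𝓘(ℝ, EV n) ∞ M] [CompactSpace M] [T2Space M] [MeasurableSpace M] [BorelSpace M] in
theorem piece_subset {k : ℕ} (b : Fin k → M) (i : Fin k) :
    piece (n := n) b i ⊆ (chartAt (EV n) (b i)).source := sdiff_subset

omit [IsManifold 𝓘(ℝ, EV n) ∞ M] [CompactSpace M] [T2Space M] [MeasurableSpace M] [BorelSpace M] in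
theorem disjoint_piece {k : ℕ} (b : Fin k → M) :
    Pairwise (Function.onFun Disjoint (piece (n := n) b)) := by
  intro i j hij
  rw [Function.onFun, Set.disjoint_left]
  intro x hi hj
  rcases lt_or_gt_of_ne hij with h | h
  · exact hj.2 (mem_iUnion.2 ⟨i, mem_iUnion.2 ⟨h, hi.1⟩⟩)
  · exact hi.2 (mem_iUnion.2 ⟨j, mem_iUnion.2 ⟨h, hj.1⟩⟩)

omit [IsManifold 𝓘(ℝ, EV n) ∞ M] [CompactSpace M] [T2Space M] [MeasurableSpace M] [BorelSpace M] in
theorem iUnion_piece {k : ℕ} {b : Fin k → M} (hb : ∀ x : M, ∃ i, x ∈ (chartAt (EV n) (b i)).source) :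
    ⋃ i, piece (n := n) b i = univ := by
  classical
  rw [eq_univ_iff_forall]
  intro x
  have h1 : (Finset.univ.filter fun i => x ∈ (chartAt (EV n) (b i)).source).Nonempty := by
    obtain ⟨i, hi⟩ := hb x
    exact ⟨i, by simpa using hi⟩
  set i := (Finset.univ.filter fun i => x ∈ (chartAt (EV n) (b i)).source).min' h1 with hi
  have h2 := Finset.min'_mem _ h1
  rw [← hi] at h2
  refine mem_iUnion.2 ⟨i, (Finset.mem_filter.1 h2).2, ?_⟩
  rintro h
  obtain ⟨j, hj⟩ := mem_iUnion.1 h
  obtain ⟨hj, hx⟩ := mem_iUnion.1 hj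
  have h3 := Finset.min'_le (Finset.univ.filter fun i => x ∈ (chartAt (EV n) (b i)).source) j
    (by simpa using hx)
  exact absurd (lt_of_lt_of_le hj h3) (lt_irrefl _)

/-- the volume of a set contained in the domain of the chart at `b`, computed in this chart -/
def volIn (g : RMetric (EV n) M) (b : M) (s : Set M) : ℝ≥0∞ :=
  ∫⁻ u in (chartAt (EV n) b) '' s, ENNReal.ofReal (dens g b u)

theorem volIn_change (g : RMetric (EV n) M) (a b : M) {s : Set M} (hs : MeasurableSet s)
    (ha : s ⊆ (chartAt (EV n) a).source) (hb : s ⊆ (chartAt (EV n) b).source) :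
    volIn g b s = volIn g a s := by
  have h := lintegral_chart_image g a b hs ha hb (fun _ => 1)
  simp only [mul_one] at h
  exact h

theorem volIn_iUnion (g : RMetric (EV n) M) (b : M) {ι : Type} [Countable ι] {s : ι → Set M}
    (hs : ∀ i, MeasurableSet (s i)) (hd : Pairwise (Function.onFun Disjoint s))
    (h : ∀ i, s i ⊆ (chartAt (EV n) b).source) : volIn g b (⋃ i, s i) = ∑' i, volIn g b (s i) := by
  unfold volIn
  rw [image_iUnion, lintegral_iUnion (fun i => measurableSet_chart_image b (hs i) (h i))]
  intro i j hij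
  rw [Function.onFun, Set.disjoint_left]
  rintro _ ⟨x, hx, rfl⟩ ⟨y, hy, hxy⟩
  have h1 := (chartAt (EV n) b).injOn (h j hy) (h i hx) hxy
  rw [h1] at hy
  exact Set.disjoint_left.1 (hd hij) hx hy

/-- the volume, glued from the pieces -/
def gluedVol (g : RMetric (EV n) M) {k : ℕ} (b : Fin k → M) : Measure M :=
  Measure.ofMeasurable (fun s _ => ∑ i, volIn g (b i) (s ∩ piece (n := n) b i))
    (by simp [volIn])
    (by
      intro s hs hd
      have h1 : ∀ i, volIn g (b i) ((⋃ j, s j) ∩ piece (n := n) b i) =
          ∑' j, volIn g (b i) (s j ∩ piece (n := n) b i) := by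
        intro i
        rw [iUnion_inter, volIn_iUnion]
        · exact fun j => (hs j).inter (measurableSet_piece b i)
        · exact fun j l hjl => (hd hjl).mono inter_subset_left inter_subset_left
        · exact fun j => inter_subset_right.trans (piece_subset b i)
      simp only [h1]
      exact (Summable.tsum_finsetSum (fun i _ => ENNReal.summable)).symm)

theorem gluedVol_apply (g : RMetric (EV n) M) {k : ℕ} (b : Fin k → M) {s : Set M}
    (hs : MeasurableSet s) :
    gluedVol g b s = ∑ i, volIn g (b i) (s ∩ piece (n := n) b i) :=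
  Measure.ofMeasurable_apply s hs

theorem isRiemVol_gluedVol (g : RMetric (EV n) M) {k : ℕ} {b : Fin k → M}
    (hb : ∀ x : M, ∃ i, x ∈ (chartAt (EV n) (b i)).source) : IsRiemVol g (gluedVol g b) := by
  rw [isRiemVol_iff]
  intro a s hs ha
  rw [gluedVol_apply g b hs]
  have h1 : ∀ i, volIn g (b i) (s ∩ piece (n := n) b i) =
      volIn g a (s ∩ piece (n := n) b i) := fun i =>
    volIn_change g a (b i) (hs.inter (measurableSet_piece b i)) (inter_subset_left.trans ha)
      (inter_subset_right.trans (piece_subset b i))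
  simp only [h1]
  have h2 : s = ⋃ i, s ∩ piece (n := n) b i := by
    rw [← inter_iUnion, iUnion_piece hb, inter_univ]
  change _ = volIn g a s
  conv_rhs => rw [h2]
  rw [volIn_iUnion g a (fun i => hs.inter (measurableSet_piece b i))
    (fun i j hij => (disjoint_piece b hij).mono inter_subset_right inter_subset_right)
    (fun i => inter_subset_left.trans ha), tsum_fintype]

theorem exists_riemVol (g : RMetric (EV n) M) : ∃ μ : Measure M, IsRiemVol g μ := by
  obtain ⟨k, b, hb⟩ := exists_chart_cover n M
  exact ⟨_, isRiemVol_gluedVol g hb⟩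

variable {g : RMetric (EV n) M} {μ μ' : Measure M}

theorem IsRiemVol.unique (hμ : IsRiemVol g μ) (hμ' : IsRiemVol g μ') : μ = μ' := by
  obtain ⟨k, b, hb⟩ := exists_chart_cover n M
  ext s hs
  have h2 : s = ⋃ i, s ∩ piece (n := n) b i := by
    rw [← inter_iUnion, iUnion_piece hb, inter_univ]
  have h3 : Pairwise (Function.onFun Disjoint fun i => s ∩ piece (n := n) b i) :=
    fun i j hij => (disjoint_piece b hij).mono inter_subset_right inter_subset_right
  rw [h2, measure_iUnion h3 (fun i => hs.inter (measurableSet_piece b i)),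
    measure_iUnion h3 (fun i => hs.inter (measurableSet_piece b i))]
  congr 1
  funext i
  rw [hμ (b i) _ (hs.inter (measurableSet_piece b i)) (inter_subset_right.trans (piece_subset b i)),
    hμ' (b i) _ (hs.inter (measurableSet_piece b i)) (inter_subset_right.trans (piece_subset b i))]

theorem IsRiemVol.isFiniteMeasure (hμ : IsRiemVol g μ) : IsFiniteMeasure μ := by
  have h : ∀ x : M, ∃ s ∈ 𝓝 x, μ s < (⊤ : ℝ≥0∞) := by
    intro x
    have hx := mem_chart_target (EV n) x
    obtain ⟨r, hr, hr2⟩ := Metric.isOpen_iff.1 (chartAt (EV n) x).open_target _ hx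
    have hr3 : Metric.closedBall (chartAt (EV n) x x) (r / 2) ⊆ (chartAt (EV n) x).target :=
      (Metric.closedBall_subset_ball (by linarith)).trans hr2
    have hc : IsCompact (Metric.closedBall (chartAt (EV n) x x) (r / 2)) :=
      isCompact_closedBall _ _
    obtain ⟨C, hC⟩ := hc.exists_bound_of_continuousOn ((continuousOn_dens g x).mono hr3)
    set s : Set M := (chartAt (EV n) x).source ∩ (chartAt (EV n) x) ⁻¹'
      Metric.ball (chartAt (EV n) x x) (r / 2) with hs
    have hso : IsOpen s := (chartAt (EV n) x).isOpen_inter_preimage Metric.isOpen_ball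
    refine ⟨s, hso.mem_nhds ⟨mem_chart_source _ x, by simpa using hr⟩, ?_⟩
    rw [hμ x s hso.measurableSet inter_subset_left]
    change ∫⁻ u in (chartAt (EV n) x) '' s, ENNReal.ofReal (dens g x u) < _
    have h1 : (chartAt (EV n) x) '' s ⊆ Metric.closedBall (chartAt (EV n) x x) (r / 2) := by
      rintro _ ⟨y, hy, rfl⟩
      exact Metric.ball_subset_closedBall hy.2
    calc ∫⁻ u in (chartAt (EV n) x) '' s, ENNReal.ofReal (dens g x u)
        ≤ ∫⁻ u in Metric.closedBall (chartAt (EV n) x x) (r / 2), ENNReal.ofReal (dens g x u) :=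
          lintegral_mono_set h1
      _ ≤ ∫⁻ _ in Metric.closedBall (chartAt (EV n) x x) (r / 2), ENNReal.ofReal C := by
          refine setLIntegral_mono' measurableSet_closedBall fun u hu => ?_
          exact ENNReal.ofReal_le_ofReal ((le_abs_self _).trans (hC u hu))
      _ < _ := by
          rw [setLIntegral_const]
          exact ENNReal.mul_lt_top ENNReal.ofReal_lt_top hc.measure_lt_top
  have h2 : IsLocallyFiniteMeasure μ := ⟨fun x => by
    obtain ⟨s, hs, hs2⟩ := h x
    exact ⟨s, hs, hs2⟩⟩
  exact CompactSpace.isFiniteMeasure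

theorem IsRiemVol.isOpenPosMeasure (hμ : IsRiemVol g μ) : μ.IsOpenPosMeasure := by
  refine ⟨fun U hU hne h0 => ?_⟩
  obtain ⟨x, hx⟩ := hne
  set s : Set M := (chartAt (EV n) x).source ∩ U with hs
  have hso : IsOpen s := (chartAt (EV n) x).open_source.inter hU
  have h1 : μ s = 0 := measure_mono_null inter_subset_right h0
  rw [hμ x s hso.measurableSet inter_subset_left] at h1
  change ∫⁻ u in (chartAt (EV n) x) '' s, ENNReal.ofReal (dens g x u) = 0 at h1
  have h2 : IsOpen ((chartAt (EV n) x) '' s) :=
    (chartAt (EV n) x).isOpen_image_of_subset_source hso inter_subset_left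
  have h3 : 0 < volume ((chartAt (EV n) x) '' s) :=
    h2.measure_pos _ ⟨_, mem_image_of_mem _ ⟨mem_chart_source _ x, hx⟩⟩
  have hsub : (chartAt (EV n) x) '' s ⊆ (chartAt (EV n) x).target := by
    rintro _ ⟨y, hy, rfl⟩
    exact (chartAt (EV n) x).map_source hy.1
  have h4 : AEMeasurable (fun u => ENNReal.ofReal (dens g x u))
      (volume.restrict ((chartAt (EV n) x) '' s)) :=
    (((continuousOn_dens g x).mono hsub).aemeasurable h2.measurableSet).ennreal_ofReal
  rw [lintegral_eq_zero_iff' h4] at h1
  have h5 : ∀ᵐ u ∂volume.restrict ((chartAt (EV n) x) '' s), False := by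
    filter_upwards [h1, ae_restrict_mem h2.measurableSet] with u hu hu2
    have := dens_pos g x (hsub hu2)
    simp only [Pi.zero_apply, ENNReal.ofReal_eq_zero] at hu
    linarith
  have h6 : volume.restrict ((chartAt (EV n) x) '' s) = 0 := by
    have := ae_iff.1 h5
    simpa using this
  rw [Measure.restrict_eq_zero] at h6
  exact h3.ne' h6

end Vol

/-! ### the Liouville measure -/

section Liouville

theorem exists_abs_le {g : RMetric (EV n) M} [CompactSpace (UT g)] {a : UT g → ℝ} (ha : Continuous a) :
    ∃ C, 0 ≤ C ∧ ∀ p, |a p| ≤ C := by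
  obtain ⟨C, hC⟩ := isCompact_univ.exists_bound_of_continuousOn (f := a) ha.continuousOn
  exact ⟨max C 0, le_max_right _ _, fun p => (hC p (mem_univ p)).trans (le_max_left _ _)⟩

variable {g : RMetric (EV n) M}

theorem ae_ne_zero (hn : 1 ≤ n) : ∀ᵐ v : EV n, v ≠ 0 := by
  have : NeZero n := ⟨by omega⟩
  have : Nontrivial (EV n) := inferInstance
  rw [ae_iff]
  simp

theorem continuous_sphAvg (hn : 1 ≤ n) {a : UT g → ℝ} (ha : Continuous a) :
    Continuous (sphAvg g a) := by
  have := compactSpace_UT g
  obtain ⟨C, hC0, hC⟩ := exists_abs_le ha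
  rw [continuous_iff_continuousAt]
  intro b
  obtain ⟨c, hc⟩ := exists_LB g b
  have hsrc : (chartAt (EV n) b).source ∈ 𝓝 b :=
    (chartAt (EV n) b).open_source.mem_nhds (mem_chart_source _ b)
  have hB : ContinuousAt (fun x => coefL g b (chartAt (EV n) b x)) b :=
    ContinuousAt.comp (g := coefL g b) ((continuousOn_coefL g b).continuousAt
      ((chartAt (EV n) b).open_target.mem_nhds (mem_chart_target _ b)))
      ((chartAt (EV n) b).continuousAt (mem_chart_source _ b))
  have : SecondCountableTopology M := ChartedSpace.secondCountable_of_sigmaCompact (EV n) M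
  have : FirstCountableTopology M := inferInstance
  have h1 : ContinuousAt (fun x => avgB (coefL g b (chartAt (EV n) b x))
      (fun v => radial g a x (Dc b x v))) b := by
    refine continuousAt_avgB hB hc (C := C) ?_ ?_ ?_
    · exact Eventually.of_forall fun x v => abs_radial_le g hC hC0 x _
    · filter_upwards [hsrc] with x hx
      exact (measurable_radial g ha x).comp (Dc b x).continuous.measurable
    · filter_upwards [ae_ne_zero hn] with v hv
      have h2 : ContinuousAt (fun z : M × EV n => radial g a z.1 (Dc b z.1 z.2)) (b, v) :=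
        (continuousOn_radial g ha b).continuousAt
          (((chartAt (EV n) b).open_source.prod isOpen_compl_singleton).mem_nhds
            ⟨mem_chart_source _ b, hv⟩)
      exact ContinuousAt.comp (f := fun x : M => (x, v)) h2
        (continuousAt_id.prodMk continuousAt_const)
  refine h1.congr ?_
  filter_upwards [hsrc] with x hx
  exact (sphAvg_chart g a b hx).symm

theorem integrableOn_radial {a : UT g → ℝ} (ha : Continuous a) (x : M) :
    IntegrableOn (fun v : EV n => radial g a x v) (ballB (innerB g x)) := by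
  have := compactSpace_UT g
  obtain ⟨C, hC0, hC⟩ := exists_abs_le ha
  obtain ⟨c, hc⟩ := innerB_LB g x
  refine Measure.integrableOn_of_bounded (M := C) hc.volume_ballB_lt_top.ne
    (measurable_radial g ha x).aestronglyMeasurable ?_
  exact Eventually.of_forall fun v => abs_radial_le g hC hC0 x v

theorem radial_add (a a' : UT g → ℝ) (x : M) (v : TangentSpace 𝓘(ℝ, EV n) x) :
    radial g (a + a') x v = radial g a x v + radial g a' x v := by
  unfold radial
  split_ifs <;> simp

theorem radial_smul (c : ℝ) (a : UT g → ℝ) (x : M) (v : TangentSpace 𝓘(ℝ, EV n) x) :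
    radial g (c • a) x v = c * radial g a x v := by
  unfold radial
  split_ifs <;> simp

theorem sphAvg_add {a a' : UT g → ℝ} (ha : Continuous a) (ha' : Continuous a') (x : M) :
    sphAvg g (a + a') x = sphAvg g a x + sphAvg g a' x := by
  rw [sphAvg_eq, sphAvg_eq, sphAvg_eq]
  unfold avgB
  rw [← add_div, ← integral_add (integrableOn_radial ha x) (integrableOn_radial ha' x)]
  congr 1
  refine integral_congr_ae (Eventually.of_forall fun v => ?_)
  exact radial_add a a' x v

theorem sphAvg_smul (c : ℝ) (a : UT g → ℝ) (x : M) :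
    sphAvg g (c • a) x = c * sphAvg g a x := by
  rw [sphAvg_eq, sphAvg_eq]
  unfold avgB
  rw [← mul_div_assoc, ← integral_const_mul]
  congr 1
  refine integral_congr_ae (Eventually.of_forall fun v => ?_)
  exact radial_smul c a x v

theorem sphAvg_nonneg {a : UT g → ℝ} (h : ∀ p, 0 ≤ a p) (x : M) : 0 ≤ sphAvg g a x := by
  rw [sphAvg_eq]
  unfold avgB
  refine div_nonneg (integral_nonneg fun v => ?_) measureReal_nonneg
  change 0 ≤ radial g a x v
  unfold radial
  split_ifs
  · exact le_refl _
  · exact h _

theorem sphAvg_one (hn : 1 ≤ n) (x : M) : sphAvg g (fun _ => 1) x = 1 := by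
  rw [sphAvg_eq]
  unfold avgB
  obtain ⟨c, hc⟩ := innerB_LB g x
  have h1 : ∫ v in ballB (innerB g x), radial g (fun _ => 1) x v =
      ∫ _ in ballB (innerB g x), (1 : ℝ) := by
    refine integral_congr_ae (ae_restrict_of_ae ?_)
    filter_upwards [ae_ne_zero hn] with v hv
    exact dif_neg hv
  rw [h1]
  simp only [integral_const, smul_eq_mul, mul_one, measureReal_restrict_apply MeasurableSet.univ,
    univ_inter]
  exact div_self hc.volume_real_pos.ne'

variable [MeasurableSpace M] [BorelSpace M] {μ μ' : Measure M} {m m' : Measure (UT g)}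

/-- the functional of the Liouville measure -/
def liouvilleFun (hn : 1 ≤ n) (g : RMetric (EV n) M) (μ : Measure M) [IsFiniteMeasure μ] :
    CompactlySupportedContinuousMap (UT g) ℝ →ₚ[ℝ] ℝ :=
  PositiveLinearMap.mk₀
    { toFun := fun f => (∫ x, sphAvg g f x ∂μ) / μ.real univ
      map_add' := by
        intro f f'
        have h1 : Continuous (sphAvg g f) := continuous_sphAvg hn f.continuous
        have h2 : Continuous (sphAvg g f') := continuous_sphAvg hn f'.continuous
        have e : ∀ x, sphAvg g (⇑(f + f')) x = sphAvg g f x + sphAvg g f' x :=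
          fun x => sphAvg_add f.continuous f'.continuous x
        simp only [e]
        rw [integral_add (h1.integrable_of_hasCompactSupport
          (HasCompactSupport.of_compactSpace _)) (h2.integrable_of_hasCompactSupport
          (HasCompactSupport.of_compactSpace _)), add_div]
      map_smul' := by
        intro c f
        simp only [RingHom.id_apply, smul_eq_mul]
        rw [← mul_div_assoc, ← integral_const_mul]
        congr 1
        refine integral_congr_ae (Eventually.of_forall fun x => ?_)
        exact sphAvg_smul c f x }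
    (by
      intro f hf
      exact div_nonneg (integral_nonneg fun x => sphAvg_nonneg hf x) measureReal_nonneg)

theorem exists_liouville (hn : 1 ≤ n) [Nonempty M] (hμ : IsRiemVol g μ) :
    ∃ m : Measure (UT g), IsLiouville g μ m := by
  have := compactSpace_UT g
  have := t2Space_UT g
  have := hμ.isFiniteMeasure
  have := hμ.isOpenPosMeasure
  have hpos : 0 < μ.real univ := by
    refine ENNReal.toReal_pos ?_ (measure_ne_top μ _)
    exact (isOpen_univ.measure_pos μ univ_nonempty).ne'
  set m := RealRMK.rieszMeasure (liouvilleFun hn g μ) with hm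
  have key : ∀ a : UT g → ℝ, Continuous a → ∫ p, a p ∂m = (∫ x, sphAvg g a x ∂μ) / μ.real univ := by
    intro a ha
    have h := RealRMK.integral_rieszMeasure (liouvilleFun hn g μ)
      ⟨⟨a, ha⟩, HasCompactSupport.of_compactSpace _⟩
    exact h
  have h1 : ∫ _, (1 : ℝ) ∂m = 1 := by
    rw [key _ continuous_const]
    simp only [sphAvg_one hn, integral_const, smul_eq_mul, mul_one]
    exact div_self hpos.ne'
  refine ⟨m, ⟨?_⟩, key⟩
  simp only [integral_const, smul_eq_mul, mul_one] at h1
  rw [Measure.real, ENNReal.toReal_eq_one_iff] at h1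
  exact h1

theorem IsLiouville.unique (hm : IsLiouville g μ m) (hm' : IsLiouville g μ m') : m = m' := by
  have := compactSpace_UT g
  have := metrizableSpace_UT g
  have := hm.1
  have := hm'.1
  refine ext_of_forall_integral_eq_of_IsFiniteMeasure fun f => ?_
  rw [hm.2 f f.continuous, hm'.2 f f.continuous]

/-- full support -/
theorem IsLiouville.eq_zero (hn : 1 ≤ n) (hμ : IsRiemVol g μ) (hm : IsLiouville g μ m)
    {a : UT g → ℝ} (ha : Continuous a) (h0 : ∀ p, 0 ≤ a p) (h : ∫ p, a p ∂m = 0) :
    ∀ p, a p = 0 := by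
  have := compactSpace_UT g
  have := hμ.isFiniteMeasure
  have := hμ.isOpenPosMeasure
  intro p
  have hpos : 0 < μ.real univ := by
    refine ENNReal.toReal_pos ?_ (measure_ne_top μ _)
    exact (isOpen_univ.measure_pos μ ⟨p.pt, mem_univ _⟩).ne'
  have hc := continuous_sphAvg hn ha
  rw [hm.2 a ha, div_eq_zero_iff, or_iff_left hpos.ne'] at h
  have h1 : (fun x => sphAvg g a x) =ᵐ[μ] 0 :=
    (integral_eq_zero_iff_of_nonneg (fun x => sphAvg_nonneg h0 x)
      (hc.integrable_of_hasCompactSupport (HasCompactSupport.of_compactSpace _))).1 h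
  have h2 : ∀ x, sphAvg g a x = 0 := fun x =>
    congrFun ((Continuous.ae_eq_iff_eq μ hc continuous_const).1 h1) x
  obtain ⟨c, hcB⟩ := innerB_LB g p.pt
  have h3 := h2 p.pt
  rw [sphAvg_eq] at h3
  unfold avgB at h3
  rw [div_eq_zero_iff, or_iff_left hcB.volume_real_pos.ne'] at h3
  have hr0 : ∀ v : EV n, 0 ≤ radial g a p.pt v := by
    intro v
    unfold radial
    split_ifs
    · exact le_refl _
    · exact h0 _
  have h4 := (integral_eq_zero_iff_of_nonneg (fun v => hr0 v) (integrableOn_radial ha p.pt)).1 h3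
  have hv0 : (p.vec : EV n) ≠ 0 := by
    intro h
    have h5 := p.2
    have h6 : g.inner p.pt p.vec p.vec = 0 := by
      have : p.vec = 0 := h
      rw [this]; simp
    rw [show g.inner p.1.1 p.1.2 p.1.2 = g.inner p.pt p.vec p.vec from rfl, h6] at h5
    exact zero_ne_one h5
  have hv1 : g.inner p.pt p.vec p.vec = 1 := p.2
  set v₀ : EV n := (1 / 2 : ℝ) • (p.vec : EV n) with hv₀
  have hv2 : v₀ ≠ 0 := smul_ne_zero (by norm_num) hv0
  have hn1 : g.inner p.pt ((1 / 2 : ℝ) • p.vec) ((1 / 2 : ℝ) • p.vec) = 1 / 4 := by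
    simp only [map_smul, smul_apply, smul_eq_mul, hv1]
    norm_num
  have hball : v₀ ∈ ballB (innerB g p.pt) := by
    change innerB g p.pt v₀ v₀ < 1
    have : innerB g p.pt v₀ v₀ = 1 / 4 := hn1
    rw [this]
    norm_num
  have hrad : radial g a p.pt v₀ = a p := by
    refine (dif_neg hv2).trans ?_
    congr 1
    apply Subtype.ext
    have hs : (Real.sqrt (g.inner p.pt ((1 / 2 : ℝ) • p.vec) ((1 / 2 : ℝ) • p.vec)))⁻¹ = 2 := by
      rw [hn1, show (1 / 4 : ℝ) = (1 / 2) ^ 2 by norm_num, Real.sqrt_sq (by norm_num)]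
      norm_num
    have h6 : (Real.sqrt (g.inner p.pt ((1 / 2 : ℝ) • p.vec) ((1 / 2 : ℝ) • p.vec)))⁻¹ •
        ((1 / 2 : ℝ) • p.vec) = p.vec := by
      rw [hs, smul_smul]
      norm_num
    exact congrArg (fun w : TangentSpace 𝓘(ℝ, EV n) p.pt =>
      (⟨p.pt, w⟩ : TangentBundle 𝓘(ℝ, EV n) M)) h6
  by_contra hne
  have hcont : ContinuousAt (fun v : EV n => radial g a p.pt v) v₀ :=
    (continuousOn_radial_self g ha p.pt).continuousAt (isOpen_compl_singleton.mem_nhds hv2)
  have hev : ∀ᶠ v in 𝓝 v₀, radial g a p.pt (v : EV n) ≠ 0 :=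
    hcont.eventually_ne (by rw [hrad]; exact hne)
  have hmem : {v : EV n | radial g a p.pt v ≠ 0} ∩ ballB (innerB g p.pt) ∈ 𝓝 v₀ :=
    Filter.inter_mem hev ((isOpen_ballB _).mem_nhds hball)
  have h7 := Measure.measure_pos_of_mem_nhds (volume : Measure (EV n)) hmem
  have h8 : volume ({v : EV n | radial g a p.pt v ≠ 0} ∩ ballB (innerB g p.pt)) = 0 := by
    have h9 : ∀ᵐ v ∂volume.restrict (ballB (innerB g p.pt)), ¬ (radial g a p.pt (v : EV n) ≠ 0) := by
      filter_upwards [h4] with v hv
      simpa using hv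
    rw [ae_restrict_iff' (measurableSet_ballB _), ae_iff] at h9
    refine measure_mono_null ?_ h9
    rintro v ⟨h10, h11⟩ h12
    exact h12 h11 h10
  exact h7.ne' h8

end Liouville

end Vale.Agent.P207
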