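import Vale.Agent.P207.Defs

/-!
# P207: neighbourhoods of metrics
-/

open scoped Manifold ContDiff ENNReal
open Bundle MeasureTheory Set Filter

noncomputable section

namespace Vale.Agent.P207

open Vale.Agent.P255 (RMetric coefIn Gam Riem IsGeo)

variable {n : ℕ} {M : Type} [TopologicalSpace M] [ChartedSpace (EV n) M]
  [IsManifold 𝓘(ℝ, EV n) ∞ M]

/-- `C⁰`-closeness: `(1 - ε) g ≤ g' ≤ (1 + ε) g` on all tangent vectors. -/
def C0Close (g g' : RMetric (EV n) M) (ε : ℝ) : Prop :=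
  ∀ (x : M) (v : TangentSpace 𝓘(ℝ, EV n) x), (1 - ε) * g.inner x v v ≤ g'.inner x v v ∧
    g'.inner x v v ≤ (1 + ε) * g.inner x v v

/-- `C^k`-closeness on the subset `K` of the chart at `a`: the derivatives of order `≤ k` of the
coefficients `g_{ij}` and `g'_{ij}` in the chart at `a` differ by less than `ε` on `K`. -/
def CkClose (g g' : RMetric (EV n) M) (k : ℕ) (a : M) (K : Set (EV n)) (ε : ℝ) : Prop :=
  ∀ (i j : Fin n), ∀ l ≤ k, ∀ u ∈ K,
    ‖iteratedFDeriv ℝ l (fun p => coefIn g' a p (EuclideanSpace.single i 1)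
        (EuclideanSpace.single j 1)) u
      - iteratedFDeriv ℝ l (fun p => coefIn g a p (EuclideanSpace.single i 1)
        (EuclideanSpace.single j 1)) u‖ < ε

/-- `g' = e^{2u} g`. -/
def IsConf (g g' : RMetric (EV n) M) (u : M → ℝ) : Prop :=
  ∀ (x : M) (v w : TangentSpace 𝓘(ℝ, EV n) x),
    g'.inner x v w = Real.exp (2 * u x) * g.inner x v w

end Vale.Agent.P207
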