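import Vale.Agent.P207.BlkG2

/-!
# P207: continuity of the `g₁`-length of `g₀`-unit vectors
-/

open scoped Manifold ContDiff ENNReal Topology
open Bundle MeasureTheory Set Filter

noncomputable section

namespace Vale.Agent.P207

open Vale.Agent.P255 (RMetric)

variable {n : ℕ} {M : Type} [TopologicalSpace M] [ChartedSpace (EV n) M]
  [IsManifold 𝓘(ℝ, EV n) ∞ M]

theorem continuous_nrm [CompactSpace M] [T2Space M] (g₀ g₁ : RMetric (EV n) M) :
    Continuous (nrm g₀ g₁) := continuous_nrm_UT g₀ g₁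

theorem nrm_nonneg (g₀ g₁ : RMetric (EV n) M) (p : UT g₀) : 0 ≤ nrm g₀ g₁ p := Real.sqrt_nonneg _

end Vale.Agent.P207
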