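/-
P207, block C0: the criterion `A(g₀,g₁) A(g₁,g₀) < 1` is a `C⁰`-open condition on `g₁`.
Author: helper982.
-/
import Vale.Agent.P207.BlkF
import Vale.Agent.P207.BlkV
import Vale.Agent.P207.Defs2
import Vale.Agent.P207.Nrm

open scoped Manifold ContDiff ENNReal Topology Pointwise
open Bundle MeasureTheory Set Filter

noncomputable section

namespace Vale.Agent.P207

open Vale.Agent.P255 (RMetric coefIn Gam Riem IsGeo Metric Npc ExpSys toMetric geo expg coefL)

/-! ### forms -/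

section Forms

variable {n : ℕ}

/-- `B ≤ ℓ² B'`. -/
def FLe (l : ℝ) (B B' : EV n →L[ℝ] EV n →L[ℝ] ℝ) : Prop := ∀ v, B v v ≤ l ^ 2 * B' v v

theorem smul_apply_two (B : EV n →L[ℝ] EV n →L[ℝ] ℝ) (r : ℝ) (v : EV n) :
    B (r • v) (r • v) = r ^ 2 * B v v := by
  simp only [map_smul, smul_apply, smul_eq_mul]
  ring

/-- If `B' ≤ ℓ² B` the unit ball of `B` is contained in `ℓ` times the unit ball of `B'`. -/
theorem ballB_subset_smul {l : ℝ} (hl : 0 < l) {B B' : EV n →L[ℝ] EV n →L[ℝ] ℝ}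
    (h : FLe l B' B) : ballB B ⊆ l • ballB B' := by
  intro v hv
  rw [mem_smul_set_iff_inv_smul_mem₀ hl.ne']
  change B' (l⁻¹ • v) (l⁻¹ • v) < 1
  rw [smul_apply_two]
  have h1 : B v v < 1 := hv
  have h2 := h v
  rw [inv_pow, inv_mul_lt_iff₀ (by positivity), mul_one]
  nlinarith [sq_nonneg l, pow_pos hl 2]

theorem volume_real_smul {l : ℝ} (hl : 0 < l) (s : Set (EV n)) :
    volume.real (l • s) = l ^ n * volume.real s := by
  rw [Measure.real, Measure.addHaar_smul, ENNReal.toReal_mul, finrank_euclideanSpace_fin,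
    ENNReal.toReal_ofReal (abs_nonneg _), abs_of_pos (by positivity)]
  rfl

theorem volume_ballB_le {l : ℝ} (hl : 0 < l) {B B' : EV n →L[ℝ] EV n →L[ℝ] ℝ} {c : ℝ}
    (hB' : LB B' c) (h : FLe l B' B) :
    volume.real (ballB B) ≤ l ^ n * volume.real (ballB B') := by
  rw [← volume_real_smul hl]
  refine measureReal_mono (ballB_subset_smul hl h) ?_
  rw [Measure.addHaar_smul]
  exact ENNReal.mul_ne_top ENNReal.ofReal_ne_top hB'.volume_ballB_lt_top.ne

/-- comparison of the densities -/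
theorem sqrt_det_le {l : ℝ} (hl : 0 < l) {B B' : EV n →L[ℝ] EV n →L[ℝ] ℝ}
    (hs : ∀ v w, B v w = B w v) (hs' : ∀ v w, B' v w = B' w v) {c c' : ℝ} (hB : LB B c)
    (hB' : LB B' c') (h : FLe l B B') :
    Real.sqrt (gramE B).det ≤ l ^ n * Real.sqrt (gramE B').det := by
  have h1 := volume_ballB_le hl hB h
  rw [volume_real_ballB hs (fun v hv => hB.pos hv), volume_real_ballB hs' (fun v hv => hB'.pos hv)]
    at h1
  have p1 : 0 < Real.sqrt (gramE B).det := Real.sqrt_pos.2 (gramE_det_pos hs fun v hv => hB.pos hv)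
  have p2 : 0 < Real.sqrt (gramE B').det :=
    Real.sqrt_pos.2 (gramE_det_pos hs' fun v hv => hB'.pos hv)
  have p3 : 0 < volume.real (Metric.ball (0 : EV n) 1) :=
    ENNReal.toReal_pos (Metric.isOpen_ball.measure_pos _ ⟨0, by simp⟩).ne'
      measure_ball_lt_top.ne
  rw [mul_div_assoc', div_le_div_iff₀ p2 p1] at h1
  have h2 : volume.real (Metric.ball (0 : EV n) 1) * Real.sqrt (gramE B).det ≤
      volume.real (Metric.ball (0 : EV n) 1) * (l ^ n * Real.sqrt (gramE B').det) := by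
    linarith
  exact le_of_mul_le_mul_left h2 p3

/-- comparison of the averages over the unit balls -/
theorem avgB_le {l : ℝ} (hl : 1 ≤ l) {B B' : EV n →L[ℝ] EV n →L[ℝ] ℝ} {c c' : ℝ} (hB : LB B c)
    (hB' : LB B' c') (h : FLe l B B') (h' : FLe l B' B) {F F' : EV n → ℝ} {K : ℝ}
    (hF : Measurable F) (hF' : Measurable F') (h0 : ∀ v, 0 ≤ F v) (hK : ∀ v, |F' v| ≤ K)
    (hle : ∀ v, F v ≤ l * F' v) (hhom : ∀ (r : ℝ) (v), 0 < r → F' (r • v) = F' v) :
    avgB B F ≤ l ^ (2 * n + 1) * avgB B' F' := by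
  have hl0 : 0 < l := by linarith
  have h0' : ∀ v, 0 ≤ F' v := fun v => by
    have := (h0 v).trans (hle v)
    exact (mul_nonneg_iff_of_pos_left hl0).1 this
  have hfin' : volume (l • ballB B') < ⊤ := by
    rw [Measure.addHaar_smul]
    exact ENNReal.mul_lt_top ENNReal.ofReal_lt_top hB'.volume_ballB_lt_top
  have hint : IntegrableOn F' (l • ballB B') :=
    Measure.integrableOn_of_bounded hfin'.ne hF'.aestronglyMeasurable
      (Eventually.of_forall fun v => hK v)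
  have hint1 : IntegrableOn F' (ballB B) := hint.mono_set (ballB_subset_smul hl0 h')
  have hint2 : IntegrableOn F (ballB B) := by
    refine Integrable.mono (hint1.const_mul l) hF.aestronglyMeasurable
      (Eventually.of_forall fun v => ?_)
    rw [Real.norm_of_nonneg (h0 v), Real.norm_of_nonneg (mul_nonneg hl0.le (h0' v))]
    exact hle v
  have h1 : ∫ v in ballB B, F v ≤ l ^ (n + 1) * ∫ v in ballB B', F' v := by
    calc ∫ v in ballB B, F v ≤ ∫ v in ballB B, l * F' v :=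
          setIntegral_mono hint2 (hint1.const_mul l) hle
      _ = l * ∫ v in ballB B, F' v := integral_const_mul _ _
      _ ≤ l * ∫ v in l • ballB B', F' v := by
          refine mul_le_mul_of_nonneg_left ?_ hl0.le
          exact setIntegral_mono_set hint (Eventually.of_forall h0')
            (ballB_subset_smul hl0 h').eventuallyLE
      _ = l * (l ^ n * ∫ v in ballB B', F' v) := by
          have e := Measure.setIntegral_comp_smul_of_pos volume F' (ballB B') hl0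
          rw [finrank_euclideanSpace_fin, smul_eq_mul] at e
          have e2 : ∀ v, F' (l • v) = F' v := fun v => hhom l v hl0
          simp only [e2] at e
          rw [e, ← mul_assoc (l ^ n), mul_inv_cancel₀ (by positivity), one_mul]
      _ = l ^ (n + 1) * ∫ v in ballB B', F' v := by ring
  have h2 : volume.real (ballB B') ≤ l ^ n * volume.real (ballB B) := volume_ballB_le hl0 hB h
  have p1 := hB.volume_real_pos
  have p2 := hB'.volume_real_pos
  have h3 : 0 ≤ ∫ v in ballB B', F' v := integral_nonneg h0'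
  unfold avgB
  rw [mul_div_assoc', div_le_div_iff₀ p1 p2]
  calc (∫ v in ballB B, F v) * volume.real (ballB B')
      ≤ (l ^ (n + 1) * ∫ v in ballB B', F' v) * (l ^ n * volume.real (ballB B)) := by
        refine mul_le_mul h1 h2 p2.le (by positivity)
    _ = l ^ (2 * n + 1) * (∫ v in ballB B', F' v) * volume.real (ballB B) := by ring

end Forms

/-! ### metrics -/

section Metrics

variable {n : ℕ} {M : Type} [TopologicalSpace M] [ChartedSpace (EV n) M]
  [IsManifold 𝓘(ℝ, EV n) ∞ M]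

/-- `g ≤ ℓ² g'`. -/
def MLe (l : ℝ) (g g' : RMetric (EV n) M) : Prop :=
  ∀ (x : M) (v : TangentSpace 𝓘(ℝ, EV n) x), g.inner x v v ≤ l ^ 2 * g'.inner x v v

theorem MLe.fLe {l : ℝ} {g g' : RMetric (EV n) M} (h : MLe l g g') (x : M) :
    FLe l (innerB g x) (innerB g' x) := h x

theorem MLe.fLe_coef {l : ℝ} {g g' : RMetric (EV n) M} (h : MLe l g g') (a : M) {u : EV n}
    (hu : u ∈ (chartAt (EV n) a).target) : FLe l (coefL g a u) (coefL g' a u) := by
  have hx := (chartAt (EV n) a).map_target hu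
  have e := (chartAt (EV n) a).right_inv hu
  intro v
  have h1 := h ((chartAt (EV n) a).symm u) (Dc a ((chartAt (EV n) a).symm u) v)
  have h2 := innerB_Dc g a hx v v
  have h3 := innerB_Dc g' a hx v v
  rw [e] at h2 h3
  rw [← h2, ← h3]
  exact h1

theorem coefL_LB (g : RMetric (EV n) M) (a : M) {u : EV n} (hu : u ∈ (chartAt (EV n) a).target) :
    ∃ c, LB (coefL g a u) c := by
  obtain ⟨c, hc, hm⟩ := ((mt g).isMetricOn a).lower_bound hu
  exact ⟨c, hc, fun v => hm.self_of_nhds v⟩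

theorem dens_le {l : ℝ} (hl : 0 < l) {g g' : RMetric (EV n) M} (h : MLe l g g') (a : M) {u : EV n}
    (hu : u ∈ (chartAt (EV n) a).target) : dens g a u ≤ l ^ n * dens g' a u := by
  obtain ⟨c, hc⟩ := coefL_LB g a hu
  obtain ⟨c', hc'⟩ := coefL_LB g' a hu
  exact sqrt_det_le hl (coefL_symm g a hu) (coefL_symm g' a hu) hc hc' (h.fLe_coef a hu)

/-- comparison of the volumes -/
theorem riemVol_le [CompactSpace M] [MeasurableSpace M] [BorelSpace M] {l : ℝ} (hl : 0 < l)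
    {g g' : RMetric (EV n) M} (h : MLe l g g') {μ μ' : Measure M} (hμ : IsRiemVol g μ)
    (hμ' : IsRiemVol g' μ') : μ ≤ ENNReal.ofReal (l ^ n) • μ' := by
  have h1 : ∀ (a : M) (s : Set M), MeasurableSet s → s ⊆ (chartAt (EV n) a).source →
      μ s ≤ ENNReal.ofReal (l ^ n) * μ' s := by
    intro a s hs hsa
    rw [isRiemVol_iff.1 hμ a s hs hsa, isRiemVol_iff.1 hμ' a s hs hsa,
      ← lintegral_const_mul' _ _ ENNReal.ofReal_ne_top]
    refine setLIntegral_mono' (measurableSet_chart_image a hs hsa) fun u hu => ?_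
    obtain ⟨x, hx, rfl⟩ := hu
    have hu := (chartAt (EV n) a).map_source (hsa hx)
    rw [← ENNReal.ofReal_mul (by positivity)]
    exact ENNReal.ofReal_le_ofReal (dens_le hl h a hu)
  have h2 : ∀ t : Finset M, ∀ s : Set M, MeasurableSet s →
      s ⊆ ⋃ a ∈ t, (chartAt (EV n) a).source → μ s ≤ ENNReal.ofReal (l ^ n) * μ' s := by
    classical
    intro t
    induction t using Finset.induction_on with
    | empty =>
      intro s _ hs
      have : s = ∅ := by simpa using hs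
      rw [this]
      simp
    | insert a t ha ih =>
      intro s hs hst
      have hm : MeasurableSet (chartAt (EV n) a).source :=
        (chartAt (EV n) a).open_source.measurableSet
      rw [← measure_inter_add_sdiff s hm, ← measure_inter_add_sdiff (μ := μ') s hm, mul_add]
      refine add_le_add (h1 a _ (hs.inter hm) inter_subset_right) (ih _ (hs.diff hm) ?_)
      intro x hx
      have h3 := hst hx.1
      simp only [Finset.mem_insert, iUnion_iUnion_eq_or_left, mem_union, mem_iUnion] at h3 ⊢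
      rcases h3 with h3 | h3
      · exact absurd h3 hx.2
      · exact h3
  obtain ⟨t, -, ht⟩ := (isCompact_univ (X := M)).elim_nhds_subcover
    (fun a => (chartAt (EV n) a).source)
    (fun a _ => (chartAt (EV n) a).open_source.mem_nhds (mem_chart_source (EV n) a))
  rw [Measure.le_iff]
  intro s hs
  exact h2 t s hs ((subset_univ s).trans ht)

theorem nrm_le_mul {l : ℝ} (hl : 0 ≤ l) (g : RMetric (EV n) M) {g₁ g₂ : RMetric (EV n) M}
    (h : MLe l g₁ g₂) (p : UT g) : nrm g g₁ p ≤ l * nrm g g₂ p := by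
  unfold nrm
  rw [← Real.sqrt_sq hl, ← Real.sqrt_mul (sq_nonneg l)]
  exact Real.sqrt_le_sqrt (h p.pt p.vec)

/-- the function `v ↦ |v|_{g'} / |v|_g` -/
theorem radial_nrm (g g' : RMetric (EV n) M) (x : M) (v : TangentSpace 𝓘(ℝ, EV n) x) :
    radial g (nrm g g') x v = Real.sqrt (g'.inner x v v) / Real.sqrt (g.inner x v v) := by
  unfold radial
  split_ifs with h
  · subst h
    simp
  · have h1 := g.pos x v h
    have h2 : nrm g g' (unitDir g x v h) = Real.sqrt (g'.inner x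
      ((Real.sqrt (g.inner x v v))⁻¹ • v) ((Real.sqrt (g.inner x v v))⁻¹ • v)) := rfl
    rw [h2]
    simp only [map_smul, smul_apply, smul_eq_mul]
    rw [← mul_assoc, Real.sqrt_mul (by positivity), Real.sqrt_mul_self (by positivity),
      inv_mul_eq_div]

theorem radial_nrm' (g g' : RMetric (EV n) M) (x : M) (v : EV n) :
    radial g (nrm g g') x v = Real.sqrt (innerB g' x v v) / Real.sqrt (innerB g x v v) :=
  radial_nrm g g' x v

theorem radial_nrm_nonneg (g g' : RMetric (EV n) M) (x : M) (v : EV n) :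
    0 ≤ radial g (nrm g g') x v := by
  have h : 0 ≤ Real.sqrt (innerB g' x v v) / Real.sqrt (innerB g x v v) := by positivity
  exact h.trans_eq (radial_nrm' g g' x v).symm

/-- homogeneity -/
theorem radial_hom (g : RMetric (EV n) M) (a : UT g → ℝ) (x : M) {r : ℝ} (hr : 0 < r)
    (v : TangentSpace 𝓘(ℝ, EV n) x) : radial g a x (r • v) = radial g a x v := by
  unfold radial
  by_cases hv : v = 0
  · subst hv
    simp
  · have hrv : r • v ≠ 0 := smul_ne_zero hr.ne' hv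
    rw [dif_neg hv, dif_neg hrv]
    congr 1
    apply Subtype.ext
    have h1 := g.pos x v hv
    have e : (Real.sqrt (g.inner x (r • v) (r • v)))⁻¹ • (r • v) =
        (Real.sqrt (g.inner x v v))⁻¹ • v := by
      have e1 : g.inner x (r • v) (r • v) = r ^ 2 * g.inner x v v := by
        simp only [map_smul, smul_apply, smul_eq_mul]
        ring
      rw [e1, Real.sqrt_mul (sq_nonneg r), Real.sqrt_sq hr.le, smul_smul, mul_inv, mul_comm r⁻¹,
        mul_assoc, inv_mul_cancel₀ hr.ne', mul_one]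
    change (⟨x, _⟩ : TangentBundle 𝓘(ℝ, EV n) M) = ⟨x, _⟩
    rw [e]

end Metrics

section Main

variable {n : ℕ} {M : Type} [TopologicalSpace M] [ChartedSpace (EV n) M]
  [IsManifold 𝓘(ℝ, EV n) ∞ M] [CompactSpace M] [T2Space M] [MeasurableSpace M] [BorelSpace M]

/-- the average stretch of a Liouville measure -/
theorem IsLiouville.integral_nrm {g g' : RMetric (EV n) M} {μ : Measure M} {m : Measure (UT g)}
    (hm : IsLiouville g μ m) :
    ∫ p, nrm g g' p ∂m = (∫ x, sphAvg g (nrm g g') x ∂μ) / μ.real univ :=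
  hm.2 _ (continuous_nrm g g')

omit [MeasurableSpace M] [BorelSpace M] in
theorem sphAvg_nrm_nonneg (g g' : RMetric (EV n) M) (x : M) : 0 ≤ sphAvg g (nrm g g') x := by
  unfold sphAvg
  exact div_nonneg (integral_nonneg fun v => radial_nrm_nonneg g g' x v) measureReal_nonneg

omit [MeasurableSpace M] [BorelSpace M] in
theorem sphAvg_le {l : ℝ} (hl : 1 ≤ l) {g₀ g₁ g : RMetric (EV n) M} (h : MLe l g g₁)
    (h' : MLe l g₁ g) (x : M) :
    sphAvg g (nrm g g₀) x ≤ l ^ (2 * n + 1) * sphAvg g₁ (nrm g₁ g₀) x := by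
  have hl0 : 0 < l := by linarith
  obtain ⟨c, hc⟩ := innerB_LB g x
  obtain ⟨c', hc'⟩ := innerB_LB g₁ x
  rw [sphAvg_eq, sphAvg_eq]
  have hcont := continuous_nrm g₁ g₀
  have := compactSpace_UT g₁
  obtain ⟨K, hK⟩ : ∃ K, ∀ p, |nrm g₁ g₀ p| ≤ K := by
    obtain ⟨K, hK⟩ := (isCompact_range hcont.abs).bddAbove
    exact ⟨K, fun p => hK ⟨p, rfl⟩⟩
  refine avgB_le hl hc hc' (h.fLe x) (h'.fLe x) (K := max K 0) (measurable_radial g (continuous_nrm g g₀) x)
    (measurable_radial g₁ hcont x) (fun v => radial_nrm_nonneg g g₀ x v)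
    (fun v => abs_radial_le g₁ (fun p => (hK p).trans (le_max_left _ _)) (le_max_right _ _) x v)
    (fun v => ?_) (fun r v hr => radial_hom g₁ _ x hr v)
  have key : Real.sqrt (innerB g₀ x v v) / Real.sqrt (innerB g x v v) ≤
      l * (Real.sqrt (innerB g₀ x v v) / Real.sqrt (innerB g₁ x v v)) := by
    by_cases hv : v = 0
    · subst hv
      simp
    have p1 : 0 < innerB g x v v := hc.pos hv
    have p2 : 0 < innerB g₁ x v v := hc'.pos hv
    have h1 : Real.sqrt (innerB g₁ x v v) ≤ l * Real.sqrt (innerB g x v v) := by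
      rw [← Real.sqrt_sq hl0.le, ← Real.sqrt_mul (sq_nonneg _)]
      exact Real.sqrt_le_sqrt (h' x v)
    have p3 := Real.sqrt_pos.2 p1
    have p4 := Real.sqrt_pos.2 p2
    rw [mul_div_assoc', div_le_div_iff₀ p3 p4]
    have h2 := Real.sqrt_nonneg (innerB g₀ x v v)
    calc Real.sqrt (innerB g₀ x v v) * Real.sqrt (innerB g₁ x v v)
        ≤ Real.sqrt (innerB g₀ x v v) * (l * Real.sqrt (innerB g x v v)) :=
          mul_le_mul_of_nonneg_left h1 h2
      _ = l * Real.sqrt (innerB g₀ x v v) * Real.sqrt (innerB g x v v) := by ring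
  exact (radial_nrm' g g₀ x v).le.trans (key.trans_eq (congrArg (l * ·)
    (radial_nrm' g₁ g₀ x v).symm))

/-- comparison of the average stretch -/
theorem integral_nrm_le_mul (hn : 1 ≤ n) [Nonempty M] {l : ℝ} (hl : 1 ≤ l)
    {g₀ g₁ g : RMetric (EV n) M}
    (h : MLe l g g₁) (h' : MLe l g₁ g) {μ μ₁ : Measure M} {m : Measure (UT g)}
    {m₁ : Measure (UT g₁)} (hμ : IsRiemVol g μ) (hμ₁ : IsRiemVol g₁ μ₁) (hm : IsLiouville g μ m)
    (hm₁ : IsLiouville g₁ μ₁ m₁) :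
    ∫ p, nrm g g₀ p ∂m ≤ l ^ (4 * n + 1) * ∫ p, nrm g₁ g₀ p ∂m₁ := by
  have hl0 : 0 < l := by linarith
  have hf := hμ.isFiniteMeasure
  have hf₁ := hμ₁.isFiniteMeasure
  have ho := hμ.isOpenPosMeasure
  have ho₁ := hμ₁.isOpenPosMeasure
  rw [hm.integral_nrm, hm₁.integral_nrm]
  have hc := continuous_sphAvg hn (continuous_nrm g g₀)
  have hc₁ := continuous_sphAvg hn (continuous_nrm g₁ g₀)
  have i1 : Integrable (sphAvg g (nrm g g₀)) μ :=
    hc.integrable_of_hasCompactSupport (HasCompactSupport.of_compactSpace _)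
  have i2 : Integrable (sphAvg g₁ (nrm g₁ g₀)) μ :=
    hc₁.integrable_of_hasCompactSupport (HasCompactSupport.of_compactSpace _)
  have i3 : Integrable (sphAvg g₁ (nrm g₁ g₀)) (ENNReal.ofReal (l ^ n) • μ₁) :=
    (hc₁.integrable_of_hasCompactSupport (HasCompactSupport.of_compactSpace _)).smul_measure
      ENNReal.ofReal_ne_top
  have h1 : ∫ x, sphAvg g (nrm g g₀) x ∂μ ≤
      l ^ (3 * n + 1) * ∫ x, sphAvg g₁ (nrm g₁ g₀) x ∂μ₁ := by
    calc ∫ x, sphAvg g (nrm g g₀) x ∂μ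
        ≤ ∫ x, l ^ (2 * n + 1) * sphAvg g₁ (nrm g₁ g₀) x ∂μ :=
          integral_mono i1 (i2.const_mul _) fun x => sphAvg_le hl h h' x
      _ = l ^ (2 * n + 1) * ∫ x, sphAvg g₁ (nrm g₁ g₀) x ∂μ := integral_const_mul _ _
      _ ≤ l ^ (2 * n + 1) * ∫ x, sphAvg g₁ (nrm g₁ g₀) x ∂(ENNReal.ofReal (l ^ n) • μ₁) := by
          refine mul_le_mul_of_nonneg_left ?_ (by positivity)
          exact integral_mono_measure (riemVol_le hl0 h hμ hμ₁)
            (Eventually.of_forall fun x => sphAvg_nrm_nonneg g₁ g₀ x) i3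
      _ = l ^ (2 * n + 1) * (l ^ n * ∫ x, sphAvg g₁ (nrm g₁ g₀) x ∂μ₁) := by
          rw [integral_smul_measure, ENNReal.toReal_ofReal (by positivity), smul_eq_mul]
      _ = _ := by ring
  have h2 : μ₁.real univ ≤ l ^ n * μ.real univ := by
    have h3 := riemVol_le hl0 h' hμ₁ hμ univ
    rw [Measure.smul_apply, smul_eq_mul] at h3
    have h4 := ENNReal.toReal_mono (ENNReal.mul_ne_top ENNReal.ofReal_ne_top
      (measure_ne_top μ univ)) h3
    rwa [ENNReal.toReal_mul, ENNReal.toReal_ofReal (by positivity)] at h4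
  have p1 : 0 < μ.real univ :=
    ENNReal.toReal_pos (isOpen_univ.measure_pos μ univ_nonempty).ne' (measure_ne_top μ univ)
  have p2 : 0 < μ₁.real univ :=
    ENNReal.toReal_pos (isOpen_univ.measure_pos μ₁ univ_nonempty).ne' (measure_ne_top μ₁ univ)
  have p3 : 0 ≤ ∫ x, sphAvg g₁ (nrm g₁ g₀) x ∂μ₁ :=
    integral_nonneg fun x => sphAvg_nrm_nonneg g₁ g₀ x
  rw [mul_div_assoc', div_le_div_iff₀ p1 p2]
  calc (∫ x, sphAvg g (nrm g g₀) x ∂μ) * μ₁.real univ
      ≤ (l ^ (3 * n + 1) * ∫ x, sphAvg g₁ (nrm g₁ g₀) x ∂μ₁) * (l ^ n * μ.real univ) :=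
        mul_le_mul h1 h2 p2.le (by positivity)
    _ = l ^ (4 * n + 1) * (∫ x, sphAvg g₁ (nrm g₁ g₀) x ∂μ₁) * μ.real univ := by ring

/-- comparison of the average stretch, both metrics vary -/
theorem integral_nrm_le_mul₂ (hn : 1 ≤ n) [Nonempty M] {l : ℝ} (hl : 1 ≤ l)
    {g₀ g₁ g₀' g₁' : RMetric (EV n) M}
    (h : MLe l g₀' g₀) (h' : MLe l g₀ g₀') (h₁ : MLe l g₁' g₁) {μ₀ μ₀' : Measure M}
    {m₀ : Measure (UT g₀)} {m₀' : Measure (UT g₀')} (hμ : IsRiemVol g₀ μ₀)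
    (hμ' : IsRiemVol g₀' μ₀') (hm : IsLiouville g₀ μ₀ m₀) (hm' : IsLiouville g₀' μ₀' m₀') :
    ∫ p, nrm g₀' g₁' p ∂m₀' ≤ l ^ (4 * n + 2) * ∫ p, nrm g₀ g₁ p ∂m₀ := by
  have hl0 : 0 < l := by linarith
  have := hm'.1
  have k1 : ∫ p, nrm g₀' g₁' p ∂m₀' ≤ l * ∫ p, nrm g₀' g₁ p ∂m₀' := by
    have := compactSpace_UT g₀'
    rw [← integral_const_mul]
    refine integral_mono ?_ ?_ fun p => nrm_le_mul hl0.le g₀' h₁ p
    · exact (continuous_nrm g₀' g₁').integrable_of_hasCompactSupport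
        (HasCompactSupport.of_compactSpace _)
    · exact ((continuous_nrm g₀' g₁).integrable_of_hasCompactSupport
        (HasCompactSupport.of_compactSpace _)).const_mul _
  have k2 := integral_nrm_le_mul hn hl (g₀ := g₁) h h' hμ' hμ hm' hm
  calc ∫ p, nrm g₀' g₁' p ∂m₀' ≤ l * ∫ p, nrm g₀' g₁ p ∂m₀' := k1
    _ ≤ l * (l ^ (4 * n + 1) * ∫ p, nrm g₀ g₁ p ∂m₀) := mul_le_mul_of_nonneg_left k2 hl0.le
    _ = l ^ (4 * n + 2) * ∫ p, nrm g₀ g₁ p ∂m₀ := by ring

omit [CompactSpace M] [T2Space M] [MeasurableSpace M] [BorelSpace M] in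
/-- `C⁰`-close metrics are comparable -/
theorem C0Close.mLe {g g' : RMetric (EV n) M} {ε : ℝ} (h : C0Close g g' ε) (hε0 : 0 < ε)
    (hε1 : ε < 1) : MLe (Real.sqrt (1 - ε)⁻¹) g' g ∧ MLe (Real.sqrt (1 - ε)⁻¹) g g' := by
  have hp : 0 < 1 - ε := by linarith
  have hl2 : Real.sqrt (1 - ε)⁻¹ ^ 2 = (1 - ε)⁻¹ := Real.sq_sqrt (inv_nonneg.2 hp.le)
  have hinner : ∀ (x : M) (v : TangentSpace 𝓘(ℝ, EV n) x), 0 ≤ g.inner x v v := fun x v => by
    by_cases hv : v = 0
    · subst hv; simp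
    · exact (g.pos x v hv).le
  constructor
  · intro x v
    rw [hl2]
    refine (h x v).2.trans (mul_le_mul_of_nonneg_right ?_ (hinner x v))
    rw [le_inv_comm₀ (by linarith) hp, ← one_div, le_div_iff₀ (by linarith)]
    nlinarith
  · intro x v
    rw [hl2]
    have := (h x v).1
    rw [← div_eq_inv_mul, le_div_iff₀ hp]
    linarith

omit [TopologicalSpace M] [ChartedSpace (EV n) M] [IsManifold 𝓘(ℝ, EV n) ∞ M]
  [CompactSpace M] [T2Space M] [MeasurableSpace M] [BorelSpace M] in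
theorem exists_eps (N : ℕ) {A : ℝ} (hA : A < 1) :
    ∃ ε : ℝ, 0 < ε ∧ ε < 1 ∧ ((1 - ε)⁻¹) ^ N * A < 1 := by
  have hc : ContinuousAt (fun ε : ℝ => ((1 - ε)⁻¹) ^ N * A) 0 := by
    refine ContinuousAt.mul (ContinuousAt.pow (ContinuousAt.inv₀ ?_ (by norm_num)) _)
      continuousAt_const
    exact (continuous_const.sub continuous_id).continuousAt
  have h0 : (fun ε : ℝ => ((1 - ε)⁻¹) ^ N * A) 0 < 1 := by simpa using hA
  obtain ⟨δ, hδ, hball⟩ := Metric.eventually_nhds_iff.1 (hc.eventually (gt_mem_nhds h0))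
  refine ⟨min (δ / 2) (1 / 2), by positivity, ?_, hball ?_⟩
  · exact lt_of_le_of_lt (min_le_right _ _) (by norm_num)
  · rw [Real.dist_eq, sub_zero, abs_of_pos (by positivity)]
    exact lt_of_le_of_lt (min_le_left _ _) (by linarith)

/-- **C0**: the criterion is `C⁰`-open. -/
theorem exists_openness (hn : 1 ≤ n) [Nonempty M] {g₀ g₁ : RMetric (EV n) M} {μ₀ μ₁ : Measure M}
    {m₀ : Measure (UT g₀)} {m₁ : Measure (UT g₁)} (hμ₀ : IsRiemVol g₀ μ₀)
    (hμ₁ : IsRiemVol g₁ μ₁) (hm₀ : IsLiouville g₀ μ₀ m₀) (hm₁ : IsLiouville g₁ μ₁ m₁)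
    (h : (∫ p, nrm g₀ g₁ p ∂m₀) * (∫ p, nrm g₁ g₀ p ∂m₁) < 1) :
    ∃ ε : ℝ, 0 < ε ∧ ε < 1 ∧ ∀ (g₀' g₁' : RMetric (EV n) M), C0Close g₀ g₀' ε →
      C0Close g₁ g₁' ε →
      ∀ (μ₀' μ₁' : Measure M) (m₀' : Measure (UT g₀')) (m₁' : Measure (UT g₁')),
        IsRiemVol g₀' μ₀' → IsRiemVol g₁' μ₁' → IsLiouville g₀' μ₀' m₀' →
        IsLiouville g₁' μ₁' m₁' →
        (∫ p, nrm g₀' g₁' p ∂m₀') * (∫ p, nrm g₁' g₀' p ∂m₁') < 1 := by
  obtain ⟨ε, hε0, hε1, hε⟩ := exists_eps (4 * n + 2) h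
  refine ⟨ε, hε0, hε1, ?_⟩
  intro g₀' g₁' c₀ c₁ μ₀' μ₁' m₀' m₁' hμ₀' hμ₁' hm₀' hm₁'
  obtain ⟨a₀, b₀⟩ := c₀.mLe hε0 hε1
  obtain ⟨a₁, b₁⟩ := c₁.mLe hε0 hε1
  have hp : 0 < 1 - ε := by linarith
  set l := Real.sqrt (1 - ε)⁻¹ with hl
  have hl2 : l ^ 2 = (1 - ε)⁻¹ := Real.sq_sqrt (inv_nonneg.2 hp.le)
  have hl1 : 1 ≤ l := by
    rw [hl]
    apply Real.le_sqrt_of_sq_le
    rw [one_pow, one_le_inv₀ hp]
    linarith
  have hl0 : 0 < l := by linarith
  have k1 := integral_nrm_le_mul₂ hn hl1 (g₁ := g₁) (g₁' := g₁') a₀ b₀ a₁ hμ₀ hμ₀' hm₀ hm₀'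
  have k2 := integral_nrm_le_mul₂ hn hl1 (g₁ := g₀) (g₁' := g₀') a₁ b₁ a₀ hμ₁ hμ₁' hm₁ hm₁'
  have p1 : 0 ≤ ∫ p, nrm g₁' g₀' p ∂m₁' := integral_nonneg fun p => nrm_nonneg _ _ p
  have p2 : 0 ≤ ∫ p, nrm g₀ g₁ p ∂m₀ := integral_nonneg fun p => nrm_nonneg _ _ p
  calc (∫ p, nrm g₀' g₁' p ∂m₀') * (∫ p, nrm g₁' g₀' p ∂m₁')
      ≤ (l ^ (4 * n + 2) * ∫ p, nrm g₀ g₁ p ∂m₀) * (l ^ (4 * n + 2) * ∫ p, nrm g₁ g₀ p ∂m₁) :=
        mul_le_mul k1 k2 p1 (by positivity)
    _ = (l ^ 2) ^ (4 * n + 2) * ((∫ p, nrm g₀ g₁ p ∂m₀) * ∫ p, nrm g₁ g₀ p ∂m₁) := by ring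
    _ = ((1 - ε)⁻¹) ^ (4 * n + 2) * ((∫ p, nrm g₀ g₁ p ∂m₀) * ∫ p, nrm g₁ g₀ p ∂m₁) := by
        rw [hl2]
    _ < 1 := hε

end Main

end Vale.Agent.P207
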