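import Vale.Agent.P207.Base

/-!
# P207, block C1: compactness lemmas for systems of exponential maps, at most exponential growth

Everything is about a system of exponential maps `S : ExpSys E M` with `M` compact.

* `nrm_smul`, `len_cast`, `exists_cut` : cutting the geodesic of a class at the parameter `s`;
* `nb S x η` : the open set of all points joined to `x` by a class of length `< η`;
* `exists_near` (open cover form), `exists_near_of_dist` (metric form): points which are near are
  joined by a short class;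
* `finite_len_le` : finitely many classes in `Cl x y` of length `≤ R`;
* `exists_systole` : a closed class of length `< ρ` is trivial; `eq_of_len_lt`: two classes
  which are close are equal;
* `exists_centers` : finitely many centers; `exists_ncard_le` : uniform bound of the number of
  classes of length `≤ R`;
* `exists_growthLE`.
-/

open scoped Manifold ContDiff ENNReal Topology unitInterval
open Bundle MeasureTheory Set Filter

noncomputable section

namespace Vale.Agent.P207

open Vale.Agent.P255 (RMetric coefIn Gam Riem IsGeo Metric Npc ExpSys toMetric geo expg)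

namespace C1

open Path.Homotopic.Quotient

section Groupoid

variable {M : Type} [TopologicalSpace M]

lemma trans_symm_cancel_right {x y z : M} (α : Cl x y) (τ : Cl y z) :
    (α.trans τ).trans τ.symm = α := by
  rw [trans_assoc, trans_symm, trans_refl]

lemma trans_cancel_right {x y z : M} (α : Cl x z) (τ : Cl y z) :
    (α.trans τ.symm).trans τ = α := by
  rw [trans_assoc, symm_trans, trans_refl]

lemma symm_trans_cancel_left {x y z : M} (τ : Cl x y) (α : Cl y z) :
    τ.symm.trans (τ.trans α) = α := by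
  rw [← trans_assoc, symm_trans, refl_trans]

lemma trans_cancel_left {x y z : M} (τ : Cl x y) (α : Cl x z) :
    τ.trans (τ.symm.trans α) = α := by
  rw [← trans_assoc, trans_symm, refl_trans]

lemma trans_left_inj {x y z : M} (τ : Cl x y) {α β : Cl y z} (h : τ.trans α = τ.trans β) :
    α = β := by
  rw [← symm_trans_cancel_left τ α, h, symm_trans_cancel_left]

lemma trans_right_inj {x y z : M} (τ : Cl y z) {α β : Cl x y} (h : α.trans τ = β.trans τ) :
    α = β := by
  rw [← trans_symm_cancel_right α τ, h, trans_symm_cancel_right]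

end Groupoid

variable {E M : Type} [NormedAddCommGroup E] [NormedSpace ℝ E] [TopologicalSpace M]
  (S : ExpSys E M)

lemma nrm_smul (m : M) (s : ℝ) (v : E) : S.nrm m (s • v) = |s| * S.nrm m v := by
  unfold ExpSys.nrm
  have h : S.ip m (s • v) (s • v) = s ^ 2 * S.ip m v v := by
    simp only [map_smul, smul_apply, smul_eq_mul]
    ring
  rw [h, Real.sqrt_mul (sq_nonneg s), Real.sqrt_sq_eq_abs]

lemma continuous_nrm (m : M) : Continuous fun v : E => S.nrm m v := by
  unfold ExpSys.nrm
  continuity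

lemma len_mk_rayTo (x z : M) (v : E) (h : S.e x v = z) :
    S.len (Path.Homotopic.Quotient.mk (S.rayTo x z v h)) = S.nrm x v := by
  rw [ExpSys.len, S.vec_rayTo]

/-- cutting the geodesic of a class at the parameter `s` -/
lemma exists_cut {x y : M} (α : Cl x y) {s : ℝ} (hs0 : 0 ≤ s) (hs1 : s ≤ 1) :
    ∃ (z : M) (α₁ : Cl x z) (α₂ : Cl z y), α₁.trans α₂ = α ∧ S.vec α₁ = s • S.vec α ∧
      S.len α₁ = s * S.len α ∧ S.len α₂ = (1 - s) * S.len α := by
  set u := S.vec α with hu
  obtain ⟨w, hw, hw2⟩ := S.shift x u s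
  set z := S.e x (s • u) with hz
  have hwy : S.e z ((1 - s) • w) = y := by
    rw [← hw2, add_sub_cancel, one_smul]
    exact S.e_vec α
  set α₁ : Cl x z := Path.Homotopic.Quotient.mk (S.rayTo x z (s • u) rfl) with hα₁
  have hv₁ : S.vec α₁ = s • u := S.vec_rayTo _ _ _ _
  set α₂ : Cl z y := Path.Homotopic.Quotient.mk (S.rayTo z y ((1 - s) • w) hwy) with hα₂
  have hv₂ : S.vec α₂ = (1 - s) • w := S.vec_rayTo _ _ _ _
  refine ⟨z, α₁, α₂, ?_, hv₁, ?_, ?_⟩
  · apply S.vec_inj
    rw [hα₂, S.vec_trans α₁ (S.rayTo z y ((1 - s) • w) hwy)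
      ⟨fun t : I => (s + (t : ℝ) * (1 - s)) • u, by fun_prop⟩ (by simp [hv₁]) (by
        intro t
        simp only [ContinuousMap.coe_mk, ExpSys.rayTo_apply]
        rw [hw2, smul_smul])]
    simp only [ContinuousMap.coe_mk, Icc.coe_one]
    rw [one_mul, add_sub_cancel, one_smul]
  · rw [ExpSys.len, hv₁, nrm_smul, abs_of_nonneg hs0]
    rfl
  · rw [ExpSys.len, hv₂, nrm_smul, abs_of_nonneg (by linarith), ExpSys.nrm, hw]
    rfl

/-! ### near points -/

/-- the points joined to `x` by a class of length `< η` -/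
def nb (x : M) (η : ℝ) : Set M := {y | ∃ α : Cl x y, S.len α < η}

lemma nb_eq (x : M) (η : ℝ) : nb S x η = S.e x '' {v | S.nrm x v < η} := by
  ext y
  constructor
  · rintro ⟨α, hα⟩
    exact ⟨S.vec α, hα, S.e_vec α⟩
  · rintro ⟨v, hv, hy⟩
    refine ⟨Path.Homotopic.Quotient.mk (S.rayTo x y v hy), ?_⟩
    rw [len_mk_rayTo]
    exact hv

lemma isOpen_nb (x : M) (η : ℝ) : IsOpen (nb S x η) := by
  rw [nb_eq]
  exact (S.cov x).isOpenMap _ (isOpen_lt (continuous_nrm S x) continuous_const)

lemma mem_nb_self (x : M) {η : ℝ} (hη : 0 < η) : x ∈ nb S x η :=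
  ⟨Path.Homotopic.Quotient.refl x, by rw [S.len_refl]; exact hη⟩

lemma nb_mem_nhds (x : M) {η : ℝ} (hη : 0 < η) : nb S x η ∈ 𝓝 x :=
  (isOpen_nb S x η).mem_nhds (mem_nb_self S x hη)

lemma exists_len_lt_of_mem_nb {x y z : M} {η η' : ℝ} (hy : y ∈ nb S x η) (hz : z ∈ nb S x η') :
    ∃ α : Cl y z, S.len α < η + η' := by
  obtain ⟨α, hα⟩ := hy
  obtain ⟨β, hβ⟩ := hz
  refine ⟨α.symm.trans β, ?_⟩
  have := S.len_trans α.symm β
  rw [S.len_symm] at this
  linarith

/-- every point has an open neighbourhood any two points of which are joined by a class of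
length `< η` -/
lemma exists_near (x : M) {η : ℝ} (hη : 0 < η) : ∃ U : Set M, IsOpen U ∧ x ∈ U ∧
    ∀ y ∈ U, ∀ z ∈ U, ∃ α : Cl y z, S.len α < η := by
  refine ⟨nb S x (η / 2), isOpen_nb S x _, mem_nb_self S x (by positivity), ?_⟩
  intro y hy z hz
  have := exists_len_lt_of_mem_nb S hy hz
  rwa [add_halves] at this

/-- the centers: a finite set such that every point is joined to a center by a class of
length `< η` -/
lemma exists_centers [CompactSpace M] {η : ℝ} (hη : 0 < η) : ∃ F : Finset M,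
    ∀ x : M, ∃ c ∈ F, ∃ α : Cl c x, S.len α < η := by
  obtain ⟨F, hF⟩ := isCompact_univ.elim_nhds_subcover (fun x : M => nb S x η)
    (fun x _ => nb_mem_nhds S x hη)
  refine ⟨F, fun x => ?_⟩
  have := hF.2 (mem_univ x)
  simp only [mem_iUnion] at this
  obtain ⟨c, hc, hx⟩ := this
  exact ⟨c, hc, hx⟩

/-- points which are near for some metric are joined by a short class -/
lemma exists_near_of_dist {M : Type} [PseudoMetricSpace M] [CompactSpace M] (S : ExpSys E M)
    {η : ℝ} (hη : 0 < η) : ∃ δ : ℝ, 0 < δ ∧ ∀ x y : M, dist x y < δ →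
      ∃ α : Cl x y, S.len α < η := by
  obtain ⟨δ, hδ, h⟩ := lebesgue_number_lemma_of_metric (s := (univ : Set M))
    (c := fun x : M => nb S x (η / 2)) isCompact_univ (fun x => isOpen_nb S x _)
    (fun x _ => mem_iUnion.2 ⟨x, mem_nb_self S x (by positivity)⟩)
  refine ⟨δ, hδ, fun x y hxy => ?_⟩
  obtain ⟨c, hc⟩ := h x (mem_univ x)
  have := exists_len_lt_of_mem_nb S (hc (Metric.mem_ball_self hδ))
    (hc (show y ∈ Metric.ball x δ by rw [Metric.mem_ball, dist_comm]; exact hxy))
  rwa [add_halves] at this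

/-! ### finiteness -/

section Fin

variable [FiniteDimensional ℝ E]

/-- `S.ip m` dominates the norm -/
lemma exists_le_ip (y : M) : ∃ c : ℝ, 0 < c ∧ ∀ v : E, c * ‖v‖ ^ 2 ≤ S.ip y v v := by
  have hcont : Continuous fun v : E => S.ip y v v := by continuity
  rcases (Metric.sphere (0 : E) 1).eq_empty_or_nonempty with h | h
  · refine ⟨1, one_pos, fun v => ?_⟩
    have hv : v = 0 := by
      by_contra hv
      have : (‖v‖⁻¹ • v) ∈ Metric.sphere (0 : E) 1 := by
        simp [norm_smul, inv_mul_cancel₀ (norm_ne_zero_iff.2 hv)]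
      rw [h] at this
      exact this
    simp [hv]
  · obtain ⟨v₀, hv₀, hmin⟩ := (isCompact_sphere (0 : E) 1).exists_isMinOn h
      hcont.continuousOn
    have hv₀0 : v₀ ≠ 0 := by
      rintro rfl
      simp at hv₀
    refine ⟨S.ip y v₀ v₀, S.ip_pos y v₀ hv₀0, fun v => ?_⟩
    rcases eq_or_ne v 0 with rfl | hv
    · simp
    · have hn : 0 < ‖v‖ := norm_pos_iff.2 hv
      have hmem : (‖v‖⁻¹ • v) ∈ Metric.sphere (0 : E) 1 := by
        simp [norm_smul, inv_mul_cancel₀ hn.ne']
      have h1 : S.ip y v₀ v₀ ≤ S.ip y (‖v‖⁻¹ • v) (‖v‖⁻¹ • v) := hmin hmem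
      simp only [map_smul, smul_apply, smul_eq_mul] at h1
      have h2 : ‖v‖⁻¹ * (‖v‖⁻¹ * S.ip y v v) * ‖v‖ ^ 2 = S.ip y v v := by
        field_simp
      calc S.ip y v₀ v₀ * ‖v‖ ^ 2
          ≤ ‖v‖⁻¹ * (‖v‖⁻¹ * S.ip y v v) * ‖v‖ ^ 2 :=
            mul_le_mul_of_nonneg_right h1 (by positivity)
        _ = S.ip y v v := h2

lemma isCompact_nrm_le (y : M) (R : ℝ) : IsCompact {v : E | S.nrm y v ≤ R} := by
  obtain ⟨c, hc, hc2⟩ := exists_le_ip S y
  apply Metric.isCompact_of_isClosed_isBounded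
  · exact isClosed_le (continuous_nrm S y) continuous_const
  · rw [Metric.isBounded_iff_subset_closedBall 0]
    refine ⟨Real.sqrt (R ^ 2 / c), fun v hv => ?_⟩
    rw [mem_closedBall_zero_iff]
    apply Real.le_sqrt_of_sq_le
    rw [le_div_iff₀ hc]
    have h1 := hc2 v
    have h2 : S.nrm y v ^ 2 ≤ R ^ 2 := pow_le_pow_left₀ (S.nrm_nonneg _ _) hv 2
    rw [S.nrm_sq] at h2
    linarith

/-- the fibres of the exponential map are locally finite -/
lemma finite_fiber [T1Space M] (y z : M) (R : ℝ) :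
    {v : E | S.e y v = z ∧ S.nrm y v ≤ R}.Finite := by
  have hF : IsClosed (S.e y ⁻¹' {z}) := isClosed_singleton.preimage (S.cov y).continuous
  have hD : DiscreteTopology (S.e y ⁻¹' {z}) := (S.cov y z).discreteTopology_fiber
  have hKF : IsCompact ({v : E | S.nrm y v ≤ R} ∩ S.e y ⁻¹' {z}) :=
    (isCompact_nrm_le S y R).inter_right hF
  have hfin := hKF.finite ⟨DiscreteTopology.of_subset hD inter_subset_right⟩
  exact hfin.subset fun v hv => ⟨hv.2, hv.1⟩

/-- there are finitely many classes of length `≤ R` from `y` to `z` -/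
lemma finite_len_le [T1Space M] (y z : M) (R : ℝ) : {α : Cl y z | S.len α ≤ R}.Finite := by
  have h := finite_fiber S y z R
  have hinj : Function.Injective (fun α : Cl y z => S.vec α) := fun α β h => S.vec_inj h
  refine (h.preimage hinj.injOn).subset fun α hα => ?_
  exact ⟨S.e_vec α, hα⟩

/-! ### the systole -/

lemma exists_systole_at [T1Space M] (y : M) : ∃ ρ : ℝ, 0 < ρ ∧
    ∀ α : Cl y y, S.len α < ρ → α = Path.Homotopic.Quotient.refl y := by
  have hfin := (finite_len_le S y y 1).subset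
    (show {α : Cl y y | S.len α ≤ 1 ∧ α ≠ Path.Homotopic.Quotient.refl y} ⊆ _ from
      fun α hα => hα.1)
  rcases Set.eq_empty_or_nonempty
    {α : Cl y y | S.len α ≤ 1 ∧ α ≠ Path.Homotopic.Quotient.refl y} with h | h
  · refine ⟨1, one_pos, fun α hα => ?_⟩
    by_contra hne
    have : α ∈ {α : Cl y y | S.len α ≤ 1 ∧ α ≠ Path.Homotopic.Quotient.refl y} :=
      ⟨hα.le, hne⟩
    rw [h] at this
    exact this
  · obtain ⟨α₀, hα₀, hmin⟩ := Set.exists_min_image _ (fun α => S.len α) hfin h
    refine ⟨S.len α₀, ?_, fun α hα => ?_⟩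
    · rcases (S.len_nonneg α₀).lt_or_eq with h1 | h1
      · exact h1
      · exact absurd (S.eq_refl_of_len h1.symm) hα₀.2
    · by_contra hne
      have := hmin α ⟨hα.le.trans hα₀.1, hne⟩
      linarith

/-- a closed class of length `< ρ` is trivial -/
lemma exists_systole [CompactSpace M] [T1Space M] : ∃ ρ : ℝ, 0 < ρ ∧
    ∀ (x : M) (α : Cl x x), S.len α < ρ → α = Path.Homotopic.Quotient.refl x := by
  choose ρ hρ h using fun y : M => exists_systole_at S y
  obtain ⟨F, hF⟩ := isCompact_univ.elim_nhds_subcover (fun x : M => nb S x (ρ x / 3))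
    (fun x _ => nb_mem_nhds S x (by have := hρ x; positivity))
  rcases F.eq_empty_or_nonempty with hF0 | hF0
  · refine ⟨1, one_pos, fun x α _ => ?_⟩
    have := hF.2 (mem_univ x)
    simp [hF0] at this
  · obtain ⟨y₀, hy₀, hmin⟩ := F.exists_min_image ρ hF0
    refine ⟨ρ y₀ / 3, by have := hρ y₀; positivity, fun x α hα => ?_⟩
    have := hF.2 (mem_univ x)
    simp only [mem_iUnion] at this
    obtain ⟨c, hc, τ, hτ⟩ := this
    have hcρ : ρ y₀ ≤ ρ c := hmin c hc
    have h1 : S.len ((τ.trans α).trans τ.symm) < ρ c := by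
      have h1 := S.len_trans (τ.trans α) τ.symm
      have h2 := S.len_trans τ α
      rw [S.len_symm] at h1
      linarith
    have h2 := h c _ h1
    have h3 : τ.trans α = τ := by
      have h4 := congrArg (fun β : Cl c c => β.trans τ) h2
      simp only [trans_cancel_right, refl_trans] at h4
      exact h4
    apply trans_left_inj τ
    rw [h3, trans_refl]

omit [FiniteDimensional ℝ E] in
/-- two classes whose difference is shorter than the systole are equal -/
lemma eq_of_len_lt {ρ : ℝ} (hρ : ∀ (x : M) (α : Cl x x), S.len α < ρ →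
    α = Path.Homotopic.Quotient.refl x) {x y : M} {α β : Cl x y}
    (h : S.len (α.trans β.symm) < ρ) : α = β := by
  have h1 := hρ x _ h
  rw [← trans_cancel_right α β, h1, refl_trans]

/-! ### counting -/

/-- Uniform bound of the number of classes of length `≤ R`. -/
lemma exists_ncard_le [CompactSpace M] [T1Space M] (R : ℝ) : ∃ K : ℕ,
    ∀ x y : M, {α : Cl x y | S.len α ≤ R}.ncard ≤ K := by
  obtain ⟨F, hF⟩ := exists_centers S one_pos
  choose c hc τ hτ using hF
  refine ⟨∑ p ∈ F ×ˢ F, {α : Cl p.1 p.2 | S.len α ≤ R + 2}.ncard, fun x y => ?_⟩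
  have h1 : {α : Cl x y | S.len α ≤ R}.ncard ≤ {α : Cl (c x) (c y) | S.len α ≤ R + 2}.ncard := by
    refine Set.ncard_le_ncard_of_injOn (fun α => ((τ x).trans α).trans (τ y).symm) ?_ ?_
      (finite_len_le S _ _ _)
    · intro α hα
      have h1 := S.len_trans ((τ x).trans α) (τ y).symm
      have h2 := S.len_trans (τ x) α
      rw [S.len_symm] at h1
      have h3 := hτ x
      have h4 := hτ y
      have h5 : S.len α ≤ R := hα
      change S.len _ ≤ R + 2
      linarith
    · intro α _ β _ h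
      exact trans_left_inj _ (trans_right_inj _ h)
  refine h1.trans ?_
  exact Finset.single_le_sum (f := fun p : M × M => {α : Cl p.1 p.2 | S.len α ≤ R + 2}.ncard)
    (fun _ _ => Nat.zero_le _) (Finset.mem_product.2 ⟨hc x, hc y⟩ : (c x, c y) ∈ F ×ˢ F)

/-- The number of classes of length `≤ k / 2` is at most `K ^ (k + 1)`. -/
lemma exists_ncard_le_pow [CompactSpace M] [T1Space M] : ∃ K : ℕ, 1 ≤ K ∧
    ∀ (k : ℕ) (x y : M), {α : Cl x y | S.len α ≤ k / 2}.ncard ≤ K ^ (k + 1) := by
  obtain ⟨K₁, hK₁⟩ := exists_ncard_le S (3 / 2)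
  obtain ⟨F, hF⟩ := exists_centers S (show (0 : ℝ) < 1 / 2 by norm_num)
  refine ⟨(F.card + 1) * (K₁ + 1), Nat.one_le_iff_ne_zero.2 (by positivity), ?_⟩
  have hKK : K₁ ≤ (F.card + 1) * (K₁ + 1) := by nlinarith
  have hK1 : 1 ≤ (F.card + 1) * (K₁ + 1) := Nat.one_le_iff_ne_zero.2 (by positivity)
  intro k
  induction k with
  | zero =>
    intro x y
    refine (Set.ncard_le_ncard ?_ (finite_len_le S x y (3 / 2))).trans
      ((hK₁ x y).trans (by simpa using hKK))
    intro α hα
    have hα : S.len α ≤ (0 : ℕ) / 2 := hα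
    change S.len α ≤ 3 / 2
    norm_num at hα
    linarith
  | succ k ih =>
    intro x y
    rcases Nat.eq_zero_or_pos k with rfl | hk
    · refine (Set.ncard_le_ncard ?_ (finite_len_le S x y (3 / 2))).trans
        ((hK₁ x y).trans (hKK.trans (Nat.le_self_pow (by norm_num) _)))
      intro α hα
      have hα : S.len α ≤ ((0 + 1 : ℕ) : ℝ) / 2 := hα
      change S.len α ≤ 3 / 2
      norm_num at hα
      linarith
    · have hk1 : (1 : ℝ) ≤ k := by exact_mod_cast hk
      -- the cover by products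
      have hsub : {α : Cl x y | S.len α ≤ ((k + 1 : ℕ) : ℝ) / 2} ⊆
          ⋃ c ∈ F, (fun p : Cl x c × Cl c y => p.1.trans p.2) ''
            ({α : Cl x c | S.len α ≤ (k : ℝ) / 2} ×ˢ {α : Cl c y | S.len α ≤ 3 / 2}) := by
        intro α hα
        have hα : S.len α ≤ ((k + 1 : ℕ) : ℝ) / 2 := hα
        push_cast at hα
        -- the parameter of the cut
        obtain ⟨s, hs0, hs1, hsa, hsb⟩ : ∃ s : ℝ, 0 ≤ s ∧ s ≤ 1 ∧
            s * S.len α ≤ (k - 1) / 2 ∧ (1 - s) * S.len α ≤ 1 := by
          rcases le_or_gt (S.len α) 1 with h | h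
          · refine ⟨0, le_rfl, zero_le_one, ?_, ?_⟩
            · rw [zero_mul]; linarith
            · linarith
          · refine ⟨1 - 1 / S.len α, ?_, ?_, ?_, ?_⟩
            · rw [sub_nonneg, div_le_one (by linarith)]; exact h.le
            · have : 0 < 1 / S.len α := by positivity
              linarith
            · rw [sub_mul, div_mul_cancel₀ _ (by linarith : S.len α ≠ 0)]
              linarith
            · rw [sub_sub_cancel, div_mul_cancel₀ _ (by linarith : S.len α ≠ 0)]
        obtain ⟨z, α₁, α₂, h12, -, hl1, hl2⟩ := exists_cut S α hs0 hs1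
        obtain ⟨c, hc, τ, hτ⟩ := hF z
        simp only [mem_iUnion]
        refine ⟨c, hc, ⟨α₁.trans τ.symm, τ.trans α₂⟩, ⟨?_, ?_⟩, ?_⟩
        · change S.len (α₁.trans τ.symm) ≤ _
          have h1 := S.len_trans α₁ τ.symm
          rw [S.len_symm] at h1
          linarith
        · change S.len (τ.trans α₂) ≤ _
          have h1 := S.len_trans τ α₂
          linarith
        · change (α₁.trans τ.symm).trans (τ.trans α₂) = α
          rw [← trans_assoc, trans_cancel_right, h12]
      have hfin : ∀ c : M, ({α : Cl x c | S.len α ≤ (k : ℝ) / 2} ×ˢ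
          {α : Cl c y | S.len α ≤ 3 / 2}).Finite := fun c =>
        (finite_len_le S _ _ _).prod (finite_len_le S _ _ _)
      calc {α : Cl x y | S.len α ≤ ((k + 1 : ℕ) : ℝ) / 2}.ncard
          ≤ (⋃ c ∈ F, (fun p : Cl x c × Cl c y => p.1.trans p.2) ''
            ({α : Cl x c | S.len α ≤ (k : ℝ) / 2} ×ˢ {α : Cl c y | S.len α ≤ 3 / 2})).ncard :=
            Set.ncard_le_ncard hsub (Set.Finite.biUnion F.finite_toSet
              (fun c _ => (hfin c).image _))
        _ ≤ ∑ c ∈ F, ((fun p : Cl x c × Cl c y => p.1.trans p.2) ''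
            ({α : Cl x c | S.len α ≤ (k : ℝ) / 2} ×ˢ {α : Cl c y | S.len α ≤ 3 / 2})).ncard :=
            Finset.set_ncard_biUnion_le _ _
        _ ≤ ∑ _c ∈ F, ((F.card + 1) * (K₁ + 1)) ^ (k + 1) * (K₁ + 1) := by
            refine Finset.sum_le_sum fun c _ => ?_
            refine (Set.ncard_image_le (hfin c)).trans ?_
            rw [Set.ncard_prod]
            exact Nat.mul_le_mul (ih x c) ((hK₁ c y).trans (Nat.le_succ _))
        _ ≤ ((F.card + 1) * (K₁ + 1)) ^ (k + 1 + 1) := by
            rw [Finset.sum_const, smul_eq_mul, pow_succ _ (k + 1)]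
            nlinarith [Nat.zero_le (((F.card + 1) * (K₁ + 1)) ^ (k + 1) * (K₁ + 1))]

end Fin

end C1

variable {n : ℕ} {M : Type} [TopologicalSpace M] [ChartedSpace (EV n) M]
  [IsManifold 𝓘(ℝ, EV n) ∞ M] [CompactSpace M] [T2Space M]

/-- C1. the growth is at most exponential -/
theorem exists_growthLE (S : ExpSys (EV n) M) : ∃ s : ℝ, 0 ≤ s ∧ GrowthLE S s := by
  obtain ⟨K, hK1, hK⟩ := C1.exists_ncard_le_pow S
  have hK1' : (1 : ℝ) ≤ K := by exact_mod_cast hK1
  have hK0 : (0 : ℝ) < K := by linarith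
  have hlog : 0 ≤ Real.log K := Real.log_nonneg hK1'
  refine ⟨2 * Real.log K, by positivity, (K : ℝ) ^ 2, fun x y R hR => ⟨C1.finite_len_le S x y R, ?_⟩⟩
  have h1 : {α : Cl x y | S.len α ≤ R}.ncard ≤ {α : Cl x y | S.len α ≤ (⌈2 * R⌉₊ : ℝ) / 2}.ncard := by
    refine Set.ncard_le_ncard (fun α hα => ?_) (C1.finite_len_le S x y _)
    have hα : S.len α ≤ R := hα
    have := Nat.le_ceil (2 * R)
    change S.len α ≤ (⌈2 * R⌉₊ : ℝ) / 2
    linarith
  have h2 := h1.trans (hK ⌈2 * R⌉₊ x y)
  have h3 : ({α : Cl x y | S.len α ≤ R}.ncard : ℝ) ≤ (K : ℝ) ^ (⌈2 * R⌉₊ + 1) := by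
    exact_mod_cast h2
  refine h3.trans ?_
  have h4 : (⌈2 * R⌉₊ : ℝ) < 2 * R + 1 := Nat.ceil_lt_add_one (by positivity)
  calc (K : ℝ) ^ (⌈2 * R⌉₊ + 1) = Real.exp (Real.log K * (⌈2 * R⌉₊ + 1 : ℕ)) := by
        rw [mul_comm (Real.log K), Real.exp_nat_mul, Real.exp_log hK0]
    _ ≤ Real.exp (Real.log K * 2 + 2 * Real.log K * R) := by
        apply Real.exp_le_exp.2
        push_cast
        nlinarith
    _ = (K : ℝ) ^ 2 * Real.exp (2 * Real.log K * R) := by
        rw [Real.exp_add, mul_comm (Real.log K) 2]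
        congr 1
        rw [show (2 : ℝ) * Real.log K = ((2 : ℕ) : ℝ) * Real.log K by norm_num, Real.exp_nat_mul,
          Real.exp_log hK0]

end Vale.Agent.P207
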