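/-
P207, block E2: bounds of the entropies by separated sets, Bowen balls and spanning sets.
Author: helper982.
-/
import Vale.Agent.P207.Base
import Mathlib.MeasureTheory.Function.SimpleFuncDense

open scoped Manifold ContDiff ENNReal Topology
open Bundle MeasureTheory Set Filter

noncomputable section

namespace Vale.Agent.P207

theorem tendsto_add_const_div (s a : ℝ) :
    Tendsto (fun n : ℕ => s + a / n) atTop (𝓝 s) := by
  have h : Tendsto (fun n : ℕ => a / (n : ℝ)) atTop (𝓝 0) :=
    tendsto_const_div_atTop_nhds_zero_nat a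
  simpa using (tendsto_const_nhds (x := s)).add h

theorem ofReal_le_limsup_of_frequently {u : ℕ → ℝ} {s a : ℝ}
    (h : ∃ᶠ n : ℕ in atTop, s + a / n ≤ u n) :
    ENNReal.ofReal s ≤ limsup (fun n => ENNReal.ofReal (u n)) atTop := by
  refine ENNReal.le_of_forall_pos_le_add fun δ hδ _ => ?_
  have h1 : ∀ᶠ n : ℕ in atTop, s - δ < s + a / n :=
    (tendsto_add_const_div s a).eventually (lt_mem_nhds (by
      have : (0 : ℝ) < δ := hδ
      linarith))
  have h2 : ∃ᶠ n : ℕ in atTop, ENNReal.ofReal (s - δ) ≤ ENNReal.ofReal (u n) :=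
    (h.and_eventually h1).mono fun n hn => ENNReal.ofReal_le_ofReal (hn.2.le.trans hn.1)
  have h3 := le_limsup_of_frequently_le' h2
  calc ENNReal.ofReal s = ENNReal.ofReal ((s - δ) + δ) := by rw [sub_add_cancel]
    _ ≤ ENNReal.ofReal (s - δ) + ENNReal.ofReal δ := ENNReal.ofReal_add_le
    _ ≤ _ := by
      rw [ENNReal.ofReal_coe_nnreal]
      gcongr

/-- The covering number is attained. -/
theorem exists_coverNum {X : Type} (T : X → X) {k : ℕ} (U : Fin k → Set X)
    (hU : ⋃ i, U i = univ) (n : ℕ) : ∃ W : Finset (Fin n → Fin k), W.card = coverNum T U n ∧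
      ∀ x, ∃ w ∈ W, ∀ i : Fin n, T^[i] x ∈ U (w i) := by
  have hne : {m | ∃ W : Finset (Fin n → Fin k), W.card = m ∧
    ∀ x, ∃ w ∈ W, ∀ i : Fin n, T^[i] x ∈ U (w i)}.Nonempty := by
    refine ⟨_, Finset.univ, rfl, fun x => ?_⟩
    have h : ∀ y : X, ∃ i, y ∈ U i := fun y => by
      have : y ∈ ⋃ i, U i := by rw [hU]; trivial
      simpa using this
    choose f hf using h
    exact ⟨fun i => f (T^[i] x), Finset.mem_univ _, fun i => hf _⟩
  exact Nat.sInf_mem hne

theorem coverNum_le {X : Type} (T : X → X) {k : ℕ} (U : Fin k → Set X) (n : ℕ)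
    (W : Finset (Fin n → Fin k)) (hW : ∀ x, ∃ w ∈ W, ∀ i : Fin n, T^[i] x ∈ U (w i)) :
    coverNum T U n ≤ W.card := Nat.sInf_le ⟨W, rfl, hW⟩

/-- E2. Separated sets bound the topological entropy from below. -/
theorem le_topEntropy_of_sep {X : Type} [MetricSpace X] [CompactSpace X] {T : X → X}
    (_hT : Continuous T) {ε s c : ℝ} (hε : 0 < ε) (_hs : 0 ≤ s) (hc : 0 < c)
    (h : ∃ᶠ N : ℕ in atTop, ∃ E : Finset X, Sep T N ε E ∧ c * Real.exp (s * N) ≤ E.card) :
    ENNReal.ofReal s ≤ topEntropy T := by
  -- a finite cover by sets of diameter `< ε`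
  obtain ⟨t, ht⟩ := isCompact_univ.elim_finite_subcover (fun x : X => Metric.ball x (ε / 2))
    (fun x => Metric.isOpen_ball) (fun x _ => mem_iUnion.2 ⟨x, Metric.mem_ball_self (by linarith)⟩)
  obtain ⟨k, e⟩ : ∃ k, Nonempty (Fin k ≃ t) := ⟨t.card, ⟨t.equivFin.symm⟩⟩
  obtain ⟨e⟩ := e
  let U : Fin k → Set X := fun i => Metric.ball (e i : X) (ε / 2)
  have hU : ⋃ i, U i = univ := by
    rw [eq_univ_iff_forall]
    intro x
    obtain ⟨y, hy, hxy⟩ := by simpa using ht (mem_univ x)
    exact mem_iUnion.2 ⟨e.symm ⟨y, hy⟩, by simpa [U] using hxy⟩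
  have hdiam : ∀ i, ∀ x ∈ U i, ∀ y ∈ U i, dist x y < ε := by
    intro i x hx y hy
    have h1 : dist x (e i : X) < ε / 2 := hx
    have h2 : dist y (e i : X) < ε / 2 := hy
    calc dist x y ≤ dist x (e i : X) + dist y (e i : X) := dist_triangle_right _ _ _
      _ < ε := by linarith
  have hle : ENNReal.ofReal s ≤
      limsup (fun n : ℕ => ENNReal.ofReal (Real.log (coverNum T U n) / n)) atTop := by
    refine ofReal_le_limsup_of_frequently (a := Real.log c) ?_
    refine (h.and_eventually (eventually_gt_atTop 0)).mono ?_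
    rintro N ⟨⟨E, hE, hcard⟩, hN⟩
    obtain ⟨W, hW, hWc⟩ := exists_coverNum T U hU N
    choose w hw hwU using hWc
    have hinj : E.card ≤ W.card := by
      refine Finset.card_le_card_of_injOn w (fun x _ => hw x) ?_
      intro x hx y hy hxy
      by_contra hne
      obtain ⟨i, hi, hd⟩ := hE x hx y hy hne
      have h1 := hwU x ⟨i, hi⟩
      have h2 := hwU y ⟨i, hi⟩
      rw [← hxy] at h2
      exact absurd (hdiam _ _ h1 _ h2) (not_lt.2 hd)
    have hpos : (0 : ℝ) < N := by exact_mod_cast hN
    have h1 : c * Real.exp (s * N) ≤ coverNum T U N := by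
      rw [← hW]
      exact hcard.trans (by exact_mod_cast hinj)
    have h2 := Real.log_le_log (by positivity) h1
    rw [Real.log_mul hc.ne' (Real.exp_pos _).ne', Real.log_exp] at h2
    rw [le_div_iff₀ hpos, add_mul, div_mul_cancel₀ _ hpos.ne']
    linarith
  refine hle.trans ?_
  unfold topEntropy
  exact le_iSup_of_le k (le_iSup_of_le U (le_iSup_of_le (fun i => Metric.isOpen_ball)
    (le_iSup_of_le hU le_rfl)))

/-- E4. (for block D) spanning sets bound the topological entropy from above. -/
theorem topEntropy_le_of_span {X : Type} [MetricSpace X] [CompactSpace X] {T : X → X}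
    (_hT : Continuous T) {s : ℝ}
    (h : ∀ ε > 0, ∃ C : ℝ, ∀ N : ℕ, ∃ E : Finset X, (E.card : ℝ) ≤ C * Real.exp (s * N) ∧
      ∀ x, ∃ y ∈ E, ∀ i < N, dist (T^[i] x) (T^[i] y) < ε) :
    topEntropy T ≤ ENNReal.ofReal s := by
  unfold topEntropy
  refine iSup_le fun k => iSup_le fun U => iSup_le fun hUo => iSup_le fun hU => ?_
  obtain ⟨δ, hδ, hleb⟩ := lebesgue_number_lemma_of_metric (isCompact_univ (X := X)) hUo
    (by rw [hU])
  have hleb' : ∀ x, ∃ i, Metric.ball x δ ⊆ U i := fun x => hleb x (mem_univ x)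
  choose f hf using hleb'
  obtain ⟨C, hC⟩ := h δ hδ
  have key : ∀ n : ℕ, ENNReal.ofReal (Real.log (coverNum T U n) / n) ≤
      ENNReal.ofReal (s + Real.log (max C 1) / n) := by
    intro n
    rcases Nat.eq_zero_or_pos n with rfl | hn
    · simp
    obtain ⟨E, hE, hspan⟩ := hC n
    rcases Nat.eq_zero_or_pos (coverNum T U n) with h0 | h0
    · rw [h0]
      simp
    classical
    have h1 : coverNum T U n ≤ E.card := by
      refine (coverNum_le T U n (E.image fun y (i : Fin n) => f (T^[i] y)) ?_).trans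
        Finset.card_image_le
      intro x
      obtain ⟨y, hy, hxy⟩ := hspan x
      refine ⟨_, Finset.mem_image_of_mem _ hy, fun i => ?_⟩
      exact hf _ (hxy i i.2)
    have hpos : (0 : ℝ) < n := by exact_mod_cast hn
    apply ENNReal.ofReal_le_ofReal
    rw [div_le_iff₀ hpos, add_mul, div_mul_cancel₀ _ hpos.ne']
    have h2 : (coverNum T U n : ℝ) ≤ max C 1 * Real.exp (s * n) := by
      calc (coverNum T U n : ℝ) ≤ E.card := by exact_mod_cast h1
        _ ≤ C * Real.exp (s * n) := hE
        _ ≤ max C 1 * Real.exp (s * n) := by gcongr; exact le_max_left _ _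
    have h3 : (0 : ℝ) < coverNum T U n := by exact_mod_cast h0
    have h4 := Real.log_le_log h3 h2
    rw [Real.log_mul (by positivity) (Real.exp_pos _).ne', Real.log_exp] at h4
    linarith
  calc limsup (fun n : ℕ => ENNReal.ofReal (Real.log (coverNum T U n) / n)) atTop
      ≤ limsup (fun n : ℕ => ENNReal.ofReal (s + Real.log (max C 1) / n)) atTop :=
        limsup_le_limsup (Eventually.of_forall key)
    _ = ENNReal.ofReal s :=
        ((ENNReal.continuous_ofReal.tendsto s).comp (tendsto_add_const_div s _)).limsup_eq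

/-- Lower bound of the Shannon entropy if all cells are small. -/
theorem le_shannon {X A : Type} [MeasurableSpace X] [Fintype A] [MeasurableSpace A]
    [MeasurableSingletonClass A] {μ : Measure X} [IsProbabilityMeasure μ] {f : X → A}
    (hf : Measurable f) {r : ℝ} (h : ∀ a, μ.real (f ⁻¹' {a}) ≤ Real.exp (-r)) :
    r ≤ shannon μ f := by
  have h1 : ∑ a, μ.real (f ⁻¹' {a}) = 1 := by
    rw [sum_measureReal_preimage_singleton _ (fun a _ => hf (measurableSet_singleton a))]
    simp
  calc r = ∑ a, μ.real (f ⁻¹' {a}) * r := by rw [← Finset.sum_mul, h1, one_mul]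
    _ ≤ ∑ a, Real.negMulLog (μ.real (f ⁻¹' {a})) := by
      refine Finset.sum_le_sum fun a _ => ?_
      rcases (measureReal_nonneg (μ := μ) (s := f ⁻¹' {a})).eq_or_lt with h0 | h0
      · rw [← h0]; simp
      · have h2 := Real.log_le_log h0 (h a)
        rw [Real.log_exp] at h2
        rw [Real.negMulLog]
        nlinarith
    _ = shannon μ f := rfl

theorem measurable_name {X A : Type} [MeasurableSpace X] [MeasurableSpace A] {T : X → X}
    (hT : Measurable T) {f : X → A} (hf : Measurable f) (n : ℕ) : Measurable (name T f n) :=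
  measurable_pi_lambda _ fun i => hf.comp (hT.iterate i)

/-- E3. (for block D) Bowen balls of small measure bound the measure entropy from below. -/
theorem le_ksEntropy_of_ball {X : Type} [MetricSpace X] [CompactSpace X] [MeasurableSpace X]
    [BorelSpace X] {μ : Measure X} [IsProbabilityMeasure μ] {T : X → X} (hT : Continuous T)
    {ε s C : ℝ} (hε : 0 < ε)
    (h : ∀ (x : X) (N : ℕ), μ.real {y | ∀ i < N, dist (T^[i] x) (T^[i] y) < ε} ≤
      C * Real.exp (-s * N)) :
    ENNReal.ofReal s ≤ ksEntropy μ T := by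
  have hne : Nonempty X := nonempty_of_isProbabilityMeasure μ
  -- a finite partition with cells of diameter `< ε`
  obtain ⟨t, ht⟩ := isCompact_univ.elim_finite_subcover (fun x : X => Metric.ball x (ε / 2))
    (fun x => Metric.isOpen_ball) (fun x _ => mem_iUnion.2 ⟨x, Metric.mem_ball_self (by linarith)⟩)
  obtain ⟨e, he⟩ : ∃ e : ℕ → X, ∀ x ∈ t, ∃ i < t.card, e i = x := by
    classical
    refine ⟨fun i => if hi : i < t.card then (t.equivFin.symm ⟨i, hi⟩ : X) else
      Classical.arbitrary X, fun x hx => ⟨t.equivFin ⟨x, hx⟩, Fin.is_lt _, ?_⟩⟩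
    simp
  let f : X → Fin (t.card + 1) := fun x =>
    ⟨SimpleFunc.nearestPtInd e t.card x, Nat.lt_succ_of_le (SimpleFunc.nearestPtInd_le e _ x)⟩
  have hf : Measurable f := by
    refine measurable_to_countable' fun i => ?_
    have : f ⁻¹' {i} = (SimpleFunc.nearestPtInd e t.card) ⁻¹' {(i : ℕ)} := by
      ext x
      simp [f, Fin.ext_iff]
    rw [this]
    exact SimpleFunc.measurableSet_fiber _ _
  have hnear : ∀ x, dist x (e (f x)) < ε / 2 := by
    intro x
    obtain ⟨y, hy, hxy⟩ := by simpa using ht (mem_univ x)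
    obtain ⟨i, hi, rfl⟩ := he y hy
    have h1 := SimpleFunc.edist_nearestPt_le e x hi.le
    rw [edist_dist, edist_dist, ENNReal.ofReal_le_ofReal_iff dist_nonneg] at h1
    have h2 : SimpleFunc.nearestPt e t.card x = e (f x) := rfl
    rw [h2] at h1
    rw [dist_comm]
    exact h1.trans_lt (by rw [dist_comm]; exact hxy)
  have hdiam : ∀ x y, f x = f y → dist x y < ε := by
    intro x y hxy
    have h1 := hnear x
    have h2 := hnear y
    rw [← hxy] at h2
    calc dist x y ≤ dist x (e (f x)) + dist y (e (f x)) := dist_triangle_right _ _ _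
      _ < ε := by linarith
  have hC : 0 < C := by
    obtain ⟨x⟩ := hne
    have h1 := h x 0
    simp only [Nat.not_lt_zero, IsEmpty.forall_iff, implies_true, ofPred_true, probReal_univ,
      Nat.cast_zero, mul_zero, Real.exp_zero, mul_one] at h1
    linarith
  have hle : ENNReal.ofReal s ≤
      limsup (fun n : ℕ => ENNReal.ofReal (shannon μ (name T f n) / n)) atTop := by
    refine ofReal_le_limsup_of_frequently (a := -Real.log C) ?_
    refine (Eventually.frequently ?_)
    filter_upwards [eventually_gt_atTop 0] with N hN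
    have hpos : (0 : ℝ) < N := by exact_mod_cast hN
    rw [le_div_iff₀ hpos, add_mul, div_mul_cancel₀ _ hpos.ne']
    refine le_shannon (measurable_name hT.measurable hf N) fun w => ?_
    have h1 : Real.exp (-(s * N + -Real.log C)) = C * Real.exp (-s * N) := by
      rw [neg_add, neg_neg, Real.exp_add, Real.exp_log hC]
      ring_nf
    rw [h1]
    by_cases hw : ∃ x, name T f N x = w
    · obtain ⟨x, rfl⟩ := hw
      refine le_trans (measureReal_mono ?_) (h x N)
      intro y hy i hi
      have h2 : name T f N y = name T f N x := hy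
      exact hdiam _ _ (congrFun h2 ⟨i, hi⟩).symm
    · have : name T f N ⁻¹' {w} = ∅ := by
        rw [eq_empty_iff_forall_notMem]
        intro x hx
        exact hw ⟨x, hx⟩
      rw [this, measureReal_empty]
      positivity
  refine hle.trans ?_
  unfold ksEntropy
  exact le_iSup_of_le _ (le_iSup_of_le f (le_iSup_of_le hf le_rfl))

end Vale.Agent.P207
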