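import Vale.Agent.P207.Rays

/-!
# P207, block C2: auxiliary statements
-/

open scoped Manifold ContDiff ENNReal Topology
open Bundle MeasureTheory Set Filter

noncomputable section

namespace Vale.Agent.P207

open Vale.Agent.P255 (RMetric coefIn Gam Riem IsGeo Metric Npc ExpSys toMetric geo expg cc)

/-- uniform closeness along trajectories of length one -/
theorem exists_near_of_cover {X M : Type} [MetricSpace X] [CompactSpace X] [TopologicalSpace M]
    {f : ℝ × X → M} (hf : Continuous f) {P : M → M → Prop}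
    (hP : ∀ x₀ : M, ∃ U ∈ 𝓝 x₀, ∀ x ∈ U, ∀ y ∈ U, P x y) :
    ∃ ε > 0, ∀ p q : X, dist p q < ε → ∀ τ ∈ Icc (0 : ℝ) 1, P (f (τ, p)) (f (τ, q)) := by
  choose U hU hUP using hP
  have hc : IsCompact (Icc (0 : ℝ) 1 ×ˢ (univ : Set X)) := isCompact_Icc.prod isCompact_univ
  obtain ⟨δ, hδ, h⟩ := lebesgue_number_lemma_of_metric (c := fun x₀ => f ⁻¹' (interior (U x₀))) hc
    (fun x₀ => isOpen_interior.preimage hf) (by
      intro z _
      rw [mem_iUnion]
      exact ⟨f z, mem_interior_iff_mem_nhds.2 (hU (f z))⟩)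
  refine ⟨δ, hδ, fun p q hpq τ hτ => ?_⟩
  obtain ⟨x₀, hx₀⟩ := h (τ, p) ⟨hτ, mem_univ _⟩
  have h1 : (τ, p) ∈ Metric.ball (τ, p) δ := Metric.mem_ball_self hδ
  have h2 : (τ, q) ∈ Metric.ball (τ, p) δ := by
    rw [Metric.mem_ball, Prod.dist_eq, dist_self, dist_comm q p]
    exact max_lt hδ hpq
  exact hUP x₀ _ (interior_subset (hx₀ h1)) _ (interior_subset (hx₀ h2))

/-- counting by windows -/
theorem growthLE_of_windows {n : ℕ} {M : Type} [TopologicalSpace M]
    [ChartedSpace (EV n) M] (S : ExpSys (EV n) M) {r s s' : ℝ} (hr : 0 < r)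
    (hs' : 0 < s') (hss : s' < s)
    (hfin : ∃ s₀ C₀ : ℝ, 0 ≤ s₀ ∧ ∀ (x y : M) (R : ℝ), 0 ≤ R →
      {α : Cl x y | S.len α ≤ R}.Finite ∧
        ({α : Cl x y | S.len α ≤ R}.ncard : ℝ) ≤ C₀ * Real.exp (s₀ * R))
    (hwin : ∃ N₀ : ℕ, ∀ (x y : M) (k : ℕ) (A : Finset (Cl x y)), 1 ≤ k → N₀ ≤ ⌈k * r⌉₊ →
      (∀ α ∈ A, (k - 1) * r < S.len α ∧ S.len α ≤ k * r) →
        (A.card : ℝ) ≤ Real.exp (s' * ⌈k * r⌉₊)) :
    ∃ C : ℝ, ∀ (x y : M) (R : ℝ), 0 ≤ R →
      {α : Cl x y | S.len α ≤ R}.Finite ∧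
        ({α : Cl x y | S.len α ≤ R}.ncard : ℝ) ≤ C * Real.exp (s * R) := by
  classical
  obtain ⟨s₀, C₀, hs₀, hfin⟩ := hfin
  obtain ⟨N₀, hwin⟩ := hwin
  by_cases hM : Nonempty M
  swap
  · exact ⟨0, fun x => absurd ⟨x⟩ hM⟩
  have hC₀ : 0 ≤ C₀ := by
    obtain ⟨x⟩ := hM
    have h1 := (hfin x x 0 le_rfl).2
    simp only [mul_zero, Real.exp_zero, mul_one] at h1
    exact (Nat.cast_nonneg _).trans h1
  set C₁ := C₀ * Real.exp (s₀ * N₀) with hC₁
  have hC₁0 : 0 ≤ C₁ := by positivity
  set C₂ := 1 + C₁ + Real.exp s' with hC₂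
  have hC₂0 : 0 < C₂ := by positivity
  -- every window
  have hwin' : ∀ (x y : M) (k : ℕ) (A : Finset (Cl x y)),
      (∀ α ∈ A, ⌈S.len α / r⌉₊ = k) → (A.card : ℝ) ≤ C₂ * Real.exp (s' * (k * r)) := by
    intro x y k A hA
    have hexp1 : 1 ≤ Real.exp (s' * (k * r)) := Real.one_le_exp (by positivity)
    rcases Nat.eq_zero_or_pos k with hk | hk
    · -- classes of length zero
      have h1 : A.card ≤ 1 := by
        rw [Finset.card_le_one]
        intro α hα β hβ
        have hz : ∀ α ∈ A, S.vec α = 0 := by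
          intro α hα
          have h2 := hA α hα
          rw [hk, Nat.ceil_eq_zero] at h2
          have h3 : S.len α ≤ 0 := by
            by_contra h
            push Not at h
            have : 0 < S.len α / r := div_pos h hr
            linarith
          exact S.eq_zero_of_nrm (le_antisymm h3 (S.len_nonneg α))
        apply S.vec_inj
        rw [hz α hα, hz β hβ]
      calc (A.card : ℝ) ≤ 1 := by exact_mod_cast h1
        _ ≤ C₂ := by rw [hC₂]; linarith [Real.exp_pos s']
        _ ≤ C₂ * Real.exp (s' * (k * r)) := le_mul_of_one_le_right hC₂0.le hexp1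
    · have hle : ∀ α ∈ A, (k - 1) * r < S.len α ∧ S.len α ≤ k * r := by
        intro α hα
        have h2 := hA α hα
        have h3 := (Nat.ceil_eq_iff hk.ne').1 h2
        rw [lt_div_iff₀ hr, div_le_iff₀ hr] at h3
        refine ⟨?_, h3.2⟩
        have h4 : ((k - 1 : ℕ) : ℝ) = k - 1 := by
          rw [Nat.cast_sub hk]; simp
        rw [h4] at h3
        exact h3.1
      by_cases hN : N₀ ≤ ⌈k * r⌉₊
      · have h1 := hwin x y k A hk hN hle
        refine h1.trans ?_
        have h2 : ((⌈k * r⌉₊ : ℕ) : ℝ) < k * r + 1 := Nat.ceil_lt_add_one (by positivity)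
        calc Real.exp (s' * ⌈k * r⌉₊) ≤ Real.exp (s' + s' * (k * r)) := by
              apply Real.exp_le_exp.2
              nlinarith
          _ = Real.exp s' * Real.exp (s' * (k * r)) := Real.exp_add _ _
          _ ≤ C₂ * Real.exp (s' * (k * r)) := by
              apply mul_le_mul_of_nonneg_right _ (Real.exp_pos _).le
              rw [hC₂]; linarith
      · push Not at hN
        have hkr : (k : ℝ) * r ≤ N₀ := by
          have h1 : (k : ℝ) * r ≤ ⌈k * r⌉₊ := Nat.le_ceil _
          have h2 : ((⌈k * r⌉₊ : ℕ) : ℝ) ≤ N₀ := by exact_mod_cast hN.le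
          linarith
        obtain ⟨hf, hcard⟩ := hfin x y N₀ (Nat.cast_nonneg _)
        have hsub : (A : Set (Cl x y)) ⊆ {α : Cl x y | S.len α ≤ N₀} := fun α hα =>
          (hle α hα).2.trans hkr
        have h3 : A.card ≤ {α : Cl x y | S.len α ≤ N₀}.ncard := by
          rw [← Set.ncard_coe_finset A]
          exact Set.ncard_le_ncard hsub hf
        calc (A.card : ℝ) ≤ ({α : Cl x y | S.len α ≤ N₀}.ncard : ℝ) := by exact_mod_cast h3
          _ ≤ C₁ := hcard
          _ ≤ C₂ := by rw [hC₂]; linarith [Real.exp_pos s']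
          _ ≤ C₂ * Real.exp (s' * (k * r)) := le_mul_of_one_le_right hC₂0.le hexp1
  -- polynomial factor
  set d := s - s' with hd
  have hd0 : 0 < d := by rw [hd]; linarith
  refine ⟨C₂ * (1 / (r * d) + 2) * Real.exp (s' * r), fun x y R hR => ?_⟩
  obtain ⟨hf, -⟩ := hfin x y R hR
  refine ⟨hf, ?_⟩
  set F := hf.toFinset with hF
  have hFm : ∀ α, α ∈ F ↔ S.len α ≤ R := fun α => by rw [hF, hf.mem_toFinset]; rfl
  rw [Set.ncard_eq_toFinset_card _ hf]
  change (F.card : ℝ) ≤ _
  set K := ⌈R / r⌉₊ with hK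
  have hKr : (K : ℝ) * r ≤ R + r := by
    have h1 : (K : ℝ) < R / r + 1 := Nat.ceil_lt_add_one (by positivity)
    have h2 := mul_lt_mul_of_pos_right h1 hr
    rw [add_mul, div_mul_cancel₀ _ hr.ne', one_mul] at h2
    exact h2.le
  have h1 : F.card = ∑ k ∈ Finset.range (K + 1), (F.filter fun α => ⌈S.len α / r⌉₊ = k).card := by
    apply Finset.card_eq_sum_card_fiberwise
    intro α hα
    have h2 : S.len α ≤ R := (hFm α).1 hα
    rw [Finset.mem_coe, Finset.mem_range, Nat.lt_succ_iff]
    exact Nat.ceil_mono (div_le_div_of_nonneg_right h2 hr.le)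
  rw [h1]
  push_cast
  calc ∑ k ∈ Finset.range (K + 1), ((F.filter fun α => ⌈S.len α / r⌉₊ = k).card : ℝ)
      ≤ ∑ k ∈ Finset.range (K + 1), C₂ * Real.exp (s' * (R + r)) := by
        refine Finset.sum_le_sum fun k hk => ?_
        refine (hwin' x y k _ fun α hα => (Finset.mem_filter.1 hα).2).trans ?_
        apply mul_le_mul_of_nonneg_left _ hC₂0.le
        apply Real.exp_le_exp.2
        apply mul_le_mul_of_nonneg_left _ hs'.le
        have : (k : ℝ) ≤ K := by
          have := Finset.mem_range.1 hk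
          exact_mod_cast Nat.lt_succ_iff.1 this
        exact (mul_le_mul_of_nonneg_right this hr.le).trans hKr
    _ = (K + 1) * (C₂ * Real.exp (s' * (R + r))) := by
        rw [Finset.sum_const, Finset.card_range, nsmul_eq_mul]
        push_cast
        ring
    _ ≤ ((1 / (r * d) + 2) * Real.exp (d * R)) * (C₂ * Real.exp (s' * (R + r))) := by
        apply mul_le_mul_of_nonneg_right _ (by positivity)
        have h2 : (K : ℝ) < R / r + 1 := Nat.ceil_lt_add_one (by positivity)
        have h3 : d * R ≤ Real.exp (d * R) := by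
          have := Real.add_one_le_exp (d * R)
          linarith
        have h4 : 1 ≤ Real.exp (d * R) := Real.one_le_exp (by positivity)
        have h5 : R / r = 1 / (r * d) * (d * R) := by field_simp
        have h6 : 1 / (r * d) * (d * R) ≤ 1 / (r * d) * Real.exp (d * R) :=
          mul_le_mul_of_nonneg_left h3 (by positivity)
        rw [h5] at h2
        nlinarith
    _ = C₂ * (1 / (r * d) + 2) * Real.exp (s' * r) * Real.exp (s * R) := by
        have : Real.exp (s * R) = Real.exp (d * R) * Real.exp (s' * R) := by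
          rw [← Real.exp_add]
          congr 1
          rw [hd]; ring
        rw [this, mul_add, Real.exp_add]
        ring

end Vale.Agent.P207
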