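import Vale.Agent.P207.BlkC1
import Vale.Agent.P207.BlkE2
import Vale.Agent.P207.BlkF
import Vale.Agent.P207.C2aux

/-!
# P207, block C2: the growth rate of the homotopy classes is at most the topological entropy
-/

open scoped Manifold ContDiff ENNReal Topology
open Bundle MeasureTheory Set Filter

noncomputable section

namespace Vale.Agent.P207

open Vale.Agent.P255 (RMetric coefIn Gam Riem IsGeo Metric Npc ExpSys toMetric geo expg cc)

variable {n : ℕ} {M : Type} [TopologicalSpace M] [ChartedSpace (EV n) M]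
  [IsManifold 𝓘(ℝ, EV n) ∞ M] [CompactSpace M] [T2Space M]

variable {g : RMetric (EV n) M} {φ : ℝ → UT g → UT g}

theorem IsGeoFlow.iterate_one (hφ : IsGeoFlow g φ) (i : ℕ) (p : UT g) :
    (φ 1)^[i] p = φ i p := by
  induction i with
  | zero => simp [(hφ p).1]
  | succ i ih =>
    rw [Function.iterate_succ_apply', ih, ← hφ.add]
    congr 1
    push_cast; ring

theorem IsGeoFlow.pt_eq_e (hφ : IsGeoFlow g φ) (h : Npc (mt g)) (t : ℝ) (p : UT g) :
    (φ t p).pt = (sys g h).e p.pt (t • (p.vec : EV n)) :=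
  (hφ.pt_eq t p).trans (P255.expg_smul (mt g) p.pt (p.vec : EV n) t).symm

theorem nrm_vec_eq_one (h : Npc (mt g)) (p : UT g) : (sys g h).nrm p.pt (p.vec : EV n) = 1 := by
  have h1 : (mt g).ip p.pt (p.vec : EV n) (p.vec : EV n) = 1 := (ip_eq g _ _ _).trans p.2
  unfold ExpSys.nrm
  rw [sys_ip, h1, Real.sqrt_one]

/-- the unit vector of a class of positive length -/
theorem ip_unit (h : Npc (mt g)) {x y : M} (α : Cl x y) (hα : 0 < (sys g h).len α) :
    (mt g).ip x (((sys g h).len α)⁻¹ • (sys g h).vec α)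
      (((sys g h).len α)⁻¹ • (sys g h).vec α) = 1 := by
  set S := sys g h with hS
  have h2 : S.nrm x (S.vec α) ^ 2 = S.ip x (S.vec α) (S.vec α) := S.nrm_sq _ _
  rw [hS, sys_ip, ← hS] at h2
  simp only [map_smul, smul_apply, smul_eq_mul]
  rw [← h2]
  change (S.len α)⁻¹ * ((S.len α)⁻¹ * (S.len α) ^ 2) = 1
  field_simp

/-- C2. the growth rate is at most the topological entropy -/
theorem growthLE_of_topEntropy [ConnectedSpace M] (hφ : IsGeoFlow g φ) (h : Npc (mt g)) {s : ℝ}
    (hs : 0 < s) (hlt : topEntropy (φ 1) < ENNReal.ofReal s) : GrowthLE (sys g h) s := by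
  classical
  have := compactSpace_UT g
  have := t2Space_UT g
  have := metrizableSpace_UT g
  let : MetricSpace (UT g) := TopologicalSpace.metrizableSpaceMetric (UT g)
  set S := sys g h with hS
  -- a rate in between
  obtain ⟨s', hs'0, hs's, hs'⟩ : ∃ s' : ℝ, 0 < s' ∧ s' < s ∧
      topEntropy (φ 1) < ENNReal.ofReal s' := by
    obtain ⟨a, ha1, ha2⟩ := exists_between hlt
    have hatop : a ≠ ⊤ := ne_top_of_lt ha2
    refine ⟨a.toReal, ?_, ?_, ?_⟩
    · exact ENNReal.toReal_pos (ne_bot_of_gt ha1) hatop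
    · rw [← ENNReal.ofReal_toReal hatop] at ha2
      exact (ENNReal.ofReal_lt_ofReal_iff hs).1 ha2
    · rw [ENNReal.ofReal_toReal hatop]; exact ha1
  obtain ⟨sy, hsy0, hsy⟩ := C1.exists_systole S
  set η := sy / 3 with hη
  have hη0 : 0 < η := by positivity
  obtain ⟨ε, hε, hnear⟩ := exists_near_of_cover (X := UT g) (M := M)
    (f := fun q : ℝ × UT g => (φ q.1 q.2).pt) ((continuous_pt g).comp hφ.continuous)
    (P := fun x y => ∃ α : Cl x y, S.len α < η) (by
      intro x₀
      obtain ⟨U, hU, hx, h1⟩ := C1.exists_near S x₀ hη0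
      exact ⟨U, hU.mem_nhds hx, h1⟩)
  have hcont1 : Continuous (φ 1) :=
    hφ.continuous.comp (by fun_prop : Continuous fun p : UT g => ((1 : ℝ), p))
  -- the number of separated points
  have hsep : ∀ᶠ N : ℕ in atTop, ∀ E : Finset (UT g), Sep (φ 1) N ε E →
      (E.card : ℝ) < Real.exp (s' * N) := by
    by_contra hcon
    rw [Filter.not_eventually] at hcon
    have h1 := le_topEntropy_of_sep hcont1 hε hs'0.le one_pos (hcon.mono (by
      intro N hN
      push Not at hN
      obtain ⟨E, hE, hE2⟩ := hN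
      exact ⟨E, hE, by rw [one_mul]; exact hE2⟩))
    exact absurd h1 (not_le.2 hs')
  obtain ⟨N₀, hN₀⟩ := eventually_atTop.1 hsep
  obtain ⟨s₀, hs₀, C₀, hC₀⟩ := exists_growthLE S
  refine growthLE_of_windows S (r := η) hη0 hs'0 hs's ⟨s₀, C₀, hs₀, hC₀⟩ ⟨N₀, ?_⟩
  intro x y k A hk hN hA
  set N := ⌈k * η⌉₊ with hN'
  have hk1 : (1 : ℝ) ≤ k := by exact_mod_cast hk
  have hNpos : 0 < N := Nat.ceil_pos.2 (by positivity)
  have hpos : ∀ α ∈ A, 0 < S.len α := by
    intro α hα
    have h1 := (hA α hα).1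
    have h2 : (0 : ℝ) ≤ (k - 1) * η := mul_nonneg (by linarith) hη0.le
    linarith
  set wv : Cl x y → EV n := fun α => (S.len α)⁻¹ • S.vec α with hwv
  set u : {α // α ∈ A} → UT g := fun α => mkUT g x (wv α.1) (ip_unit h α.1 (hpos α.1 α.2)) with hu
  have hvec : ∀ α ∈ A, S.vec α = S.len α • wv α := by
    intro α hα
    rw [hwv]
    dsimp only
    rw [smul_smul, mul_inv_cancel₀ (hpos α hα).ne', one_smul]
  have hdist : ∀ α β : {α // α ∈ A}, α ≠ β → ∃ i < N, ε ≤ dist ((φ 1)^[i] (u α)) ((φ 1)^[i] (u β)) := by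
    intro α β hne
    by_contra hcon
    push Not at hcon
    apply hne
    apply Subtype.ext
    obtain ⟨hα1, hα2⟩ := hA α.1 α.2
    obtain ⟨hβ1, hβ2⟩ := hA β.1 β.2
    have hkN : (k : ℝ) * η ≤ N := Nat.le_ceil _
    refine eq_of_close S hη0 (by rw [hη]; linarith) hsy (T := N) α.1 β.1
      (hvec _ α.2) (hvec _ β.2) (nrm_vec_eq_one h (u β)).le (S.len_nonneg _)
      (hα2.trans hkN) ?_ ?_
    · rw [abs_le]
      constructor <;> nlinarith
    · intro t ht
      obtain ⟨i, hi, τ, hτ, hti⟩ : ∃ i < N, ∃ τ ∈ Icc (0 : ℝ) 1, t = τ + i := by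
        rcases lt_or_ge ⌊t⌋₊ N with hlt | hge
        · refine ⟨⌊t⌋₊, hlt, t - ⌊t⌋₊, ⟨?_, ?_⟩, by ring⟩
          · have := Nat.floor_le ht.1; linarith
          · have := Nat.lt_floor_add_one t; linarith
        · refine ⟨N - 1, by omega, 1, ⟨zero_le_one, le_rfl⟩, ?_⟩
          have h1 : (N : ℝ) ≤ t := (Nat.le_floor_iff ht.1).1 hge
          have h2 : t = N := le_antisymm ht.2 h1
          rw [h2, Nat.cast_sub (by omega)]
          simp
      have h1 := hnear _ _ (hcon i hi) τ hτ
      dsimp only at h1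
      rw [hφ.iterate_one, hφ.iterate_one, ← hφ.add, ← hφ.add, ← hti, hφ.pt_eq_e h, hφ.pt_eq_e h] at h1
      exact h1
  -- the separated set
  set E : Finset (UT g) := A.attach.image u with hE
  have hinj : Function.Injective u := by
    intro α β hαβ
    by_contra hne
    obtain ⟨i, -, hi⟩ := hdist α β hne
    rw [hαβ, dist_self] at hi
    linarith
  have hcard : E.card = A.card := by
    rw [hE, Finset.card_image_of_injective _ hinj, Finset.card_attach]
  have hES : Sep (φ 1) N ε E := by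
    intro p hp q hq hpq
    rw [hE, Finset.mem_image] at hp hq
    obtain ⟨α, -, rfl⟩ := hp
    obtain ⟨β, -, rfl⟩ := hq
    exact hdist α β (fun h => hpq (by rw [h]))
  have := hN₀ N hN E hES
  rw [hcard] at this
  exact this.le

end Vale.Agent.P207
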