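/-
P207, block CF: conformal metrics.  Author: helper982.
-/
import Vale.Agent.P207.BlkC0

open scoped Manifold ContDiff ENNReal Topology
open Bundle MeasureTheory Set Filter

noncomputable section

namespace Vale.Agent.P207

open Vale.Agent.P255 (RMetric coefIn Gam Riem IsGeo Metric Npc ExpSys toMetric geo expg coefL)

variable {n : ℕ} {M : Type} [TopologicalSpace M] [ChartedSpace (EV n) M]
  [IsManifold 𝓘(ℝ, EV n) ∞ M]

/-- CF1 -/
theorem exists_conf (g : RMetric (EV n) M) {u : M → ℝ}
    (hu : ContMDiff 𝓘(ℝ, EV n) 𝓘(ℝ, ℝ) ∞ u) : ∃ g' : RMetric (EV n) M, IsConf g g' u := by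
  have hexp : ContMDiff 𝓘(ℝ, EV n) 𝓘(ℝ, ℝ) ∞ (fun x => Real.exp (2 * u x)) := by
    have h1 : ContDiff ℝ ∞ (fun t : ℝ => Real.exp (2 * t)) := by fun_prop
    exact h1.contMDiff.comp hu
  refine ⟨{ inner := fun x => Real.exp (2 * u x) • g.inner x
            symm := ?_, pos := ?_, isVonNBounded := ?_, contMDiff := ?_ }, fun x v w => rfl⟩
  · intro x v w
    simp only [smul_apply, smul_eq_mul]
    rw [g.symm]
  · intro x v hv
    simp only [smul_apply, smul_eq_mul]
    exact mul_pos (Real.exp_pos _) (g.pos x v hv)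
  · intro x
    have h1 := g.isVonNBounded x
    let L : TangentSpace 𝓘(ℝ, EV n) x →L[ℝ] TangentSpace 𝓘(ℝ, EV n) x :=
      Real.exp (-u x) • ContinuousLinearMap.id ℝ _
    refine (h1.image L).subset ?_
    intro v hv
    refine ⟨Real.exp (u x) • v, ?_, ?_⟩
    · have h2 : Real.exp (2 * u x) * g.inner x v v < 1 := hv
      change g.inner x (Real.exp (u x) • v) (Real.exp (u x) • v) < 1
      simp only [map_smul, smul_apply, smul_eq_mul]
      rw [← mul_assoc, ← Real.exp_add]
      convert h2 using 3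
      ring
    · change Real.exp (-u x) • (Real.exp (u x) • v) = v
      rw [smul_smul, ← Real.exp_add, neg_add_cancel, Real.exp_zero, one_smul]
  · exact hexp.smul_section g.contMDiff

/-! ### integration in a chart -/

section Chart

variable [MeasurableSpace M] [BorelSpace M] {g g' : RMetric (EV n) M} {μ μ' : Measure M}

theorem aemeasurable_dens_mul (g : RMetric (EV n) M) (a : M) {s : Set M} (hs : MeasurableSet s)
    (hsa : s ⊆ (chartAt (EV n) a).source) {f : M → ℝ≥0∞} (hf : Measurable f) :
    AEMeasurable (fun y => ENNReal.ofReal (dens g a y) * f ((chartAt (EV n) a).symm y))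
      (volume.restrict (chartAt (EV n) a '' s)) := by
  have h0 : MeasurableSet (chartAt (EV n) a).target := (chartAt (EV n) a).open_target.measurableSet
  have h1 : AEMeasurable (dens g a) (volume.restrict (chartAt (EV n) a).target) :=
    (continuousOn_dens g a).aemeasurable h0
  have h2 : AEMeasurable (chartAt (EV n) a).symm (volume.restrict (chartAt (EV n) a).target) :=
    (chartAt (EV n) a).continuousOn_symm.aemeasurable h0
  have h3 : chartAt (EV n) a '' s ⊆ (chartAt (EV n) a).target := by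
    rintro _ ⟨x, hx, rfl⟩
    exact (chartAt (EV n) a).map_source (hsa hx)
  exact (h1.ennreal_ofReal.mul (hf.comp_aemeasurable h2)).mono_set h3

/-- the Riemannian volume in a chart, for functions -/
theorem IsRiemVol.setLIntegral (hμ : IsRiemVol g μ) (a : M) {s : Set M} (hs : MeasurableSet s)
    (hsa : s ⊆ (chartAt (EV n) a).source) {f : M → ℝ≥0∞} (hf : Measurable f) :
    ∫⁻ x in s, f x ∂μ = ∫⁻ y in chartAt (EV n) a '' s,
      ENNReal.ofReal (dens g a y) * f ((chartAt (EV n) a).symm y) := by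
  refine Measurable.ennreal_induction (motive := fun f => ∫⁻ x in s, f x ∂μ =
    ∫⁻ y in chartAt (EV n) a '' s, ENNReal.ofReal (dens g a y) *
      f ((chartAt (EV n) a).symm y)) ?_ ?_ ?_ hf
  · intro c t ht
    rw [lintegral_indicator_const ht, Measure.restrict_apply ht,
      isRiemVol_iff.1 hμ a (t ∩ s) (ht.inter hs) (inter_subset_right.trans hsa)]
    have h1 : ∀ y ∈ chartAt (EV n) a '' s, ENNReal.ofReal (dens g a y) *
        t.indicator (fun _ => c) ((chartAt (EV n) a).symm y) =
        (chartAt (EV n) a '' (t ∩ s)).indicator (fun y => c * ENNReal.ofReal (dens g a y)) y := by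
      rintro _ ⟨x, hx, rfl⟩
      rw [(chartAt (EV n) a).left_inv (hsa hx)]
      by_cases hxt : x ∈ t
      · have hxi : chartAt (EV n) a x ∈ chartAt (EV n) a '' (t ∩ s) := ⟨x, ⟨hxt, hx⟩, rfl⟩
        rw [indicator_of_mem hxt, indicator_of_mem hxi, mul_comm]
      · rw [indicator_of_notMem hxt, indicator_of_notMem, mul_zero]
        rintro ⟨z, ⟨hz, hzs⟩, hzx⟩
        have := (chartAt (EV n) a).injOn (hsa hzs) (hsa hx) hzx
        rw [this] at hz
        exact hxt hz
    have hm := measurableSet_chart_image a (ht.inter hs) (inter_subset_right.trans hsa)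
    rw [setLIntegral_congr_fun (measurableSet_chart_image a hs hsa) h1, lintegral_indicator hm,
      Measure.restrict_restrict hm, inter_eq_left.2 (image_mono inter_subset_right)]
    have h2 : AEMeasurable (fun y => ENNReal.ofReal (dens g a y))
        (volume.restrict (chartAt (EV n) a '' (t ∩ s))) := by
      have := aemeasurable_dens_mul g a (ht.inter hs) (inter_subset_right.trans hsa)
        (f := fun _ => 1) measurable_const
      simpa using this
    rw [lintegral_const_mul'' _ h2]
  · intro f f' _ hf hf' ih ih'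
    simp only [Pi.add_apply, mul_add]
    rw [lintegral_add_left hf, lintegral_add_left' (aemeasurable_dens_mul g a hs hsa hf), ih, ih']
  · intro f hf hmono ih
    simp only [ENNReal.mul_iSup]
    rw [lintegral_iSup hf hmono, lintegral_iSup' (fun k => aemeasurable_dens_mul g a hs hsa (hf k))]
    · simp only [ih]
    · refine Eventually.of_forall fun y => ?_
      intro i j hij
      exact mul_le_mul_right (hmono hij _) _

omit [MeasurableSpace M] [BorelSpace M] in
theorem gramE_smul (c : ℝ) (B : EV n →L[ℝ] EV n →L[ℝ] ℝ) :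
    (gramE (c • B)).det = c ^ n * (gramE B).det := by
  have : gramE (c • B) = c • gramE B := by
    ext i j
    simp [gramE]
  rw [this, Matrix.det_smul, Fintype.card_fin]

omit [MeasurableSpace M] [BorelSpace M] in
theorem IsConf.coefL_eq {u : M → ℝ} (hc : IsConf g g' u) (a : M) (y : EV n) :
    coefL g' a y = Real.exp (2 * u ((chartAt (EV n) a).symm y)) • coefL g a y := by
  ext v w
  exact hc _ _ _

omit [MeasurableSpace M] [BorelSpace M] in
theorem IsConf.dens_eq {u : M → ℝ} (hc : IsConf g g' u) (a : M) (y : EV n) :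
    dens g' a y = Real.exp (n * u ((chartAt (EV n) a).symm y)) * dens g a y := by
  unfold dens
  rw [hc.coefL_eq, gramE_smul, Real.sqrt_mul (by positivity)]
  congr 1
  rw [← Real.exp_nat_mul, show (n : ℝ) * (2 * u ((chartAt (EV n) a).symm y)) =
    n * u ((chartAt (EV n) a).symm y) + n * u ((chartAt (EV n) a).symm y) by ring, Real.exp_add,
    Real.sqrt_mul_self (Real.exp_pos _).le]

/-- the volume of a conformal metric -/
theorem IsConf.vol [CompactSpace M] [T2Space M] {u : M → ℝ} (hc : IsConf g g' u)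
    (hu : Continuous u) (hμ : IsRiemVol g μ) (hμ' : IsRiemVol g' μ') :
    μ' = μ.withDensity fun x => ENNReal.ofReal (Real.exp (n * u x)) := by
  apply hμ'.unique
  rw [isRiemVol_iff]
  intro a s hs hsa
  have hm : Measurable fun x => ENNReal.ofReal (Real.exp (n * u x)) := by
    have : Continuous fun x => Real.exp (n * u x) := by fun_prop
    exact this.measurable.ennreal_ofReal
  rw [withDensity_apply _ hs, hμ.setLIntegral a hs hsa hm]
  refine setLIntegral_congr_fun (measurableSet_chart_image a hs hsa) fun y _ => ?_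
  rw [hc.dens_eq, ENNReal.ofReal_mul (Real.exp_pos _).le, mul_comm]

theorem IsConf.integral_eq [CompactSpace M] [T2Space M] {u : M → ℝ} (hc : IsConf g g' u)
    (hu : Continuous u) (hμ : IsRiemVol g μ) (hμ' : IsRiemVol g' μ') (f : M → ℝ) :
    ∫ x, f x ∂μ' = ∫ x, Real.exp (n * u x) * f x ∂μ := by
  rw [hc.vol hu hμ hμ', integral_withDensity_eq_integral_toReal_smul]
  · refine integral_congr_ae (Eventually.of_forall fun x => ?_)
    change (ENNReal.ofReal (Real.exp (n * u x))).toReal • f x = Real.exp (n * u x) * f x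
    rw [ENNReal.toReal_ofReal (Real.exp_pos _).le, smul_eq_mul]
  · have : Continuous fun x => Real.exp (n * u x) := by fun_prop
    exact this.measurable.ennreal_ofReal
  · exact Eventually.of_forall fun x => ENNReal.ofReal_lt_top

end Chart

/-! ### a Chebyshev inequality -/

section Cheb

/-- Chebyshev's inequality for powers of a positive continuous function. -/
theorem cheb {X : Type} [TopologicalSpace X] [CompactSpace X] [MeasurableSpace X] [BorelSpace X]
    [Nonempty X] {μ : Measure X} [IsFiniteMeasure μ] [μ.IsOpenPosMeasure] {w : X → ℝ}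
    (hw : Continuous w) (hpos : ∀ x, 0 < w x) {k l : ℕ} (hk : 1 ≤ k) :
    (∫ x, w x ^ k ∂μ) * (∫ x, w x ^ l ∂μ) ≤ μ.real univ * ∫ x, w x ^ (k + l) ∂μ ∧
    (1 ≤ l → (∃ x y, w x ≠ w y) →
      (∫ x, w x ^ k ∂μ) * (∫ x, w x ^ l ∂μ) < μ.real univ * ∫ x, w x ^ (k + l) ∂μ) := by
  have hV : 0 < μ.real univ :=
    ENNReal.toReal_pos (isOpen_univ.measure_pos μ univ_nonempty).ne' (measure_ne_top μ univ)
  have hint : ∀ f : X → ℝ, Continuous f → Integrable f μ := fun f hf =>
    hf.integrable_of_hasCompactSupport (HasCompactSupport.of_compactSpace _)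
  have hi : ∀ j : ℕ, Integrable (fun x => w x ^ j) μ := fun j => hint _ (hw.pow j)
  have hA : 0 ≤ (∫ x, w x ^ k ∂μ) / μ.real univ :=
    div_nonneg (integral_nonneg fun x => (pow_pos (hpos x) k).le) hV.le
  obtain ⟨c, hc0, hc⟩ : ∃ c : ℝ, 0 ≤ c ∧ c ^ k = (∫ x, w x ^ k ∂μ) / μ.real univ :=
    ⟨((∫ x, w x ^ k ∂μ) / μ.real univ) ^ ((k : ℝ)⁻¹), Real.rpow_nonneg hA _,
      Real.rpow_inv_natCast_pow hA (by omega)⟩
  have hcV : ∫ x, w x ^ k ∂μ = c ^ k * μ.real univ := by
    rw [hc, div_mul_cancel₀ _ hV.ne']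
  have hnn : ∀ x, 0 ≤ (w x ^ k - c ^ k) * (w x ^ l - c ^ l) := by
    intro x
    rcases le_total c (w x) with h | h
    · exact mul_nonneg (sub_nonneg.2 (pow_le_pow_left₀ hc0 h k))
        (sub_nonneg.2 (pow_le_pow_left₀ hc0 h l))
    · exact mul_nonneg_of_nonpos_of_nonpos (sub_nonpos.2 (pow_le_pow_left₀ (hpos x).le h k))
        (sub_nonpos.2 (pow_le_pow_left₀ (hpos x).le h l))
  have hcont : Continuous fun x => (w x ^ k - c ^ k) * (w x ^ l - c ^ l) := by fun_prop
  have key : μ.real univ * ∫ x, (w x ^ k - c ^ k) * (w x ^ l - c ^ l) ∂μ =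
      μ.real univ * (∫ x, w x ^ (k + l) ∂μ) - (∫ x, w x ^ k ∂μ) * (∫ x, w x ^ l ∂μ) := by
    have e : ∀ x, (w x ^ k - c ^ k) * (w x ^ l - c ^ l) =
        w x ^ (k + l) - c ^ k * w x ^ l - (c ^ l * w x ^ k - c ^ (k + l)) := by
      intro x; ring
    simp only [e]
    have i1 : Integrable (fun x => w x ^ (k + l) - c ^ k * w x ^ l) μ :=
      (hi (k + l)).sub ((hi l).const_mul _)
    have i2 : Integrable (fun x => c ^ l * w x ^ k - c ^ (k + l)) μ :=
      ((hi k).const_mul _).sub (integrable_const _)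
    rw [integral_sub i1 i2, integral_sub (hi _) ((hi l).const_mul _),
      integral_sub ((hi k).const_mul _) (integrable_const _), integral_const_mul,
      integral_const_mul, integral_const, hcV, smul_eq_mul]
    ring
  constructor
  · have := integral_nonneg (μ := μ) (f := fun x => (w x ^ k - c ^ k) * (w x ^ l - c ^ l)) hnn
    have h2 := mul_nonneg hV.le this
    rw [key] at h2
    linarith
  · rintro hl ⟨x, y, hxy⟩
    by_contra hlt
    have h3 : ∫ x, (w x ^ k - c ^ k) * (w x ^ l - c ^ l) ∂μ = 0 := by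
      have h4 : μ.real univ * ∫ x, (w x ^ k - c ^ k) * (w x ^ l - c ^ l) ∂μ ≤ 0 := by
        rw [key]; linarith
      have h5 := integral_nonneg (μ := μ)
        (f := fun x => (w x ^ k - c ^ k) * (w x ^ l - c ^ l)) hnn
      nlinarith
    have h4 := (integral_eq_zero_iff_of_nonneg hnn (hint _ hcont)).1 h3
    have h5 : ∀ x, (w x ^ k - c ^ k) * (w x ^ l - c ^ l) = 0 := fun x =>
      congrFun ((Continuous.ae_eq_iff_eq μ hcont continuous_const).1 h4) x
    have h6 : ∀ x, w x = c := by
      intro x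
      rcases mul_eq_zero.1 (h5 x) with h | h
      · exact (pow_left_inj₀ (hpos x).le hc0 (by omega)).1 (sub_eq_zero.1 h)
      · exact (pow_left_inj₀ (hpos x).le hc0 (by omega)).1 (sub_eq_zero.1 h)
    exact hxy (by rw [h6 x, h6 y])

end Cheb

/-! ### the stretch of conformal metrics -/

section Conf

variable {g g' : RMetric (EV n) M} {u : M → ℝ}

theorem IsConf.symm (hc : IsConf g g' u) : IsConf g' g (fun x => -u x) := by
  intro x v w
  rw [hc x v w, ← mul_assoc, ← Real.exp_add, show 2 * -u x + 2 * u x = 0 by ring, Real.exp_zero,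
    one_mul]

theorem IsConf.nrm_eq (hc : IsConf g g' u) : nrm g g' = fun p => Real.exp (u p.pt) := by
  funext p
  unfold nrm
  have h1 : g.inner p.pt p.vec p.vec = 1 := p.2
  rw [hc, h1, mul_one, show 2 * u p.pt = u p.pt + u p.pt by ring, Real.exp_add,
    Real.sqrt_mul_self (Real.exp_pos _).le]

variable [CompactSpace M] [T2Space M]

theorem sphAvg_pt (hn : 1 ≤ n) (g : RMetric (EV n) M) (f : M → ℝ) (x : M) :
    sphAvg g (fun p => f p.pt) x = f x := by
  have h1 : sphAvg g (fun p => f p.pt) x = sphAvg g (f x • fun _ : UT g => (1 : ℝ)) x := by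
    rw [sphAvg_eq, sphAvg_eq]
    unfold avgB
    congr 1
    refine integral_congr_ae (Eventually.of_forall fun v => ?_)
    change radial g (fun p => f p.pt) x v = radial g (f x • fun _ : UT g => (1 : ℝ)) x v
    unfold radial
    split_ifs
    · rfl
    · change f x = f x * 1
      rw [mul_one]
  rw [h1, sphAvg_smul, sphAvg_one hn, mul_one]

variable [MeasurableSpace M] [BorelSpace M] {μ μ' : Measure M}
  {m : Measure (UT g)} {m' : Measure (UT g')}

theorem IsLiouville.integral_pt (hn : 1 ≤ n) (hm : IsLiouville g μ m) {f : M → ℝ}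
    (hf : Continuous f) : ∫ p, f p.pt ∂m = (∫ x, f x ∂μ) / μ.real univ := by
  rw [hm.2 (fun p => f p.pt) (hf.comp (continuous_pt g))]
  simp only [sphAvg_pt hn]

/-- the averages of powers of the stretch -/
theorem IsConf.integral_pow (hn : 1 ≤ n) (hc : IsConf g g' u) (hu : Continuous u)
    (hm : IsLiouville g μ m) (k : ℕ) :
    ∫ p, nrm g g' p ^ k ∂m = (∫ x, Real.exp (u x) ^ k ∂μ) / μ.real univ := by
  rw [hc.nrm_eq]
  exact hm.integral_pt hn (f := fun x => Real.exp (u x) ^ k) (by fun_prop)

theorem IsConf.integral_pow' (hc : IsConf g g' u) (hu : Continuous u)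
    (hμ : IsRiemVol g μ) (hμ' : IsRiemVol g' μ') (hm' : IsLiouville g' μ' m') {k : ℕ}
    (hk : k ≤ n) (hn : 1 ≤ n) :
    ∫ p, nrm g' g p ^ k ∂m' = (∫ x, Real.exp (u x) ^ (n - k) ∂μ) / ∫ x, Real.exp (u x) ^ n ∂μ := by
  have hf := hμ'.isFiniteMeasure
  rw [hc.symm.integral_pow hn hu.neg hm' k, hc.integral_eq hu hμ hμ']
  have e1 : ∀ x, Real.exp (n * u x) * Real.exp (-u x) ^ k = Real.exp (u x) ^ (n - k) := by
    intro x
    rw [← Real.exp_nat_mul, ← Real.exp_nat_mul, ← Real.exp_add, Nat.cast_sub hk]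
    congr 1
    ring
  have e2 : μ'.real univ = ∫ x, Real.exp (u x) ^ n ∂μ := by
    have h1 := hc.integral_eq hu hμ hμ' (fun _ => 1)
    simp only [integral_const, smul_eq_mul, mul_one] at h1
    rw [h1]
    simp only [Real.exp_nat_mul]
  simp only [e1, e2]

/-- CF2 -/
theorem IsConf.mul_lt_one (hn : 2 ≤ n) [ConnectedSpace M] (hc : IsConf g g' u)
    (hu : Continuous u) (hne : ∃ x y, u x ≠ u y) (hμ : IsRiemVol g μ) (hμ' : IsRiemVol g' μ')
    (hm : IsLiouville g μ m) (hm' : IsLiouville g' μ' m') :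
    (∫ p, nrm g g' p ∂m) * (∫ p, nrm g' g p ∂m') < 1 := by
  have hn1 : 1 ≤ n := by omega
  have hf := hμ.isFiniteMeasure
  have ho := hμ.isOpenPosMeasure
  have h1 := hc.integral_pow hn1 hu hm 1
  have h2 := hc.integral_pow' hu hμ hμ' hm' (k := 1) hn1 hn1
  simp only [pow_one] at h1 h2
  rw [h1, h2]
  have hw : Continuous fun x => Real.exp (u x) := by fun_prop
  have h3 := (cheb (μ := μ) hw (fun x => Real.exp_pos _) (k := 1) (l := n - 1) le_rfl).2
    (by omega) (by
      obtain ⟨x, y, hxy⟩ := hne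
      exact ⟨x, y, fun h => hxy (Real.exp_injective h)⟩)
  rw [show 1 + (n - 1) = n by omega] at h3
  simp only [pow_one] at h3
  have hV : 0 < μ.real univ :=
    ENNReal.toReal_pos (isOpen_univ.measure_pos μ univ_nonempty).ne' (measure_ne_top μ univ)
  have hW : 0 < ∫ x, Real.exp (u x) ^ n ∂μ := by
    have h4 : Continuous fun x => Real.exp (u x) ^ n := by fun_prop
    refine h4.integral_pos_of_hasCompactSupport_nonneg_nonzero
      (HasCompactSupport.of_compactSpace _) (fun x => by positivity)
      (x := Classical.arbitrary M) (by positivity)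
  rw [div_mul_div_comm, div_lt_one (mul_pos hV hW)]
  exact h3

/-- CF2', in the mean square -/
theorem IsConf.mul_sq_le_one (hn : 2 ≤ n) [ConnectedSpace M] (hc : IsConf g g' u)
    (hu : Continuous u) (hμ : IsRiemVol g μ) (hμ' : IsRiemVol g' μ')
    (hm : IsLiouville g μ m) (hm' : IsLiouville g' μ' m') :
    (∫ p, nrm g g' p ^ 2 ∂m) * (∫ p, nrm g' g p ^ 2 ∂m') ≤ 1 := by
  have hn1 : 1 ≤ n := by omega
  have hf := hμ.isFiniteMeasure
  have ho := hμ.isOpenPosMeasure
  have hw : Continuous fun x => Real.exp (u x) := by fun_prop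
  have h3 := (cheb (μ := μ) hw (fun x => Real.exp_pos _) (k := 2) (l := n - 2) (by norm_num)).1
  rw [show 2 + (n - 2) = n by omega] at h3
  have hV : 0 < μ.real univ :=
    ENNReal.toReal_pos (isOpen_univ.measure_pos μ univ_nonempty).ne' (measure_ne_top μ univ)
  have hW : 0 < ∫ x, Real.exp (u x) ^ n ∂μ := by
    have h4 : Continuous fun x => Real.exp (u x) ^ n := by fun_prop
    refine h4.integral_pos_of_hasCompactSupport_nonneg_nonzero
      (HasCompactSupport.of_compactSpace _) (fun x => by positivity)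
      (x := Classical.arbitrary M) (by positivity)
  rw [hc.integral_pow hn1 hu hm 2, hc.integral_pow' hu hμ hμ' hm' hn hn1, div_mul_div_comm,
    div_le_one (mul_pos hV hW)]
  exact h3

end Conf

end Vale.Agent.P207
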