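import Vale.Agent.P207.BaseD

/-!
# P207, block D1: for a locally symmetric metric of negative curvature the spectrum of
`w ↦ R(w,v)v`, `v` unit, does not depend on `v`
-/

open scoped Manifold ContDiff ENNReal Topology
open Bundle MeasureTheory Set Filter

set_option maxSynthPendingDepth 3

noncomputable section

namespace Vale.Agent.P207.D1

open Vale.Agent.P255

section Coord

variable {E : Type} [NormedAddCommGroup E] [NormedSpace ℝ E]
variable {G : E → E →L[ℝ] E →L[ℝ] ℝ} {U : Set E}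

/-- the curvature tensor as a trilinear map -/
def curvT (G : E → E →L[ℝ] E →L[ℝ] ℝ) (u : E) : E →L[ℝ] E →L[ℝ] E →L[ℝ] E :=
  fderiv ℝ (chrisB G) u - (fderiv ℝ (chrisB G) u).flip
    + (((ContinuousLinearMap.compL ℝ E E E) ∘L (chrisB G u)).flip ∘L (chrisB G u)).flip
    - (((ContinuousLinearMap.compL ℝ E E E) ∘L (chrisB G u)).flip ∘L (chrisB G u))

variable [FiniteDimensional ℝ E]

theorem curvT_apply (h : IsMetricOn G U) {u : E} (hu : u ∈ U) (x y z : E) :
    curvT G u x y z = curv G u x y z := by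
  rw [h.curv_eq hu]
  simp [curvT]

theorem contDiffAt_curvT (h : IsMetricOn G U) {u : E} (hu : u ∈ U) :
    ContDiffAt ℝ ∞ (curvT G) u := by
  have h1 := h.contDiffAt_chrisB hu
  have h2 : ContDiffAt ℝ ∞ (fderiv ℝ (chrisB G)) u := h1.fderiv_right (m := ∞) (by simp)
  have h3 : ContDiffAt ℝ ∞ (fun u => (fderiv ℝ (chrisB G) u).flip) u :=
    ((ContinuousLinearMap.flipₗᵢ ℝ E E (E →L[ℝ] E)).toContinuousLinearEquiv.contDiff.contDiffAt).comp
      u h2
  have h4 : ContDiffAt ℝ ∞ (fun u => (ContinuousLinearMap.compL ℝ E E E) ∘L (chrisB G u)) u :=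
    contDiffAt_const.clm_comp h1
  have h5 : ContDiffAt ℝ ∞ (fun u => ((ContinuousLinearMap.compL ℝ E E E) ∘L (chrisB G u)).flip) u :=
    ((ContinuousLinearMap.flipₗᵢ ℝ E (E →L[ℝ] E) (E →L[ℝ] E)).toContinuousLinearEquiv.contDiff.contDiffAt).comp
      u h4
  have h6 : ContDiffAt ℝ ∞ (fun u => ((ContinuousLinearMap.compL ℝ E E E) ∘L
      (chrisB G u)).flip ∘L (chrisB G u)) u := h5.clm_comp h1
  have h7 : ContDiffAt ℝ ∞ (fun u => (((ContinuousLinearMap.compL ℝ E E E) ∘L
      (chrisB G u)).flip ∘L (chrisB G u)).flip) u :=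
    ((ContinuousLinearMap.flipₗᵢ ℝ E E (E →L[ℝ] E)).toContinuousLinearEquiv.contDiff.contDiffAt).comp
      u h6
  exact ((h2.sub h3).add h7).sub h6

theorem curvT_anti (h : IsMetricOn G U) {u : E} (hu : u ∈ U) (x y z : E) :
    curvT G u x y z = - curvT G u y x z := by
  rw [curvT_apply h hu, curvT_apply h hu, h.curv_eq hu, h.curv_eq hu]
  abel

theorem curvT_skew (h : IsMetricOn G U) {u : E} (hu : u ∈ U) (x y z w : E) :
    G u (curvT G u x y z) w = - G u (curvT G u x y w) z := by
  have h1 := h.curv_skew hu x y (z + w)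
  have h2 := h.curv_skew hu x y z
  have h3 := h.curv_skew hu x y w
  rw [← curvT_apply h hu] at h1 h2 h3
  simp only [map_add, add_apply] at h1
  linarith

theorem curvT_bianchi (h : IsMetricOn G U) {x : E} (hx : x ∈ U) (u v w : E) :
    curvT G x u v w + curvT G x v w u + curvT G x w u v = 0 := by
  have hs : ∀ a b c, fderiv ℝ (chrisB G) x a b c = fderiv ℝ (chrisB G) x a c b := by
    intro a b c
    rw [← h.fderiv_chris hx, ← h.fderiv_chris hx]
    have : (fun p => chris G p b c) =ᶠ[𝓝 x] fun p => chris G p c b := by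
      filter_upwards [h.mem_nhds hx] with p hp using h.chris_symm hp b c
    rw [this.fderiv_eq]
  have hb : ∀ a b, chrisB G x a b = chrisB G x b a := by
    intro a b
    rw [chrisB_apply, chrisB_apply, h.chris_symm hx]
  rw [curvT_apply h hx, curvT_apply h hx, curvT_apply h hx, h.curv_eq hx, h.curv_eq hx,
    h.curv_eq hx, hs u v w, hs v w u, hs w u v, hb v w, hb w u, hb u v]
  abel

/-- pair symmetry of the curvature tensor -/
theorem curvT_pair_symm (h : IsMetricOn G U) {x : E} (hx : x ∈ U) (a b c e : E) :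
    G x (curvT G x a b c) e = G x (curvT G x c e a) b := by
  have A1 : ∀ a b c e, G x (curvT G x b a c) e = - G x (curvT G x a b c) e := by
    intro a b c e
    rw [curvT_anti h hx b a c]; simp
  have A2 : ∀ a b c e, G x (curvT G x a b e) c = - G x (curvT G x a b c) e := by
    intro a b c e
    rw [curvT_skew h hx]
  have B : ∀ a b c e, G x (curvT G x a b c) e + G x (curvT G x b c a) e +
      G x (curvT G x c a b) e = 0 := by
    intro a b c e
    have := congrArg (fun z => G x z e) (curvT_bianchi h hx a b c)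
    simpa using this
  have b1 := B a b c e
  have b2 := B b c e a
  have b3 := B c e a b
  have b4 := B e a b c
  have := A1 a b c e
  have := A2 b c a e
  have := A2 c e b a
  have := A2 e b a c
  have := A1 c a b e
  have := A2 a c b e
  have := A1 b c a e
  have := A1 e b c a
  have := A2 b e c a
  have := A1 b e c a
  have := A2 c b e a
  have := A2 b c e a
  have := A1 e a b c
  have := A2 a e b c
  have := A2 e a c b
  have := A1 a e c b
  have := A2 c a e b
  have := A2 a c e b
  have := A1 a c e b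
  have := A2 a b e c
  have := A2 c e a b
  have := A1 a c b e
  have := A2 b e a c
  have := A2 e c a b
  linarith

/-- symmetry of the Jacobi operator -/
theorem curvT_jacobi_symm (h : IsMetricOn G U) {x : E} (hx : x ∈ U) (u v w : E) :
    G x (curvT G x u v v) w = G x (curvT G x w v v) u := by
  rw [curvT_pair_symm h hx u v v w, curvT_anti h hx v w u, map_neg, neg_apply,
    curvT_skew h hx w v u v, neg_neg]

/-- `∇R = 0` in coordinates -/
def LocSymOn (G : E → E →L[ℝ] E →L[ℝ] ℝ) (U : Set E) : Prop :=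
  ∀ u ∈ U, ∀ w x y z : E, fderiv ℝ (curvT G) u w x y z =
    curvT G u (chrisB G u w x) y z + curvT G u x (chrisB G u w y) z
      + curvT G u x y (chrisB G u w z) - chrisB G u w (curvT G u x y z)

/-- the Ricci identity: `R(a,b)` acts trivially on `R` -/
theorem ricci (h : IsMetricOn G U) (hS : LocSymOn G U) {u : E} (hu : u ∈ U) (a b z w v : E) :
    curvT G u a b (curvT G u z w v) = curvT G u (curvT G u a b z) w v
      + curvT G u z (curvT G u a b w) v + curvT G u z w (curvT G u a b v) := by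
  set F : E → E := fun p => curvT G p z w v with hF
  have hFs : ContDiffAt ℝ ∞ F u :=
    (((contDiffAt_curvT h hu).clm_apply contDiffAt_const).clm_apply contDiffAt_const).clm_apply
      contDiffAt_const
  have hd1 : ∀ p ∈ U, HasFDerivAt (curvT G) (fderiv ℝ (curvT G) p) p := fun p hp =>
    ((contDiffAt_curvT h hp).differentiableAt (by simp)).hasFDerivAt
  have hB : HasFDerivAt (chrisB G) (fderiv ℝ (chrisB G) u) u :=
    (h.differentiableAt_chrisB hu).hasFDerivAt
  have hFd : ∀ p ∈ U, ∀ c, fderiv ℝ F p c = fderiv ℝ (curvT G) p c z w v := by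
    intro p hp c
    have h1 := ((((hd1 p hp).clm_apply (hasFDerivAt_const z p)).clm_apply
      (hasFDerivAt_const w p)).clm_apply (hasFDerivAt_const v p))
    rw [h1.fderiv]
    simp
  have hsym : ∀ c d, fderiv ℝ (fun p => fderiv ℝ F p c) u d =
      fderiv ℝ (fun p => fderiv ℝ F p d) u c := by
    intro c d
    have hs := hFs.isSymmSndFDerivAt
      (by simpa only [minSmoothness_of_isRCLikeNormedField] using two_le_infty)
    have hd : DifferentiableAt ℝ (fderiv ℝ F) u :=
      (hFs.fderiv_right (m := ∞) (by simp)).differentiableAt (by simp)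
    have e1 : ∀ c d, fderiv ℝ (fun p => fderiv ℝ F p c) u d =
        fderiv ℝ (fderiv ℝ F) u d c := by
      intro c d
      rw [(hd.hasFDerivAt.clm_apply (hasFDerivAt_const c u)).fderiv]
      simp
    rw [e1, e1]
    exact hs d c
  have hval : ∀ c d, fderiv ℝ (fun p => fderiv ℝ F p c) u d =
      (fderiv ℝ (curvT G) u d (chrisB G u c z) w v
        + curvT G u (fderiv ℝ (chrisB G) u d c z) w v)
      + (fderiv ℝ (curvT G) u d z (chrisB G u c w) v
        + curvT G u z (fderiv ℝ (chrisB G) u d c w) v)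
      + (fderiv ℝ (curvT G) u d z w (chrisB G u c v)
        + curvT G u z w (fderiv ℝ (chrisB G) u d c v))
      - (fderiv ℝ (chrisB G) u d c (curvT G u z w v)
        + chrisB G u c (fderiv ℝ (curvT G) u d z w v)) := by
    intro c d
    have e1 : (fun p => fderiv ℝ F p c) =ᶠ[𝓝 u] fun p =>
        curvT G p (chrisB G p c z) w v + curvT G p z (chrisB G p c w) v
          + curvT G p z w (chrisB G p c v) - chrisB G p c (curvT G p z w v) := by
      filter_upwards [h.mem_nhds hu] with p hp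
      rw [hFd p hp, hS p hp]
    rw [e1.fderiv_eq]
    have hR := hd1 u hu
    have k := fun (q : E) => (hasFDerivAt_const (𝕜 := ℝ) q u)
    have hBc : ∀ q, HasFDerivAt (fun p => chrisB G p c q) _ u := fun q =>
      (hB.clm_apply (k c)).clm_apply (k q)
    have t1 := ((hR.clm_apply (hBc z)).clm_apply (k w)).clm_apply (k v)
    have t2 := ((hR.clm_apply (k z)).clm_apply (hBc w)).clm_apply (k v)
    have t3 := ((hR.clm_apply (k z)).clm_apply (k w)).clm_apply (hBc v)
    have t4 := (hB.clm_apply (k c)).clm_apply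
      (((hR.clm_apply (k z)).clm_apply (k w)).clm_apply (k v))
    rw [(((t1.fun_add t2).fun_add t3).fun_sub t4).fderiv]
    simp
    abel
  have key := hsym b a
  rw [hval, hval] at key
  simp only [hS u hu, map_add, map_sub] at key
  have hc : ∀ p q r, curvT G u p q r = fderiv ℝ (chrisB G) u p q r - fderiv ℝ (chrisB G) u q p r
      + chrisB G u p (chrisB G u q r) - chrisB G u q (chrisB G u p r) := by
    intro p q r
    rw [curvT_apply h hu, h.curv_eq hu]
  have e1 : curvT G u a b (curvT G u z w v) = fderiv ℝ (chrisB G) u a b (curvT G u z w v)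
      - fderiv ℝ (chrisB G) u b a (curvT G u z w v)
      + chrisB G u a (chrisB G u b (curvT G u z w v))
      - chrisB G u b (chrisB G u a (curvT G u z w v)) := hc _ _ _
  rw [e1, hc a b z, hc a b w, hc a b v]
  simp only [map_add, map_sub, add_apply, sub_apply]
  rw [← sub_eq_zero] at key ⊢
  rw [← neg_eq_zero, ← key]
  abel

/-- strictly negative sectional curvature, in coordinates -/
def NegOn (G : E → E →L[ℝ] E →L[ℝ] ℝ) (U : Set E) : Prop :=
  ∀ u ∈ U, ∀ v w : E, LinearIndependent ℝ ![v, w] → G u (curvT G u v w w) v < 0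

theorem curvOp_eq (h : IsMetricOn G U) {u : E} (hu : u ∈ U) (y x : E) :
    curvOp G u y x = curvT G u x y y := by
  rw [h.curvOp_apply hu, curvT_apply h hu]

theorem curvOp_eq' (h : IsMetricOn G U) {u : E} (hu : u ∈ U) (y : E) :
    curvOp G u y = ((curvT G u).flip y).flip y := by
  ext x
  rw [curvOp_eq h hu]
  simp

theorem exists_R (h : IsMetricOn G U) (hN : NegOn G U) {u : E} (hu : u ∈ U) {v w : E}
    (hv : G u v v = 1) (hw : G u v w = 0) : ∃ x, curvT G u x v v = w := by
  let L : E →ₗ[ℝ] E := (curvOp G u v : E →ₗ[ℝ] E) + (G u v : E →ₗ[ℝ] ℝ).smulRight v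
  have hL : ∀ x, L x = curvT G u x v v + G u v x • v := by
    intro x
    simp [L, curvOp_eq h hu]
  have hKv : ∀ x, G u (curvT G u x v v) v = 0 := by
    intro x
    rw [curvT_apply h hu]
    exact h.curv_skew hu x v v
  have hLv : ∀ x, G u (L x) v = G u v x := by
    intro x
    rw [hL, map_add, add_apply, hKv, map_smul, smul_apply, hv]
    simp
  have hinj : Function.Injective L := by
    rw [injective_iff_map_eq_zero]
    intro x hx
    by_contra hx0
    have h1 : G u v x = 0 := by rw [← hLv, hx]; simp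
    have h2 : curvT G u x v v = 0 := by
      rw [hL, h1] at hx
      simpa using hx
    have h3 : LinearIndependent ℝ ![x, v] := by
      rw [LinearIndependent.pair_iff]
      intro s t hst
      have h4 : t = 0 := by
        have := congrArg (fun z => G u v z) hst
        simpa [h1, hv] using this
      rw [h4] at hst
      simp only [zero_smul, add_zero, smul_eq_zero] at hst
      exact ⟨hst.resolve_right hx0, h4⟩
    have h5 := hN u hu x v h3
    rw [h2] at h5
    simp at h5
  obtain ⟨x, hx⟩ := LinearMap.injective_iff_surjective.1 hinj w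
  refine ⟨x, ?_⟩
  have h1 : G u v x = 0 := by rw [← hLv, hx, h.symm u hu, hw]
  rw [hL, h1] at hx
  simpa using hx

/-- along every curve of unit vectors, the operator `R(·,v)v` satisfies a Lax equation -/
theorem lax (h : IsMetricOn G U) (hS : LocSymOn G U) (hN : NegOn G U) {c v : ℝ → E} {t : ℝ}
    (ht : c t ∈ U) (hc : DifferentiableAt ℝ c t) (hv : DifferentiableAt ℝ v t)
    (h1 : ∀ᶠ s in 𝓝 t, G (c s) (v s) (v s) = 1) :
    ∃ L : E →L[ℝ] E, HasDerivAt (fun s => curvOp G (c s) (v s))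
      (L * curvOp G (c t) (v t) - curvOp G (c t) (v t) * L) t := by
  have hD : G (c t) (v t) (covD G c v t) = 0 := by
    have h2 := h.hasDerivAt_inner ht hc hv hv
    have h3 : HasDerivAt (fun s => G (c s) (v s) (v s)) 0 t :=
      (hasDerivAt_const t (1 : ℝ)).congr_of_eventuallyEq h1
    have h4 := h2.unique h3
    rw [h.symm _ ht (covD G c v t)] at h4
    linarith
  obtain ⟨x, hx⟩ := exists_R h hN ht h1.self_of_nhds hD
  refine ⟨curvT G (c t) x (v t) - chrisB G (c t) (deriv c t), ?_⟩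
  have hT : HasDerivAt (fun s => curvT G (c s)) (fderiv ℝ (curvT G) (c t) (deriv c t)) t :=
    ((contDiffAt_curvT h ht).differentiableAt (by simp)).hasFDerivAt.comp_hasDerivAt t
      hc.hasDerivAt
  have hT1 : HasDerivAt (fun s => (curvT G (c s)).flip)
      (fderiv ℝ (curvT G) (c t) (deriv c t)).flip t :=
    ((ContinuousLinearMap.flipₗᵢ ℝ E E
      (E →L[ℝ] E)).toContinuousLinearEquiv.hasFDerivAt).comp_hasDerivAt t hT
  have hT2 := hT1.clm_apply hv.hasDerivAt
  have hT3 : HasDerivAt (fun s => ((curvT G (c s)).flip (v s)).flip) _ t :=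
    ((ContinuousLinearMap.flipₗᵢ ℝ E E
      E).toContinuousLinearEquiv.hasFDerivAt).comp_hasDerivAt t hT2
  have hT4 := hT3.clm_apply hv.hasDerivAt
  have hev : (fun s => curvOp G (c s) (v s)) =ᶠ[𝓝 t]
      fun s => ((curvT G (c s)).flip (v s)).flip (v s) := by
    filter_upwards [hc.continuousAt.eventually_mem (h.mem_nhds ht)] with s hs
    exact curvOp_eq' h hs (v s)
  refine (hT4.congr_of_eventuallyEq hev).congr_deriv ?_
  ext y
  have hx' : deriv v t = curvT G (c t) x (v t) (v t) - chrisB G (c t) (deriv c t) (v t) := by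
    rw [hx, covD, ← chrisB_apply]
    abel
  have e1 := ricci h hS ht x (v t) y (v t) (v t)
  have e2 := hS (c t) ht (deriv c t) y (v t) (v t)
  simp only [ContinuousLinearMap.mul_def, sub_apply, ContinuousLinearMap.comp_apply,
    curvOp_eq h ht, map_sub]
  rw [e1]
  simp [e2, hx']
  abel

/-- the trace, as a continuous linear map -/
def trL (E : Type) [NormedAddCommGroup E] [NormedSpace ℝ E] [FiniteDimensional ℝ E] :
    (E →L[ℝ] E) →L[ℝ] ℝ :=
  LinearMap.toContinuousLinearMap ((LinearMap.trace ℝ E) ∘ₗ (ContinuousLinearMap.coeLM ℝ))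

theorem trL_apply (K : E →L[ℝ] E) : trL E K = LinearMap.trace ℝ E (K : E →ₗ[ℝ] E) := rfl

theorem trL_mul_comm (K L : E →L[ℝ] E) : trL E (K * L) = trL E (L * K) := by
  rw [trL_apply, trL_apply]
  exact LinearMap.trace_mul_comm ℝ (K : E →ₗ[ℝ] E) (L : E →ₗ[ℝ] E)

theorem hasDerivAt_trL_pow {K : ℝ → E →L[ℝ] E} {L : E →L[ℝ] E} {t : ℝ}
    (hK : HasDerivAt K (L * K t - K t * L) t) (k : ℕ) :
    HasDerivAt (fun s => trL E (K s ^ k)) 0 t := by
  have h1 : ∀ k : ℕ, HasDerivAt (fun s => K s ^ k) (L * K t ^ k - K t ^ k * L) t := by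
    intro k
    induction k with
    | zero => simpa using hasDerivAt_const t (1 : E →L[ℝ] E)
    | succ k ih =>
      have h2 := ih.mul hK
      have h3 : (fun s => K s ^ (k + 1)) = (fun s => K s ^ k) * K := by
        funext s; simp [pow_succ]
      rw [h3]
      refine h2.congr_deriv ?_
      rw [pow_succ]
      noncomm_ring
  have h2 := ((trL E).hasFDerivAt (x := K t ^ k)).comp_hasDerivAt t (h1 k)
  refine h2.congr_deriv ?_
  rw [map_sub, trL_mul_comm, sub_self]

/-- trace of the powers of `R(·,v)v` along curves of unit vectors -/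
theorem trL_eq_of_curve (h : IsMetricOn G U) (hS : LocSymOn G U) (hN : NegOn G U)
    {c v : ℝ → E} {a b : ℝ} (hab : a ≤ b) (hU : ∀ t ∈ Icc a b, c t ∈ U)
    (hc : ∀ t, DifferentiableAt ℝ c t)
    (hv : ∀ t ∈ Icc a b, DifferentiableAt ℝ v t)
    (h1 : ∀ t ∈ Icc a b, ∀ᶠ s in 𝓝 t, G (c s) (v s) (v s) = 1) (k : ℕ) :
    trL E (curvOp G (c a) (v a) ^ k) = trL E (curvOp G (c b) (v b) ^ k) := by
  have hd : ∀ t ∈ Icc a b, HasDerivAt (fun s => trL E (curvOp G (c s) (v s) ^ k)) 0 t := by
    intro t ht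
    obtain ⟨L, hL⟩ := lax h hS hN (hU t ht) (hc t) (hv t ht) (h1 t ht)
    exact hasDerivAt_trL_pow hL k
  have h2 := constant_of_has_deriv_right_zero (f := fun s => trL E (curvOp G (c s) (v s) ^ k))
    (a := a) (b := b) (fun t ht => (hd t ht).continuousAt.continuousWithinAt)
    (fun t ht => (hd t (Ico_subset_Icc_self ht)).hasDerivWithinAt)
  exact (h2 b (right_mem_Icc.2 hab)).symm

theorem curvOp_smul (h : IsMetricOn G U) {u : E} (hu : u ∈ U) (α : ℝ) (v : E) :
    curvOp G u (α • v) = (α ^ 2) • curvOp G u v := by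
  ext x
  rw [smul_apply, curvOp_eq h hu, curvOp_eq h hu]
  simp only [map_smul, smul_apply, smul_smul, pow_two]

/-- at one point -/
theorem trL_eq_of_unit (h : IsMetricOn G U) (hS : LocSymOn G U) (hN : NegOn G U) {u : E}
    (hu : u ∈ U) {v v' : E} (hv : G u v v = 1) (hv' : G u v' v' = 1) (k : ℕ) :
    trL E (curvOp G u v ^ k) = trL E (curvOp G u v' ^ k) := by
  set α := G u v v' with hα
  set w₀ := v' - α • v with hw₀
  have e1 : G u v w₀ = 0 := by
    rw [hw₀, map_sub, map_smul, hv, smul_eq_mul, mul_one, ← hα, sub_self]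
  have e2 : v' = α • v + w₀ := by rw [hw₀]; abel
  have e3 : G u w₀ w₀ = 1 - α ^ 2 := by
    have h2 := hv'
    rw [e2] at h2
    simp only [map_add, add_apply, map_smul, smul_apply, smul_eq_mul] at h2
    rw [h.symm u hu w₀ v, e1, hv] at h2
    linarith
  by_cases h0 : w₀ = 0
  · rw [h0] at e2 e3
    simp only [map_zero, add_zero] at e2 e3
    rw [e2, curvOp_smul h hu, show α ^ 2 = 1 by linarith, one_smul]
  · have e4 : 0 < 1 - α ^ 2 := by rw [← e3]; exact h.pos u hu w₀ h0
    set β := Real.sqrt (1 - α ^ 2) with hβ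
    have hβ0 : 0 < β := Real.sqrt_pos.2 e4
    have hβ2 : β ^ 2 = 1 - α ^ 2 := Real.sq_sqrt e4.le
    set w := β⁻¹ • w₀ with hw
    have e5 : G u v w = 0 := by rw [hw, map_smul, e1, smul_zero]
    have e6 : G u w w = 1 := by
      rw [hw]
      simp only [map_smul, smul_apply, smul_eq_mul]
      rw [e3, ← hβ2]
      field_simp
    have habs : |α| ≤ 1 := by
      rw [abs_le_one_iff_mul_self_le_one]
      nlinarith
    have hθ : Real.cos (Real.arccos α) = α :=
      Real.cos_arccos (neg_le_of_abs_le habs) (le_of_abs_le habs)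
    have hθ' : Real.sin (Real.arccos α) = β := by rw [Real.sin_arccos]
    have hcd : ∀ t, HasDerivAt (fun s => Real.cos s • v + Real.sin s • w)
        ((-Real.sin t) • v + Real.cos t • w) t := fun t =>
      ((Real.hasDerivAt_cos t).smul_const v).add ((Real.hasDerivAt_sin t).smul_const w)
    have key := trL_eq_of_curve h hS hN (c := fun _ => u)
      (v := fun s => Real.cos s • v + Real.sin s • w) (Real.arccos_nonneg α)
      (fun t _ => hu) (fun t => differentiableAt_const u) (fun t _ => (hcd t).differentiableAt)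
      (fun t _ => Eventually.of_forall fun s => by
        simp only [map_add, add_apply, map_smul, smul_apply, smul_eq_mul]
        rw [h.symm u hu w v, e5, e6, hv]
        have := Real.sin_sq_add_cos_sq s
        ring_nf
        linarith) k
    have e7 : α • v + β • w = v' := by
      rw [hw, smul_smul, mul_inv_cancel₀ hβ0.ne', one_smul, ← e2]
    simpa [hθ, hθ', e7] using key

/-- along segments -/
theorem trL_eq_of_segment (h : IsMetricOn G U) (hS : LocSymOn G U) (hN : NegOn G U) {u u' : E}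
    (hseg : ∀ t ∈ Icc (0 : ℝ) 1, u + t • (u' - u) ∈ U) {v v' : E} (hv : G u v v = 1)
    (hv' : G u' v' v' = 1) (k : ℕ) :
    trL E (curvOp G u v ^ k) = trL E (curvOp G u' v' ^ k) := by
  have hu : u ∈ U := by simpa using hseg 0 (by simp)
  have hu' : u' ∈ U := by simpa using hseg 1 (by simp)
  have hv0 : v ≠ 0 := by
    rintro rfl
    simp at hv
  have hpos : ∀ p ∈ U, 0 < G p v v := fun p hp => h.pos p hp v hv0
  set c : ℝ → E := fun t => u + t • (u' - u) with hc
  have hcd : ∀ t, HasDerivAt c (u' - u) t := fun t => by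
    have := ((hasDerivAt_id t).smul_const (u' - u)).const_add u
    rw [one_smul] at this
    exact this
  set V : ℝ → E := fun t => (Real.sqrt (G (c t) v v))⁻¹ • v with hV
  have hVd : ∀ t ∈ Icc (0 : ℝ) 1, DifferentiableAt ℝ V t := by
    intro t ht
    have h1 := h.hasDerivAt_coef (hseg t ht) (hcd t).differentiableAt
    have h2 : DifferentiableAt ℝ (fun s => G (c s) v v) t :=
      ((h1.clm_apply (hasDerivAt_const t v)).clm_apply (hasDerivAt_const t v)).differentiableAt
    exact ((h2.sqrt (hpos _ (hseg t ht)).ne').inv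
      (Real.sqrt_pos.2 (hpos _ (hseg t ht))).ne').smul_const v
  have hunit : ∀ p ∈ U, G p ((Real.sqrt (G p v v))⁻¹ • v) ((Real.sqrt (G p v v))⁻¹ • v) = 1 := by
    intro p hp
    simp only [map_smul, smul_apply, smul_eq_mul]
    rw [← mul_assoc, ← mul_inv, Real.mul_self_sqrt (hpos p hp).le,
      inv_mul_cancel₀ (hpos p hp).ne']
  have key := trL_eq_of_curve h hS hN (c := c) (v := V) zero_le_one hseg
    (fun t => (hcd t).differentiableAt) hVd (fun t ht => by
      filter_upwards [(hcd t).continuousAt.eventually_mem (h.mem_nhds (hseg t ht))] with s hs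
      exact hunit _ hs) k
  have e0 : c 0 = u := by simp [hc]
  have e1 : c 1 = u' := by simp [hc]
  have e2 : V 0 = v := by simp [hV, e0, hv]
  rw [e0, e1, e2] at key
  rw [key]
  refine trL_eq_of_unit h hS hN hu' ?_ hv' k
  rw [hV]
  simp only [e1]
  exact hunit u' hu'

/-- the curvature tensor is invariant under isometric changes of coordinates -/
theorem curvT_trans (h : IsMetricOn G U) {G₂ : E → E →L[ℝ] E →L[ℝ] ℝ} {U₂ : Set E}
    (h₂ : IsMetricOn G₂ U₂) {τ : E → E} {u : E} (hu : u ∈ U) (hu₂ : ∀ᶠ x in 𝓝 u, τ x ∈ U₂)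
    (hτ : ∀ᶠ x in 𝓝 u, ContDiffAt ℝ ∞ τ x)
    (hiso : ∀ᶠ x in 𝓝 u, ∀ v w, G₂ (τ x) (fderiv ℝ τ x v) (fderiv ℝ τ x w) = G x v w)
    (x y z : E) :
    fderiv ℝ τ u (curvT G u x y z) =
      curvT G₂ (τ u) (fderiv ℝ τ u x) (fderiv ℝ τ u y) (fderiv ℝ τ u z) := by
  have hτ0 := hτ.self_of_nhds
  have hu₂0 := hu₂.self_of_nhds
  have hd0 : HasFDerivAt τ (fderiv ℝ τ u) u := (hτ0.differentiableAt (by simp)).hasFDerivAt
  have hc1 : ContDiffAt ℝ ∞ (fderiv ℝ τ) u := hτ0.fderiv_right (m := ∞) (by simp)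
  have hc2 : ContDiffAt ℝ ∞ (fderiv ℝ (fderiv ℝ τ)) u := hc1.fderiv_right (m := ∞) (by simp)
  have hd1 : HasFDerivAt (fderiv ℝ τ) (fderiv ℝ (fderiv ℝ τ) u) u :=
    (hc1.differentiableAt (by simp)).hasFDerivAt
  have hd2 : HasFDerivAt (fun p : E => (fderiv ℝ (fderiv ℝ τ) p : E →L[ℝ] E →L[ℝ] E))
      (fderiv ℝ (fderiv ℝ (fderiv ℝ τ)) u : E →L[ℝ] E →L[ℝ] E →L[ℝ] E) u :=
    (hc2.differentiableAt (by simp)).hasFDerivAt
  have s2 : ∀ a b, fderiv ℝ (fderiv ℝ τ) u a b = fderiv ℝ (fderiv ℝ τ) u b a := fun a b =>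
    (hτ0.isSymmSndFDerivAt (by simpa only [minSmoothness_of_isRCLikeNormedField] using two_le_infty)) a b
  have s3 : ∀ a b, fderiv ℝ (fderiv ℝ (fderiv ℝ τ)) u a b =
      fderiv ℝ (fderiv ℝ (fderiv ℝ τ)) u b a := fun a b =>
    (hc1.isSymmSndFDerivAt (by simpa only [minSmoothness_of_isRCLikeNormedField] using two_le_infty)) a b
  have hB : HasFDerivAt (chrisB G) (fderiv ℝ (chrisB G) u) u :=
    (h.differentiableAt_chrisB hu).hasFDerivAt
  have hB₂ : HasFDerivAt (fun p => chrisB G₂ (τ p)) ((fderiv ℝ (chrisB G₂) (τ u)).comp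
      (fderiv ℝ τ u)) u :=
    HasFDerivAt.comp (f := τ) (g := chrisB G₂) u (h₂.differentiableAt_chrisB hu₂0).hasFDerivAt hd0
  have htr : ∀ a b, (fun p => fderiv ℝ τ p (chrisB G p a b)) =ᶠ[𝓝 u]
      fun p => chrisB G₂ (τ p) (fderiv ℝ τ p a) (fderiv ℝ τ p b) + fderiv ℝ (fderiv ℝ τ) p a b := by
    intro a b
    filter_upwards [h.mem_nhds hu, hu₂, hτ, hiso.eventually_nhds] with p h1 h2 h3 h4
    rw [chrisB_apply, chrisB_apply]
    exact h.chris_trans h₂ h1 h2 h3 h4 a b
  have htr0 : ∀ a b, fderiv ℝ τ u (chrisB G u a b) = chrisB G₂ (τ u) (fderiv ℝ τ u a)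
      (fderiv ℝ τ u b) + fderiv ℝ (fderiv ℝ τ) u a b := fun a b => (htr a b).self_of_nhds
  have k := fun (q : E) => (hasFDerivAt_const (𝕜 := ℝ) q u)
  have key : ∀ x y z, fderiv ℝ (fderiv ℝ τ) u x (chrisB G u y z)
        + fderiv ℝ τ u (fderiv ℝ (chrisB G) u x y z) =
      fderiv ℝ (chrisB G₂) (τ u) (fderiv ℝ τ u x) (fderiv ℝ τ u y) (fderiv ℝ τ u z)
        + chrisB G₂ (τ u) (fderiv ℝ (fderiv ℝ τ) u x y) (fderiv ℝ τ u z)
        + chrisB G₂ (τ u) (fderiv ℝ τ u y) (fderiv ℝ (fderiv ℝ τ) u x z)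
        + fderiv ℝ (fderiv ℝ (fderiv ℝ τ)) u x y z := by
    intro x y z
    have l1 := (hd1.clm_apply ((hB.clm_apply (k y)).clm_apply (k z)))
    have r1 := (hB₂.clm_apply (hd1.clm_apply (k y))).clm_apply (hd1.clm_apply (k z))
    have r2' := HasFDerivAt.clm_apply (G := E) (H := E →L[ℝ] E) hd2 (k y)
    have r2 := HasFDerivAt.clm_apply (G := E) (H := E) r2' (k z)
    have e1 := Filter.EventuallyEq.fderiv_eq (𝕜 := ℝ) (htr y z)
    rw [l1.fderiv, (r1.fun_add r2).fderiv] at e1
    have e2 := DFunLike.congr_fun e1 x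
    simp only [add_apply, ContinuousLinearMap.comp_apply, ContinuousLinearMap.flip_apply,
      ContinuousLinearMap.flip_add, ContinuousLinearMap.comp_zero, zero_add] at e2
    rw [← sub_eq_zero] at e2 ⊢
    rw [← e2]
    abel
  have k1 := key x y z
  have k2 := key y x z
  rw [s3 y x, s2 y x] at k2
  have hc : ∀ p q r, curvT G u p q r = fderiv ℝ (chrisB G) u p q r - fderiv ℝ (chrisB G) u q p r
      + chrisB G u p (chrisB G u q r) - chrisB G u q (chrisB G u p r) := by
    intro p q r
    rw [curvT_apply h hu, h.curv_eq hu]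
  have hc' : ∀ p q r, curvT G₂ (τ u) p q r = fderiv ℝ (chrisB G₂) (τ u) p q r
      - fderiv ℝ (chrisB G₂) (τ u) q p r
      + chrisB G₂ (τ u) p (chrisB G₂ (τ u) q r) - chrisB G₂ (τ u) q (chrisB G₂ (τ u) p r) := by
    intro p q r
    rw [curvT_apply h₂ hu₂0, h₂.curv_eq hu₂0]
  rw [hc, hc', map_sub, map_add, map_sub, htr0 x, htr0 y, htr0 y, htr0 x, map_add, map_add]
  have e3 : fderiv ℝ τ u (fderiv ℝ (chrisB G) u x y z) - fderiv ℝ τ u (fderiv ℝ (chrisB G) u y x z)
      = (fderiv ℝ (fderiv ℝ τ) u x (chrisB G u y z)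
        + fderiv ℝ τ u (fderiv ℝ (chrisB G) u x y z))
        - (fderiv ℝ (fderiv ℝ τ) u y (chrisB G u x z)
        + fderiv ℝ τ u (fderiv ℝ (chrisB G) u y x z))
        - fderiv ℝ (fderiv ℝ τ) u x (chrisB G u y z)
        + fderiv ℝ (fderiv ℝ τ) u y (chrisB G u x z) := by abel
  rw [e3, k1, k2]
  abel

/-- trace of the powers of `R(·,v)v` under an isometric change of coordinates -/
theorem trL_trans (h : IsMetricOn G U) {G₂ : E → E →L[ℝ] E →L[ℝ] ℝ} {U₂ : Set E}
    (h₂ : IsMetricOn G₂ U₂) {τ : E → E} {u : E} (hu : u ∈ U) (hu₂ : ∀ᶠ x in 𝓝 u, τ x ∈ U₂)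
    (hτ : ∀ᶠ x in 𝓝 u, ContDiffAt ℝ ∞ τ x)
    (hiso : ∀ᶠ x in 𝓝 u, ∀ v w, G₂ (τ x) (fderiv ℝ τ x v) (fderiv ℝ τ x w) = G x v w)
    (v : E) (k : ℕ) :
    trL E (curvOp G u v ^ k) = trL E (curvOp G₂ (τ u) (fderiv ℝ τ u v) ^ k) := by
  have hinj : Function.Injective (fderiv ℝ τ u : E →ₗ[ℝ] E) := by
    rw [injective_iff_map_eq_zero]
    intro a ha
    apply h.eq_zero hu
    rw [← hiso.self_of_nhds a a]
    have : fderiv ℝ τ u a = 0 := ha
    rw [this]; simp
  set D := fderiv ℝ τ u with hD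
  have e1 : D * curvOp G u v = curvOp G₂ (τ u) (D v) * D := by
    ext x
    simp only [ContinuousLinearMap.mul_def, ContinuousLinearMap.comp_apply]
    rw [curvOp_eq h hu, curvOp_eq h₂ hu₂.self_of_nhds, hD, curvT_trans h h₂ hu hu₂ hτ hiso]
  have e2 : D * curvOp G u v ^ k = curvOp G₂ (τ u) (D v) ^ k * D := by
    induction k with
    | zero => simp
    | succ k ih => rw [pow_succ, ← mul_assoc, ih, mul_assoc, e1, ← mul_assoc, ← pow_succ]
  let e : E ≃ₗ[ℝ] E := LinearEquiv.ofInjectiveEndo (D : E →ₗ[ℝ] E) hinj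
  set F : E →L[ℝ] E := LinearMap.toContinuousLinearMap (e.symm : E →ₗ[ℝ] E) with hF
  have e3 : D * F = 1 := by
    ext x
    exact e.apply_symm_apply x
  have e4 : curvOp G₂ (τ u) (D v) ^ k = D * (curvOp G u v ^ k * F) := by
    rw [← mul_assoc, e2, mul_assoc, e3, mul_one]
  have e5 : F * D = 1 := by
    ext x
    exact e.symm_apply_apply x
  rw [e4, trL_mul_comm, mul_assoc, e5, mul_one]

end Coord

section Mfd

variable {n : ℕ} {M : Type} [TopologicalSpace M] [ChartedSpace (EV n) M]
  [IsManifold 𝓘(ℝ, EV n) ∞ M]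

theorem riem_mt (g : RMetric (EV n) M) (a : M) {u : EV n} (hu : u ∈ (chartAt (EV n) a).target)
    (x y z : EV n) : Riem (coefIn g a) u x y z = curvT ((mt g).coef a) u x y z := by
  rw [curvT_apply ((mt g).isMetricOn a) hu]
  exact riem_eq ((mt g).isMetricOn a) (fun _ _ _ _ => rfl) hu x y z

theorem gam_mt (g : RMetric (EV n) M) (a : M) {u : EV n} (hu : u ∈ (chartAt (EV n) a).target)
    (x y : EV n) : Gam (coefIn g a) u x y = chrisB ((mt g).coef a) u x y := by
  rw [chrisB_apply]
  exact gam_eq ((mt g).isMetricOn a) (fun _ _ _ _ => rfl) hu x y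

theorem negOn {g : RMetric (EV n) M} (h : NegCurvature g) (a : M) :
    NegOn ((mt g).coef a) (chartAt (EV n) a).target := by
  intro u hu v w hvw
  have h1 := h a u hu v w hvw
  rw [riem_mt g a hu] at h1
  exact h1

theorem locSymOn {g : RMetric (EV n) M} (h : LocSymmetric g) (a : M) :
    LocSymOn ((mt g).coef a) (chartAt (EV n) a).target := by
  intro u hu w x y z
  have hm := (mt g).isMetricOn a
  have h1 := h a u hu w x y z
  have e1 : (fun p => Riem (coefIn g a) p x y z) =ᶠ[𝓝 u]
      fun p => curvT ((mt g).coef a) p x y z := by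
    filter_upwards [hm.mem_nhds hu] with p hp using riem_mt g a hp x y z
  have e2 : fderiv ℝ (fun p => curvT ((mt g).coef a) p x y z) u w =
      fderiv ℝ (curvT ((mt g).coef a)) u w x y z := by
    have h2 := ((contDiffAt_curvT hm hu).differentiableAt (by simp)).hasFDerivAt
    have h3 := ((h2.clm_apply (hasFDerivAt_const x u)).clm_apply
      (hasFDerivAt_const y u)).clm_apply (hasFDerivAt_const z u)
    rw [h3.fderiv]
    simp
  rw [Filter.EventuallyEq.fderiv_eq (𝕜 := ℝ) e1, e2, riem_mt g a hu, riem_mt g a hu,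
    riem_mt g a hu, riem_mt g a hu, gam_mt g a hu, gam_mt g a hu, gam_mt g a hu,
    gam_mt g a hu] at h1
  rw [← sub_eq_zero] at h1 ⊢
  rw [← h1]
  abel

theorem exists_unit (hn : 1 ≤ n) (g : RMetric (EV n) M) (a : M) {u : EV n}
    (hu : u ∈ (chartAt (EV n) a).target) : ∃ v : EV n, (mt g).coef a u v v = 1 := by
  obtain ⟨e, he⟩ : ∃ e : EV n, e ≠ 0 := by
    refine ⟨EuclideanSpace.single ⟨0, hn⟩ (1 : ℝ), fun h => ?_⟩
    have := congrArg (fun v : EV n => v ⟨0, hn⟩) h
    simp at this
  have hp := (mt g).pos a u hu e he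
  refine ⟨(Real.sqrt ((mt g).coef a u e e))⁻¹ • e, ?_⟩
  simp only [map_smul, smul_apply, smul_eq_mul]
  rw [← mul_assoc, ← mul_inv, Real.mul_self_sqrt hp.le, inv_mul_cancel₀ hp.ne']

theorem trL_chart {g : RMetric (EV n) M} (h : NegCurvature g) (hs : LocSymmetric g) (k : ℕ)
    {a b : M} {u v v' : EV n} (hu : u ∈ (chartAt (EV n) a).target)
    (hb : (chartAt (EV n) a).symm u ∈ (chartAt (EV n) b).source)
    (hv : (mt g).coef a u v v = 1) (hv' : (mt g).coef b (trans (EV n) a b u) v' v' = 1) :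
    trL (EV n) (curvOp ((mt g).coef a) u v ^ k) =
      trL (EV n) (curvOp ((mt g).coef b) (trans (EV n) a b u) v' ^ k) := by
  have ha := (mt g).isMetricOn a
  have hb' := (mt g).isMetricOn b
  have hev : ∀ᶠ x in 𝓝 u, x ∈ (chartAt (EV n) a).target ∧
      (chartAt (EV n) a).symm x ∈ (chartAt (EV n) b).source := by
    have q1 : ∀ᶠ x in 𝓝 u, x ∈ (chartAt (EV n) a).target := ha.mem_nhds hu
    exact q1.and (((chartAt (EV n) a).continuousAt_symm hu).eventually_mem
      ((chartAt (EV n) b).open_source.mem_nhds hb))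
  rw [trL_trans ha hb' hu (τ := trans (EV n) a b)
    (hev.mono fun x hx => (chartAt (EV n) b).map_source hx.2)
    (hev.mono fun x hx => contDiffAt_trans a b hx.1 hx.2)
    (hev.mono fun x hx v w => (mt g).compat a b x hx.1 hx.2 v w) v k]
  refine trL_eq_of_unit hb' (locSymOn hs b) (negOn h b) ((chartAt (EV n) b).map_source hb) ?_ hv' k
  exact ((mt g).compat a b u hu hb v v).trans hv

theorem trL_const [ConnectedSpace M] (hn : 1 ≤ n)
    {g : RMetric (EV n) M} (h : NegCurvature g) (hs : LocSymmetric g) (k : ℕ) {a b : M}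
    {u u' v v' : EV n} (hu : u ∈ (chartAt (EV n) a).target) (hu' : u' ∈ (chartAt (EV n) b).target)
    (hv : (mt g).coef a u v v = 1) (hv' : (mt g).coef b u' v' v' = 1) :
    trL (EV n) (curvOp ((mt g).coef a) u v ^ k) =
      trL (EV n) (curvOp ((mt g).coef b) u' v' ^ k) := by
  have hmem : ∀ m : M, chartAt (EV n) m m ∈ (chartAt (EV n) m).target := fun m =>
    mem_chart_target (EV n) m
  choose V hV using fun m : M => exists_unit hn g m (hmem m)
  set T : M → ℝ := fun m => trL (EV n) (curvOp ((mt g).coef m) (chartAt (EV n) m m) (V m) ^ k)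
    with hT
  have h1 : ∀ (a : M) (u v : EV n), u ∈ (chartAt (EV n) a).target → (mt g).coef a u v v = 1 →
      trL (EV n) (curvOp ((mt g).coef a) u v ^ k) = T ((chartAt (EV n) a).symm u) := by
    intro a u v hu hv
    exact trL_chart h hs k (b := (chartAt (EV n) a).symm u) hu (mem_chart_source (EV n) _) hv
      (hV _)
  have h2 : IsLocallyConstant T := by
    rw [IsLocallyConstant.iff_eventually_eq]
    intro m
    have hm := (mt g).isMetricOn m
    obtain ⟨ε, hε, hball⟩ := Metric.isOpen_iff.1 hm.isOpen _ (hmem m)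
    have h3 : ∀ᶠ y in 𝓝 m, y ∈ (chartAt (EV n) m).source ∧
        chartAt (EV n) m y ∈ Metric.ball (chartAt (EV n) m m) ε := by
      have q1 : ∀ᶠ y in 𝓝 m, y ∈ (chartAt (EV n) m).source :=
        (chartAt (EV n) m).open_source.mem_nhds (mem_chart_source (EV n) m)
      exact q1.and (((chartAt (EV n) m).continuousAt (mem_chart_source (EV n) m)).eventually_mem
        (Metric.ball_mem_nhds _ hε))
    filter_upwards [h3] with y hy
    have hy2 : chartAt (EV n) m y ∈ (chartAt (EV n) m).target := (chartAt (EV n) m).map_source hy.1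
    obtain ⟨w, hw⟩ := exists_unit hn g m hy2
    have e1 := h1 m _ w hy2 hw
    rw [(chartAt (EV n) m).left_inv hy.1] at e1
    rw [← e1]
    refine trL_eq_of_segment hm (locSymOn hs m) (negOn h m) (fun t ht => ?_) hw (hV m) k
    apply hball
    exact (convex_ball (chartAt (EV n) m m) ε).add_smul_sub_mem hy.2
      (Metric.mem_ball_self hε) ht
  rw [h1 a u v hu hv, h1 b u' v' hu' hv']
  exact h2.apply_eq_of_preconnectedSpace _ _

end Mfd

end Vale.Agent.P207.D1

namespace Vale.Agent.P207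

open Vale.Agent.P255 (RMetric coefIn Gam Riem IsGeo Metric Npc ExpSys toMetric geo expg cc curvOp)

/-- D1. For a locally symmetric metric of negative curvature the spectrum of the operators
`w ↦ R(w,v)v`, `v` a unit vector, does not depend on `v`. -/
theorem trace_pow_curvOp {n : ℕ} {M : Type} [TopologicalSpace M] [ChartedSpace (EV n) M]
    [IsManifold 𝓘(ℝ, EV n) ∞ M] [CompactSpace M] [T2Space M] [ConnectedSpace M] (hn : 2 ≤ n)
    {g : RMetric (EV n) M} (h : NegCurvature g) (hs : LocSymmetric g) (k : ℕ) {a b : M}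
    {u u' v v' : EV n} (hu : u ∈ (chartAt (EV n) a).target) (hu' : u' ∈ (chartAt (EV n) b).target)
    (hv : (mt g).coef a u v v = 1) (hv' : (mt g).coef b u' v' v' = 1) :
    LinearMap.trace ℝ (EV n) ((curvOp ((mt g).coef a) u v : EV n →ₗ[ℝ] EV n) ^ k) =
      LinearMap.trace ℝ (EV n) ((curvOp ((mt g).coef b) u' v' : EV n →ₗ[ℝ] EV n) ^ k) := by
  have h1 := D1.trL_const (by omega) h hs k hu hu' hv hv'
  rw [D1.trL_apply, D1.trL_apply, ContinuousLinearMap.toLinearMap_pow,
    ContinuousLinearMap.toLinearMap_pow] at h1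
  exact h1

end Vale.Agent.P207
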