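import Vale.Agent.P207.BlkD20
import Vale.Agent.P207.BlkD1

/-!
# P207, block D2: the Jacobian of the exponential map of a locally symmetric metric
-/

open scoped Manifold ContDiff ENNReal Topology
open Bundle MeasureTheory Set Filter

set_option maxSynthPendingDepth 3

noncomputable section

namespace Vale.Agent.P207

open Vale.Agent.P255 (RMetric coefIn Gam Riem IsGeo Metric Npc ExpSys toMetric geo expg cc curvOp
  curv chris IsMetricOn)

variable {n : ℕ} {M : Type} [TopologicalSpace M] [ChartedSpace (EV n) M]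
  [IsManifold 𝓘(ℝ, EV n) ∞ M]

namespace D2

theorem coefIn_eq (g : RMetric (EV n) M) (a : M) (u v w : EV n) :
    coefIn g a u v w = (mt g).coef a u v w := rfl

theorem sym_of_locSymmetric {g : RMetric (EV n) M} (hs : LocSymmetric g) : Sym (mt g) := by
  intro a u hu w x y z
  have hm := (mt g).isMetricOn' a
  have hF : ∀ u ∈ (chartAt (EV n) a).target, ∀ v w, coefIn g a u v w = (mt g).coef a u v w :=
    fun u _ v w => rfl
  have h := hs a u hu w x y z
  have hR : ∀ p ∈ (chartAt (EV n) a).target, ∀ x y z,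
      Riem (coefIn g a) p x y z = curv ((mt g).coef a) p x y z :=
    fun p hp x y z => P255.riem_eq hm hF hp x y z
  have hG : ∀ v w, Gam (coefIn g a) u v w = chris ((mt g).coef a) u v w :=
    fun v w => P255.gam_eq hm hF hu v w
  have e : (fun p => Riem (coefIn g a) p x y z) =ᶠ[𝓝 u] fun p => curv ((mt g).coef a) p x y z := by
    filter_upwards [hm.isOpen.mem_nhds hu] with p hp using hR p hp x y z
  rw [e.fderiv_eq] at h
  simp only [hG, hR u hu] at h
  exact h

theorem curv_neg {g : RMetric (EV n) M} (h : NegCurvature g) {a : M} {u : EV n}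
    (hu : u ∈ (chartAt (EV n) a).target) {v w : EV n} (hvw : LinearIndependent ℝ ![v, w]) :
    (mt g).coef a u (curvOp ((mt g).coef a) u w v) v < 0 := by
  have hm := (mt g).isMetricOn' a
  have hF : ∀ u ∈ (chartAt (EV n) a).target, ∀ v w, coefIn g a u v w = (mt g).coef a u v w :=
    fun u _ v w => rfl
  have := h a u hu v w hvw
  rw [P255.riem_eq hm hF hu] at this
  rw [hm.curvOp_apply hu]
  exact this

theorem curv_nonpos {g : RMetric (EV n) M} (h : NegCurvature g) {a : M} {u : EV n}
    (hu : u ∈ (chartAt (EV n) a).target) (v w : EV n) :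
    (mt g).coef a u (curvOp ((mt g).coef a) u w v) v ≤ 0 := by
  by_cases hvw : LinearIndependent ℝ ![v, w]
  · exact (curv_neg h hu hvw).le
  · have hm := (mt g).isMetricOn' a
    rw [hm.curvOp_apply hu, ← curvT_apply hm hu]
    rw [LinearIndependent.pair_iff] at hvw
    push Not at hvw
    obtain ⟨s, t, hst, hne⟩ := hvw
    by_cases hs : s = 0
    · have ht : t ≠ 0 := hne hs
      subst hs
      rw [zero_smul, zero_add] at hst
      have hw : w = 0 := (smul_eq_zero.1 hst).resolve_left ht
      subst hw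
      simp
    · have hv : v = (-(t / s)) • w := by
        have h1 : s • v = -(t • w) := eq_neg_of_add_eq_zero_left hst
        have h2 := congrArg (fun x => s⁻¹ • x) h1
        simp only [smul_smul, inv_mul_cancel₀ hs, one_smul, smul_neg] at h2
        rw [h2, neg_smul, div_eq_inv_mul]
      rw [hv]
      have h1 : curvT ((mt g).coef a) u w w = 0 := by
        refine ContinuousLinearMap.ext fun z => ?_
        have h2 := curv_anti hm hu w w z
        rw [← curvT_apply hm hu] at h2
        have h3 : (2 : ℝ) • curvT ((mt g).coef a) u w w z = 0 := by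
          rw [two_smul]
          nth_rewrite 1 [h2]
          exact neg_add_cancel _
        exact (smul_eq_zero.1 h3).resolve_left two_ne_zero
      simp [h1]

theorem sn_le {μ : ℝ} (hμ : 0 ≤ μ) : sn μ 1 ≤ Real.exp μ := by
  unfold sn
  by_cases h : μ = 0
  · simp [h]
  · simp only [h, if_false, mul_one]
    have hμ' : 0 < μ := lt_of_le_of_ne hμ (Ne.symm h)
    rw [div_le_iff₀ hμ', Real.sinh_eq]
    have h1 := Real.add_one_le_exp (-(2 * μ))
    have h2 : Real.exp (-μ) = Real.exp μ * Real.exp (-(2 * μ)) := by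
      rw [← Real.exp_add]; congr 1; ring
    have h3 := mul_le_mul_of_nonneg_left h1 (Real.exp_pos μ).le
    rw [h2]
    nlinarith

theorem le_sn {μ : ℝ} (hμ : 0 ≤ μ) : Real.exp μ / (1 + 2 * μ) ≤ sn μ 1 := by
  unfold sn
  by_cases h : μ = 0
  · simp [h]
  · simp only [h, if_false, mul_one]
    have hμ' : 0 < μ := lt_of_le_of_ne hμ (Ne.symm h)
    rw [div_le_div_iff₀ (by linarith) hμ', Real.sinh_eq]
    have h1 := Real.add_one_le_exp (2 * μ)
    have h2 : Real.exp μ = Real.exp (-μ) * Real.exp (2 * μ) := by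
      rw [← Real.exp_add]; congr 1; ring
    have h3 := mul_le_mul_of_nonneg_left h1 (Real.exp_pos (-μ)).le
    rw [← h2] at h3
    nlinarith

variable [CompactSpace M] [T2Space M]

/-- the Jacobian of `exp_m` at `v` in terms of an orthonormal eigenbasis of `R(·,v)v` -/
theorem jac_eq {g : RMetric (EV n) M} (hs : Sym (mt g)) {m : M} {v : EV n}
    (b : Module.Basis (Fin n) ℝ (EV n)) {μ : Fin n → ℝ} (hμ : ∀ i, 0 ≤ μ i)
    (hb : ∀ i j, (mt g).ip m (b i) (b j) = if i = j then 1 else 0)
    (he : ∀ i, curvOp ((mt g).coef m) (chartAt (EV n) m m) v (b i) = -(μ i ^ 2 • b i)) :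
    jac g m v = dens0 g m * ∏ i, sn (μ i) 1 := by
  set x := expg (mt g) m v with hx
  set D := fderiv ℝ (fun w => chartAt (EV n) x (expg (mt g) m w)) v with hD
  set Γ₁ : Matrix (Fin n) (Fin n) ℝ := Matrix.of fun i j : Fin n =>
    (mt g).coef x (chartAt (EV n) x x) (EuclideanSpace.single i 1) (EuclideanSpace.single j 1)
    with hΓ₁
  set Γ₀ : Matrix (Fin n) (Fin n) ℝ := Matrix.of fun i j : Fin n =>
    (mt g).coef m (chartAt (EV n) m m) (EuclideanSpace.single i 1) (EuclideanSpace.single j 1)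
    with hΓ₀
  set e := (EuclideanSpace.basisFun (Fin n) ℝ).toBasis with hee
  have hei : ∀ i, e i = EuclideanSpace.single i (1 : ℝ) := by intro i; simp [hee]
  set L₀ : EV n →L[ℝ] EV n := LinearMap.toContinuousLinearMap (e.constr ℝ b) with hL₀
  have hL : ∀ i, L₀ (EuclideanSpace.single i 1) = b i := by
    intro i
    rw [← hei, hL₀]
    simp
  have hsrc : x ∈ (chartAt (EV n) x).source := mem_chart_source (EV n) x
  -- the two Gram determinants
  have hA := det_gram ((mt g).coef x (chartAt (EV n) x x)) (D ∘L L₀)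
  have hB := det_gram ((mt g).coef m (chartAt (EV n) m m)) L₀
  have hAm : (Matrix.of fun i j : Fin n => (mt g).coef x (chartAt (EV n) x x)
      ((D ∘L L₀) (EuclideanSpace.single i 1)) ((D ∘L L₀) (EuclideanSpace.single j 1))) =
      Matrix.diagonal fun i => sn (μ i) 1 ^ 2 := by
    ext i j
    rw [Matrix.of_apply, ContinuousLinearMap.comp_apply, ContinuousLinearMap.comp_apply, hL, hL,
      hD, hx, gram_exp (P255.isExp_expg (mt g)) hs (he i) (he j)
        (mem_chart_source (EV n) (expg (mt g) m v)), hb, Matrix.diagonal_apply]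
    split_ifs with hij
    · subst hij; ring
    · ring
  have hBm : (Matrix.of fun i j : Fin n => (mt g).coef m (chartAt (EV n) m m)
      (L₀ (EuclideanSpace.single i 1)) (L₀ (EuclideanSpace.single j 1))) = 1 := by
    ext i j
    rw [Matrix.of_apply, hL, hL, Matrix.one_apply]
    exact hb i j
  rw [hAm, Matrix.det_diagonal, Finset.prod_pow] at hA
  rw [hBm, Matrix.det_one] at hB
  have hdet : (D ∘L L₀).det = D.det * L₀.det := by
    exact LinearMap.det_comp _ _
  rw [hdet] at hA
  set P := ∏ i, sn (μ i) 1 with hP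
  have hPpos : 0 < P := Finset.prod_pos fun i _ => sn_pos (hμ i) one_pos
  have hL0 : L₀.det ^ 2 ≠ 0 := by
    intro h0
    rw [h0, zero_mul] at hB
    exact one_ne_zero hB
  have hL0' : 0 < L₀.det ^ 2 := lt_of_le_of_ne (sq_nonneg _) (Ne.symm hL0)
  have hB' : 1 = L₀.det ^ 2 * Γ₀.det := hB
  have hA' : P ^ 2 = (D.det * L₀.det) ^ 2 * Γ₁.det := hA
  have hΓ₀pos : 0 < Γ₀.det := by
    by_contra hc
    have := mul_nonpos_of_nonneg_of_nonpos hL0'.le (not_lt.1 hc)
    linarith
  have hΓ₁pos : 0 < Γ₁.det := by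
    by_contra hc
    have := mul_nonpos_of_nonneg_of_nonpos (sq_nonneg (D.det * L₀.det)) (not_lt.1 hc)
    have := pow_pos hPpos 2
    linarith
  have hj : jac g m v = |D.det| * Real.sqrt Γ₁.det := rfl
  have hd : dens0 g m = Real.sqrt Γ₀.det := rfl
  have h1 : D.det ^ 2 * Γ₁.det = Γ₀.det * P ^ 2 := by
    rw [hA']
    have : (D.det * L₀.det) ^ 2 * Γ₁.det = L₀.det ^ 2 * (D.det ^ 2 * Γ₁.det) := by ring
    rw [this, ← mul_assoc, mul_comm Γ₀.det, ← hB', one_mul]
  rw [hj, hd]
  rw [← Real.sqrt_sq_eq_abs, ← Real.sqrt_mul (sq_nonneg _), h1, Real.sqrt_mul hΓ₀pos.le,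
    Real.sqrt_sq hPpos.le]

omit [CompactSpace M] [T2Space M] in
/-- the eigenbases -/
theorem exists_basis {g : RMetric (EV n) M} (h : NegCurvature g) (m : M) (v : EV n) :
    ∃ (b : Module.Basis (Fin n) ℝ (EV n)) (l : Fin n → ℝ), (∀ i, 0 ≤ l i) ∧
      (∀ i j, (mt g).ip m (b i) (b j) = if i = j then 1 else 0) ∧
      (∀ i, curvOp ((mt g).coef m) (chartAt (EV n) m m) v (b i) = -(l i ^ 2 • b i)) ∧
      (∀ i, LinearIndependent ℝ ![b i, v] → 0 < l i) ∧
      ∀ k : ℕ, LinearMap.trace ℝ (EV n)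
        ((curvOp ((mt g).coef m) (chartAt (EV n) m m) v : EV n →ₗ[ℝ] EV n) ^ k) =
          ∑ i, (-(l i ^ 2)) ^ k := by
  have hm := (mt g).isMetricOn' m
  have hu : chartAt (EV n) m m ∈ (chartAt (EV n) m).target := mem_chart_target (EV n) m
  let B : EV n →ₗ[ℝ] EV n →ₗ[ℝ] ℝ :=
    ContinuousLinearMap.coeLM ℝ ∘ₗ ((mt g).ip m : EV n →ₗ[ℝ] EV n →L[ℝ] ℝ)
  have hBa : ∀ v w, B v w = (mt g).ip m v w := fun v w => rfl
  obtain ⟨b, x, hb, hx⟩ := exists_eigenbasis (n := n) (by simp) B
    (fun v w => hm.symm _ hu v w) (fun v hv => hm.pos _ hu v hv)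
    (curvOp ((mt g).coef m) (chartAt (EV n) m m) v : EV n →ₗ[ℝ] EV n)
    (fun x y => curvOp_symm hm hu v x y)
  have hxv : ∀ i, (mt g).coef m (chartAt (EV n) m m)
      (curvOp ((mt g).coef m) (chartAt (EV n) m m) v (b i)) (b i) = x i := by
    intro i
    have h1 := hx i
    have h2 := hb i i
    rw [if_pos rfl] at h2
    change curvOp ((mt g).coef m) (chartAt (EV n) m m) v (b i) = _ at h1
    rw [h1, map_smul, smul_apply, smul_eq_mul]
    change x i * (mt g).ip m (b i) (b i) = x i
    rw [← hBa, h2, mul_one]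
  have hx0 : ∀ i, x i ≤ 0 := by
    intro i
    rw [← hxv i]
    exact curv_nonpos h hu (b i) v
  have hsq : ∀ i, Real.sqrt (-x i) ^ 2 = -x i := fun i => Real.sq_sqrt (by linarith [hx0 i])
  refine ⟨b, fun i => Real.sqrt (-x i), fun i => Real.sqrt_nonneg _, hb, ?_, ?_, ?_⟩
  · intro i
    have h1 := hx i
    change curvOp ((mt g).coef m) (chartAt (EV n) m m) v (b i) = _ at h1
    rw [h1, hsq, neg_smul, neg_neg]
  · intro i hi
    have := curv_neg h hu hi
    rw [hxv i] at this
    exact Real.sqrt_pos.2 (by linarith)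
  · intro k
    rw [trace_pow_eigen b _ x hx k]
    refine Finset.sum_congr rfl fun i _ => ?_
    rw [hsq, neg_neg]

omit [CompactSpace M] [T2Space M] in
theorem exists_unit (hn : 1 ≤ n) (g : RMetric (EV n) M) (m : M) (v : EV n) :
    ∃ w : EV n, (mt g).ip m w w = 1 ∧ v = nm g m v • w := by
  have hm := (mt g).isMetricOn' m
  have hu : chartAt (EV n) m m ∈ (chartAt (EV n) m).target := mem_chart_target (EV n) m
  have key : ∀ v : EV n, v ≠ 0 → ∃ w : EV n, (mt g).ip m w w = 1 ∧ v = nm g m v • w := by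
    intro v hv
    have h0 : 0 < (mt g).ip m v v := hm.pos _ hu v hv
    have h1 : 0 < nm g m v := Real.sqrt_pos.2 h0
    have h2 : nm g m v * nm g m v = (mt g).ip m v v := Real.mul_self_sqrt h0.le
    refine ⟨(nm g m v)⁻¹ • v, ?_, by rw [smul_smul, mul_inv_cancel₀ h1.ne', one_smul]⟩
    simp only [map_smul, smul_apply, smul_eq_mul]
    rw [← h2]
    field_simp
  by_cases hv : v = 0
  · subst hv
    obtain ⟨w, hw, -⟩ := key (EuclideanSpace.single ⟨0, hn⟩ 1) (by
      intro h0
      have := congrArg (fun e : EV n => e ⟨0, hn⟩) h0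
      simp at this)
    exact ⟨w, hw, by simp [nm]⟩
  · exact key v hv

end D2

open D2

variable [CompactSpace M] [T2Space M]

/-- D2. The Jacobian of the exponential map of a locally symmetric metric of negative curvature;
`htr` is the conclusion of D1 (`trace_pow_curvOp`). -/
theorem exists_jac_bounds_of_trace [Nonempty M] (hn : 2 ≤ n) {g : RMetric (EV n) M}
    (h : NegCurvature g) (hs : LocSymmetric g)
    (htr : ∀ (k : ℕ) (m m' : M) (v v' : EV n), (mt g).ip m v v = 1 → (mt g).ip m' v' v' = 1 →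
      LinearMap.trace ℝ (EV n)
        ((curvOp ((mt g).coef m) (chartAt (EV n) m m) v : EV n →ₗ[ℝ] EV n) ^ k) =
      LinearMap.trace ℝ (EV n)
        ((curvOp ((mt g).coef m') (chartAt (EV n) m' m') v' : EV n →ₗ[ℝ] EV n) ^ k)) :
    ∃ H c : ℝ, 0 < H ∧ 0 < c ∧ ∀ (m : M) (v : EV n),
      c * dens0 g m * Real.exp (H * nm g m v) / (1 + nm g m v) ^ n ≤ jac g m v ∧
      jac g m v ≤ dens0 g m * Real.exp (H * nm g m v) := by
  obtain ⟨m₀⟩ : Nonempty M := ‹_›
  obtain ⟨v₀, hv₀, -⟩ := exists_unit (by omega) g m₀ 0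
  obtain ⟨b₀, l₀, hl₀, hb₀, he₀, hp₀, ht₀⟩ := exists_basis h m₀ v₀
  set H := ∑ i, l₀ i with hH
  have hHpos : 0 < H := by
    have hex : ∃ i, LinearIndependent ℝ ![b₀ i, v₀] := by
      by_contra hcon
      push Not at hcon
      have hv0 : v₀ ≠ 0 := by
        intro h0
        rw [h0] at hv₀
        simp at hv₀
      have hpar : ∀ i, ∃ r : ℝ, b₀ i = r • v₀ := by
        intro i
        have := hcon i
        rw [LinearIndependent.pair_iff] at this
        push Not at this
        obtain ⟨s, t, hst, hne⟩ := this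
        by_cases hs0 : s = 0
        · subst hs0
          rw [zero_smul, zero_add] at hst
          exact absurd ((smul_eq_zero.1 hst).resolve_left (hne rfl)) hv0
        · refine ⟨-(t / s), ?_⟩
          have h1 : s • b₀ i = -(t • v₀) := eq_neg_of_add_eq_zero_left hst
          have h2 := congrArg (fun x => s⁻¹ • x) h1
          simp only [smul_smul, inv_mul_cancel₀ hs0, one_smul, smul_neg] at h2
          rw [h2, neg_smul, div_eq_inv_mul]
      obtain ⟨r, hr⟩ := hpar ⟨0, by omega⟩
      obtain ⟨r', hr'⟩ := hpar ⟨1, by omega⟩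
      have h1 := hb₀ ⟨0, by omega⟩ ⟨0, by omega⟩
      have h2 := hb₀ ⟨1, by omega⟩ ⟨1, by omega⟩
      have h3 := hb₀ ⟨0, by omega⟩ ⟨1, by omega⟩
      rw [hr] at h1
      rw [hr'] at h2
      rw [hr, hr'] at h3
      simp only [map_smul, smul_apply, smul_eq_mul, hv₀, if_true] at h1 h2
      rw [if_neg (by simp)] at h3
      simp only [map_smul, smul_apply, smul_eq_mul, hv₀] at h3
      have h4 : r * r' = 0 := by linarith
      rcases mul_eq_zero.1 h4 with h5 | h5
      · rw [h5] at h1; linarith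
      · rw [h5] at h2; linarith
    obtain ⟨i, hi⟩ := hex
    exact Finset.sum_pos' (fun i _ => hl₀ i) ⟨i, Finset.mem_univ i, hp₀ i hi⟩
  refine ⟨H, ((1 + 2 * H) ^ n)⁻¹, hHpos, by positivity, ?_⟩
  intro m v
  obtain ⟨w, hw, hvw⟩ := exists_unit (by omega) g m v
  set T := nm g m v with hT
  have hT0 : 0 ≤ T := Real.sqrt_nonneg _
  obtain ⟨b, l, hl, hb, he, -, ht⟩ := exists_basis h m w
  have hm := (mt g).isMetricOn' m
  have hu : chartAt (EV n) m m ∈ (chartAt (EV n) m).target := mem_chart_target (EV n) m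
  -- the sums of the `l i`
  have hsum : ∑ i, l i = H := by
    have h1 : ∀ k : ℕ, ∑ i, (-(l i ^ 2)) ^ k = ∑ i, (-(l₀ i ^ 2)) ^ k := by
      intro k
      rw [← ht k, ← ht₀ k]
      exact htr k m m₀ w v₀ hw hv₀
    have h2 := sum_eq_of_powerSums (fun i => -(l i ^ 2)) (fun i => -(l₀ i ^ 2)) h1
      (fun s => Real.sqrt (-s))
    simp only [neg_neg, Real.sqrt_sq (hl _), Real.sqrt_sq (hl₀ _)] at h2
    exact h2
  have hcurv : ∀ i, curvOp ((mt g).coef m) (chartAt (EV n) m m) v (b i)
      = -((T * l i) ^ 2 • b i) := by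
    intro i
    have h1 := he i
    rw [hm.curvOp_apply hu] at h1 ⊢
    rw [← curvT_apply hm hu] at h1 ⊢
    rw [hvw]
    simp only [map_smul, smul_apply]
    rw [h1, smul_neg, smul_neg, smul_smul, smul_smul]
    congr 2
    ring
  have hj := jac_eq (sym_of_locSymmetric hs) b (fun i => mul_nonneg hT0 (hl i)) hb hcurv
  have hd0 : 0 ≤ dens0 g m := Real.sqrt_nonneg _
  have hexp : ∏ i, Real.exp (T * l i) = Real.exp (H * T) := by
    rw [← Real.exp_sum, ← Finset.mul_sum, hsum, mul_comm]
  rw [hj]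
  constructor
  · have h1 : Real.exp (H * T) / ((1 + 2 * H) * (1 + T)) ^ n ≤ ∏ i, sn (T * l i) 1 := by
      have h2 : ∏ i : Fin n, Real.exp (T * l i) / ((1 + 2 * H) * (1 + T)) ≤
          ∏ i, sn (T * l i) 1 := by
        refine Finset.prod_le_prod (fun i _ => by positivity) fun i _ => ?_
        refine le_trans ?_ (le_sn (mul_nonneg hT0 (hl i)))
        refine div_le_div_of_nonneg_left (Real.exp_pos _).le ?_ ?_
        · have := mul_nonneg hT0 (hl i)
          linarith
        · have h3 : l i ≤ H := by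
            rw [← hsum]
            exact Finset.single_le_sum (f := l) (fun j _ => hl j) (Finset.mem_univ i)
          have h4 := mul_le_mul_of_nonneg_left h3 hT0
          nlinarith
      rw [Finset.prod_div_distrib, hexp, Finset.prod_const, Finset.card_univ,
        Fintype.card_fin] at h2
      exact h2
    have h5 := mul_le_mul_of_nonneg_left h1 hd0
    refine le_trans (le_of_eq ?_) h5
    rw [mul_pow]
    field_simp
  · refine mul_le_mul_of_nonneg_left ?_ hd0
    rw [← hexp]
    refine Finset.prod_le_prod (fun i _ => ?_) fun i _ => sn_le (mul_nonneg hT0 (hl i))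
    rcases (mul_nonneg hT0 (hl i)).eq_or_lt with h0 | h0
    · rw [← h0]; simp [sn]
    · exact (sn_pos h0.le one_pos).le

/-- D2. The Jacobian of the exponential map of a locally symmetric metric of negative curvature. -/
theorem exists_jac_bounds [ConnectedSpace M] (hn : 2 ≤ n) {g : RMetric (EV n) M}
    (h : NegCurvature g) (hs : LocSymmetric g) :
    ∃ H c : ℝ, 0 < H ∧ 0 < c ∧ ∀ (m : M) (v : EV n),
      c * dens0 g m * Real.exp (H * nm g m v) / (1 + nm g m v) ^ n ≤ jac g m v ∧
      jac g m v ≤ dens0 g m * Real.exp (H * nm g m v) :=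
  exists_jac_bounds_of_trace hn h hs fun k m m' v v' hv hv' =>
    trace_pow_curvOp hn h hs k (mem_chart_target (EV n) m) (mem_chart_target (EV n) m') hv hv'

end Vale.Agent.P207
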