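import Vale.Agent.P207.BaseD

/-!
# P207, block D2, first part (no use of D1): curvature tensor in coordinates (trilinearity, Bianchi
identity, pair symmetry, derivative along curves), Jacobi fields of locally symmetric metrics, the
differential of the exponential map on the eigenspaces of `R(·,v)v`, linear algebra
-/

open scoped Manifold ContDiff Topology
open Set Filter

set_option maxSynthPendingDepth 3

noncomputable section

namespace Vale.Agent.P207.D2

section PartA

open Vale.Agent.P255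

variable {E : Type} [NormedAddCommGroup E] [NormedSpace ℝ E]

/-- the curvature tensor as a trilinear map -/
def curvT (G : E → E →L[ℝ] E →L[ℝ] ℝ) (u : E) : E →L[ℝ] E →L[ℝ] E →L[ℝ] E :=
  fderiv ℝ (chrisB G) u - (fderiv ℝ (chrisB G) u).flip
    + (ContinuousLinearMap.compL ℝ E (E →L[ℝ] E) (E →L[ℝ] E)).flip (chrisB G u) ∘L
        ((ContinuousLinearMap.compL ℝ E E E) ∘L (chrisB G u))
    - ((ContinuousLinearMap.compL ℝ E (E →L[ℝ] E) (E →L[ℝ] E)).flip (chrisB G u) ∘L
        ((ContinuousLinearMap.compL ℝ E E E) ∘L (chrisB G u))).flip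

variable [FiniteDimensional ℝ E] {G : E → E →L[ℝ] E →L[ℝ] ℝ} {U : Set E}

theorem curvT_apply (h : IsMetricOn G U) {u : E} (hu : u ∈ U) (x y z : E) :
    curvT G u x y z = curv G u x y z := by
  rw [h.curv_eq hu]
  simp [curvT]

theorem contDiffAt_curvT (h : IsMetricOn G U) {u : E} (hu : u ∈ U) :
    ContDiffAt ℝ ∞ (curvT G) u := by
  have hB := h.contDiffAt_chrisB hu
  have hA : ContDiffAt ℝ ∞ (fderiv ℝ (chrisB G)) u := hB.fderiv_right (m := ∞) (by simp)
  have hAf : ContDiffAt ℝ ∞ (fun u => (fderiv ℝ (chrisB G) u).flip) u :=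
    ((ContinuousLinearMap.flipₗᵢ ℝ E E (E →L[ℝ] E)).toContinuousLinearEquiv.contDiff.contDiffAt).comp
      u hA
  have hC : ContDiffAt ℝ ∞ (fun u =>
      (ContinuousLinearMap.compL ℝ E (E →L[ℝ] E) (E →L[ℝ] E)).flip (chrisB G u) ∘L
        ((ContinuousLinearMap.compL ℝ E E E) ∘L (chrisB G u))) u := by
    refine ContDiffAt.clm_comp ?_ (contDiffAt_const.clm_comp hB)
    exact ((ContinuousLinearMap.compL ℝ E (E →L[ℝ] E) (E →L[ℝ] E)).flip).contDiff.contDiffAt.comp
      u hB
  have hCf := ((ContinuousLinearMap.flipₗᵢ ℝ E E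
    (E →L[ℝ] E)).toContinuousLinearEquiv.contDiff.contDiffAt).comp u hC
  exact ((hA.sub hAf).add hC).sub hCf

theorem fderiv_curv (h : IsMetricOn G U) {u : E} (hu : u ∈ U) (x y z w : E) :
    fderiv ℝ (fun p => curv G p x y z) u w = fderiv ℝ (curvT G) u w x y z := by
  have hd : DifferentiableAt ℝ (curvT G) u := (contDiffAt_curvT h hu).differentiableAt (by simp)
  have e : (fun p => curv G p x y z) =ᶠ[𝓝 u] fun p => curvT G p x y z := by
    filter_upwards [h.isOpen.mem_nhds hu] with p hp using (curvT_apply h hp x y z).symm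
  rw [e.fderiv_eq, (((hd.hasFDerivAt.clm_apply (hasFDerivAt_const x u)).clm_apply
    (hasFDerivAt_const y u)).clm_apply (hasFDerivAt_const z u)).fderiv]
  simp

/-- derivative of `R(X,Y)Z` along a curve -/
theorem hasDerivAt_curv (h : IsMetricOn G U) {c X Y Z : ℝ → E} {c' X' Y' Z' : E} {t : ℝ}
    (ht : c t ∈ U) (hc : HasDerivAt c c' t) (hX : HasDerivAt X X' t) (hY : HasDerivAt Y Y' t)
    (hZ : HasDerivAt Z Z' t) :
    HasDerivAt (fun s => curv G (c s) (X s) (Y s) (Z s))
      (fderiv ℝ (fun p => curv G p (X t) (Y t) (Z t)) (c t) c' + curv G (c t) X' (Y t) (Z t)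
        + curv G (c t) (X t) Y' (Z t) + curv G (c t) (X t) (Y t) Z') t := by
  have hd : DifferentiableAt ℝ (curvT G) (c t) :=
    (contDiffAt_curvT h ht).differentiableAt (by simp)
  have h1 : HasDerivAt (fun s => curvT G (c s)) (fderiv ℝ (curvT G) (c t) c') t :=
    hd.hasFDerivAt.comp_hasDerivAt t hc
  have h2 := ((h1.clm_apply hX).clm_apply hY).clm_apply hZ
  have e : (fun s => curv G (c s) (X s) (Y s) (Z s)) =ᶠ[𝓝 t]
      fun s => curvT G (c s) (X s) (Y s) (Z s) := by
    filter_upwards [hc.continuousAt.eventually (h.isOpen.mem_nhds ht)] with s hs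
    exact (curvT_apply h hs _ _ _).symm
  refine (h2.congr_of_eventuallyEq e).congr_deriv ?_
  rw [fderiv_curv h ht]
  simp only [← curvT_apply h ht, add_apply]

/-- the covariant derivative of the field `R(X,Y)Z` along a curve, when `∇R = 0` -/
theorem covD_curv (h : IsMetricOn G U) {c X Y Z : ℝ → E} {t : ℝ} (ht : c t ∈ U)
    (hc : DifferentiableAt ℝ c t) (hX : DifferentiableAt ℝ X t) (hY : DifferentiableAt ℝ Y t)
    (hZ : DifferentiableAt ℝ Z t)
    (hs : ∀ w x y z : E, fderiv ℝ (fun p => curv G p x y z) (c t) w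
      + chris G (c t) w (curv G (c t) x y z) - curv G (c t) (chris G (c t) w x) y z
      - curv G (c t) x (chris G (c t) w y) z - curv G (c t) x y (chris G (c t) w z) = 0) :
    covD G c (fun s => curv G (c s) (X s) (Y s) (Z s)) t =
      curv G (c t) (covD G c X t) (Y t) (Z t) + curv G (c t) (X t) (covD G c Y t) (Z t)
        + curv G (c t) (X t) (Y t) (covD G c Z t) := by
  have h1 := hasDerivAt_curv h ht hc.hasDerivAt hX.hasDerivAt hY.hasDerivAt hZ.hasDerivAt
  have h2 := hs (deriv c t) (X t) (Y t) (Z t)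
  rw [covD, h1.deriv]
  have h3 : fderiv ℝ (fun p => curv G p (X t) (Y t) (Z t)) (c t) (deriv c t)
      = - chris G (c t) (deriv c t) (curv G (c t) (X t) (Y t) (Z t))
        + curv G (c t) (chris G (c t) (deriv c t) (X t)) (Y t) (Z t)
        + curv G (c t) (X t) (chris G (c t) (deriv c t) (Y t)) (Z t)
        + curv G (c t) (X t) (Y t) (chris G (c t) (deriv c t) (Z t)) := by
    have := sub_eq_zero.1 h2
    rw [← sub_eq_zero]
    rw [← h2]
    abel
  rw [h3]
  simp only [covD, ← curvT_apply h ht, map_add, add_apply]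
  abel

theorem chrisB_symm (h : IsMetricOn G U) {u : E} (hu : u ∈ U) (x y : E) :
    chrisB G u x y = chrisB G u y x := by
  rw [chrisB_apply, chrisB_apply, h.chris_symm hu]

theorem fderiv_chrisB_symm (h : IsMetricOn G U) {u : E} (hu : u ∈ U) (w x y : E) :
    fderiv ℝ (chrisB G) u w x y = fderiv ℝ (chrisB G) u w y x := by
  rw [← h.fderiv_chris hu, ← h.fderiv_chris hu]
  have e : (fun p => chris G p x y) =ᶠ[𝓝 u] fun p => chris G p y x := by
    filter_upwards [h.isOpen.mem_nhds hu] with p hp using h.chris_symm hp x y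
  rw [e.fderiv_eq]

theorem curv_anti (h : IsMetricOn G U) {u : E} (hu : u ∈ U) (x y z : E) :
    curv G u x y z = - curv G u y x z := by
  rw [h.curv_eq hu, h.curv_eq hu]; abel

theorem curv_bianchi (h : IsMetricOn G U) {u : E} (hu : u ∈ U) (x y z : E) :
    curv G u x y z + curv G u y z x + curv G u z x y = 0 := by
  rw [h.curv_eq hu, h.curv_eq hu, h.curv_eq hu]
  rw [fderiv_chrisB_symm h hu x y z, fderiv_chrisB_symm h hu y z x, fderiv_chrisB_symm h hu z x y,
    chrisB_symm h hu y z, chrisB_symm h hu z x, chrisB_symm h hu x y]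
  abel

theorem curv_skew' (h : IsMetricOn G U) {u : E} (hu : u ∈ U) (x y z w : E) :
    G u (curv G u x y z) w = - G u (curv G u x y w) z := by
  have h1 := h.curv_skew hu x y (z + w)
  have h2 := h.curv_skew hu x y z
  have h3 := h.curv_skew hu x y w
  rw [← curvT_apply h hu] at h1 h2 h3
  rw [← curvT_apply h hu, ← curvT_apply h hu]
  simp only [map_add, add_apply] at h1
  linarith

/-- pair symmetry -/
theorem curv_pair (h : IsMetricOn G U) {u : E} (hu : u ∈ U) (x y z w : E) :
    G u (curv G u x y z) w = G u (curv G u z w x) y := by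
  have hb : ∀ x y z w : E, G u (curv G u x y z) w + G u (curv G u y z x) w
      + G u (curv G u z x y) w = 0 := by
    intro x y z w
    have := congrArg (fun e => G u e w) (curv_bianchi h hu x y z)
    simpa only [map_add, add_apply, map_zero, zero_apply] using this
  have ha : ∀ x y z w : E, G u (curv G u x y z) w = - G u (curv G u y x z) w := by
    intro x y z w
    rw [curv_anti h hu x y z]
    simp
  have hs := curv_skew' h hu
  linarith [hb x y z w, hb y z w x, hb z w x y, hb w x y z, hs x y z w, hs y z x w, hs z x y w,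
    hs y z w x, hs z w y x, hs w y z x, hs z w x y, hs w x z y, hs x z w y, hs w x y z, hs x y w z,
    hs y w x z, ha x y z w, ha y z x w, ha z x y w, ha y z w x, ha z w y x, ha w y z x, ha z w x y,
    ha w x z y, ha x z w y, ha w x y z, ha x y w z, ha y w x z]

/-- the operator `w ↦ R(w,v)v` is symmetric -/
theorem curvOp_symm (h : IsMetricOn G U) {u : E} (hu : u ∈ U) (v x y : E) :
    G u (curvOp G u v x) y = G u x (curvOp G u v y) := by
  rw [h.curvOp_apply hu, h.curvOp_apply hu, curv_pair h hu, curv_anti h hu, h.symm u hu x]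
  rw [map_neg, neg_apply, curv_skew' h hu, neg_neg]

end PartA

section PartB

open Vale.Agent.P255

variable {E : Type} [NormedAddCommGroup E] [NormedSpace ℝ E] [FiniteDimensional ℝ E]
variable {M : Type} [TopologicalSpace M] [ChartedSpace E M]

/-- `∇R = 0` in the form used here -/
def Sym (g : Metric E M) : Prop :=
  ∀ a : M, ∀ u ∈ (chartAt E a).target, ∀ w x y z : E,
    fderiv ℝ (fun p => curv (g.coef a) p x y z) u w
      + chris (g.coef a) u w (curv (g.coef a) u x y z)
      - curv (g.coef a) u (chris (g.coef a) u w x) y z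
      - curv (g.coef a) u x (chris (g.coef a) u w y) z
      - curv (g.coef a) u x y (chris (g.coef a) u w z) = 0

/-- the covariant derivative, in all charts, of a field along a curve -/
def cov (g : Metric E M) (γ : ℝ → M) (X : M → ℝ → E) (a : M) (t : ℝ) : E :=
  covD (g.coef a) (cc γ a) (X a) t

theorem cov_compat [IsManifold 𝓘(ℝ, E) ∞ M] {g : Metric E M} {γ : ℝ → M} (hγ : Continuous γ)
    (hd : ∀ a t, γ t ∈ (chartAt E a).source → DifferentiableAt ℝ (cc (E := E) γ a) t)
    {X : M → ℝ → E} (hX : Compat γ X)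
    (hXd : ∀ a t, γ t ∈ (chartAt E a).source → DifferentiableAt ℝ (X a) t) :
    Compat γ (cov g γ X) := by
  intro a b t ha hb
  have hm := g.isMetricOn' a
  have hm' := g.isMetricOn' b
  set τ := trans E a b with hτ
  have hu : cc γ a t ∈ (chartAt E a).target := cc_mem ha
  have hb' : (chartAt E a).symm (cc γ a t) ∈ (chartAt E b).source := by rw [symm_cc ha]; exact hb
  have hτc : ContDiffAt ℝ ∞ τ (cc γ a t) := contDiffAt_trans a b hu hb'
  have hτ0 : DifferentiableAt ℝ τ (cc γ a t) := hτc.differentiableAt (by simp)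
  have hτ' : DifferentiableAt ℝ (fderiv ℝ τ) (cc γ a t) :=
    (hτc.fderiv_right (m := ∞) (by simp)).differentiableAt (by simp)
  have hiso : ∀ᶠ x in 𝓝 (cc γ a t), ∀ v w, g.coef b (τ x) (fderiv ℝ τ x v) (fderiv ℝ τ x w)
      = g.coef a x v w := by
    filter_upwards [eventually_trans a b hu hb'] with x hx
    exact g.compat a b x hx.1 hx.2
  -- both sides in terms of the chart at `a`
  have hev : ∀ᶠ s in 𝓝 t, γ s ∈ (chartAt E a).source ∧ γ s ∈ (chartAt E b).source :=
    (eventually_mem_source hγ.continuousAt ha).and (eventually_mem_source hγ.continuousAt hb)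
  have eX : X b =ᶠ[𝓝 t] fun s => fderiv ℝ τ (cc γ a s) (X a s) := by
    filter_upwards [hev] with s hs
    exact hX a b s hs.1 hs.2
  have ec : cc (E := E) γ b =ᶠ[𝓝 t] fun s => τ (cc γ a s) := by
    filter_upwards [hev] with s hs
    exact (trans_cc hs.1).symm
  have d1 : HasDerivAt (fun s => fderiv ℝ τ (cc γ a s))
      (fderiv ℝ (fderiv ℝ τ) (cc γ a t) (deriv (cc γ a) t)) t :=
    hτ'.hasFDerivAt.comp_hasDerivAt t (hd a t ha).hasDerivAt
  have d2 := d1.clm_apply (hXd a t ha).hasDerivAt
  have d3 : HasDerivAt (fun s => τ (cc γ a s)) (fderiv ℝ τ (cc γ a t) (deriv (cc γ a) t)) t :=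
    hτ0.hasFDerivAt.comp_hasDerivAt t (hd a t ha).hasDerivAt
  change covD (g.coef b) (cc γ b) (X b) t = fderiv ℝ τ (cc γ a t) (covD (g.coef a) (cc γ a) (X a) t)
  have hcc : τ (cc γ a t) = cc γ b t := trans_cc ha
  have hu₂ : τ (cc γ a t) ∈ (chartAt E b).target := by
    rw [hcc]; exact cc_mem hb
  have hXt : X b t = fderiv ℝ τ (cc γ a t) (X a t) := hX a b t ha hb
  rw [covD, covD, eX.deriv_eq, d2.deriv, ec.deriv_eq, d3.deriv, map_add,
    hm.chris_trans hm' hu hu₂ hτc hiso, ← hcc, hXt]
  abel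

variable [IsManifold 𝓘(ℝ, E) ∞ M]

/-- the field `R(J,γ')γ'` along a geodesic -/
theorem covD_curv_vel {g : Metric E M} (hs : Sym g) {γ : ℝ → M} (h : IsGeodesic g γ)
    {a : M} {t : ℝ} (ha : γ t ∈ (chartAt E a).source) {X : ℝ → E} (hX : DifferentiableAt ℝ X t) :
    DifferentiableAt ℝ (fun s => curv (g.coef a) (cc γ a s) (X s) (vel γ a s) (vel γ a s)) t ∧
    covD (g.coef a) (cc γ a)
      (fun s => curv (g.coef a) (cc γ a s) (X s) (vel γ a s) (vel γ a s)) t =
      curv (g.coef a) (cc γ a t) (covD (g.coef a) (cc γ a) X t) (vel γ a t) (vel γ a t) := by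
  have hm := g.isMetricOn' a
  obtain ⟨h1, h2, -⟩ := h.eqn a t (mem_univ _) ha
  have hu : cc γ a t ∈ (chartAt E a).target := cc_mem ha
  refine ⟨(hasDerivAt_curv hm hu h1.hasDerivAt hX.hasDerivAt h2.hasDerivAt
    h2.hasDerivAt).differentiableAt, ?_⟩
  have h2' : DifferentiableAt ℝ (vel γ a) t := h2
  rw [covD_curv hm hu h1 hX h2' h2' (hs a _ hu), h.covD_vel ha]
  simp only [← curvT_apply hm hu, map_zero, zero_apply, add_zero]

/-- `R(J,γ')γ' + p J` is a Jacobi field if `J` is -/
theorem isJacobi_curv {g : Metric E M} (hs : Sym g) {γ : ℝ → M} (h : IsGeodesic g γ)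
    {J : M → ℝ → E} (hJ : IsJacobi g γ J) (p : ℝ) :
    IsJacobi g γ (fun a s => curv (g.coef a) (cc γ a s) (J a s) (vel γ a s) (vel γ a s)
      + p • J a s) := by
  have hdc : ∀ a t, γ t ∈ (chartAt E a).source → DifferentiableAt ℝ (cc (E := E) γ a) t :=
    fun a t ha => (h.eqn a t (mem_univ _) ha).1
  refine ⟨?_, ?_⟩
  · have hc1 := cov_compat (g := g) h.continuous hdc hJ.compat' fun a t ha => (hJ.eqn a t ha).1
    have hc2 := cov_compat (g := g) h.continuous hdc hc1 fun a t ha => (hJ.eqn a t ha).2.1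
    intro a b t ha hb
    have e1 := hc2 a b t ha hb
    have e2 := hJ.compat a b t ha hb
    have ea : curv (g.coef a) (cc γ a t) (J a t) (vel γ a t) (vel γ a t) =
        - cov g γ (cov g γ J) a t := (neg_eq_of_add_eq_zero_right (hJ.eqn a t ha).2.2).symm
    have eb : curv (g.coef b) (cc γ b t) (J b t) (vel γ b t) (vel γ b t) =
        - cov g γ (cov g γ J) b t := (neg_eq_of_add_eq_zero_right (hJ.eqn b t hb).2.2).symm
    simp only [ea, eb]
    rw [e1, e2, map_add, map_neg, map_smul]
  · intro a t ha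
    have hm := g.isMetricOn' a
    obtain ⟨j1, j2, j3⟩ := hJ.eqn a t ha
    have hsrc := eventually_mem_source h.continuous.continuousAt ha
    -- the field and its covariant derivative
    have key : ∀ (X : ℝ → E) (s : ℝ), γ s ∈ (chartAt E a).source → DifferentiableAt ℝ X s →
        DifferentiableAt ℝ (fun s => curv (g.coef a) (cc γ a s) (X s) (vel γ a s) (vel γ a s)
          + p • X s) s ∧
        covD (g.coef a) (cc γ a)
          (fun s => curv (g.coef a) (cc γ a s) (X s) (vel γ a s) (vel γ a s) + p • X s) s =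
          curv (g.coef a) (cc γ a s) (covD (g.coef a) (cc γ a) X s) (vel γ a s) (vel γ a s)
            + p • covD (g.coef a) (cc γ a) X s := by
      intro X s hsr hX
      obtain ⟨k1, k2⟩ := covD_curv_vel hs h hsr hX
      refine ⟨k1.add (hX.const_smul p), ?_⟩
      rw [← k2]
      have k3 := (k1.hasDerivAt.add (hX.hasDerivAt.const_smul p)).deriv
      simp only [covD]
      rw [show deriv (fun s => curv (g.coef a) (cc γ a s) (X s) (vel γ a s) (vel γ a s) + p • X s) s
        = _ from k3]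
      simp only [← chrisB_apply, map_add, map_smul, smul_add]
      abel
    obtain ⟨k1, k2⟩ := key (J a) t ha j1
    have k3 : covD (g.coef a) (cc γ a)
        (fun s => curv (g.coef a) (cc γ a s) (J a s) (vel γ a s) (vel γ a s) + p • J a s) =ᶠ[𝓝 t]
        fun s => curv (g.coef a) (cc γ a s) (covD (g.coef a) (cc γ a) (J a) s) (vel γ a s)
          (vel γ a s) + p • covD (g.coef a) (cc γ a) (J a) s := by
      filter_upwards [hsrc] with s hsr
      exact (key (J a) s hsr (hJ.eqn a s hsr).1).2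
    obtain ⟨k4, k5⟩ := key (covD (g.coef a) (cc γ a) (J a)) t ha j2
    refine ⟨k1, k4.congr_of_eventuallyEq k3, ?_⟩
    rw [covD_congr k3, k5]
    have j4 : covD (g.coef a) (cc γ a) (covD (g.coef a) (cc γ a) (J a)) t =
      - curv (g.coef a) (cc γ a t) (J a t) (vel γ a t) (vel γ a t) :=
        eq_neg_of_add_eq_zero_left j3
    rw [j4]
    change _ + curv (g.coef a) (cc γ a t) _ (vel γ a t) (vel γ a t) = 0
    have hu : cc γ a t ∈ (chartAt E a).target := cc_mem ha
    simp only [← curvT_apply hm hu, map_neg, neg_apply, map_add, map_smul, add_apply, smul_apply,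
      smul_neg]
    abel

end PartB

section PartC

/-- `sinh (μ t) / μ`, and `t` for `μ = 0` -/
def sn (μ t : ℝ) : ℝ := if μ = 0 then t else Real.sinh (μ * t) / μ

/-- `cosh (μ t)` -/
def cs (μ t : ℝ) : ℝ := Real.cosh (μ * t)

theorem sn_zero (μ : ℝ) : sn μ 0 = 0 := by simp [sn]

theorem cs_zero (μ : ℝ) : cs μ 0 = 1 := by simp [cs]

theorem hasDerivAt_sn (μ t : ℝ) : HasDerivAt (sn μ) (cs μ t) t := by
  unfold sn cs
  by_cases h : μ = 0
  · subst h
    simp only [if_true, zero_mul, Real.cosh_zero]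
    exact hasDerivAt_id' t
  · simp only [h, if_false]
    have h1 : HasDerivAt (fun s => μ * s) μ t := by simpa using (hasDerivAt_id t).const_mul μ
    have h2 := (h1.sinh).div_const μ
    refine h2.congr_deriv ?_
    field_simp

theorem hasDerivAt_cs (μ t : ℝ) : HasDerivAt (cs μ) (μ ^ 2 * sn μ t) t := by
  unfold sn cs
  have h1 : HasDerivAt (fun s => μ * s) μ t := by simpa using (hasDerivAt_id t).const_mul μ
  refine h1.cosh.congr_deriv ?_
  by_cases h : μ = 0
  · subst h; simp
  · simp only [h, if_false]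
    field_simp

theorem cs_sq (μ t : ℝ) : cs μ t ^ 2 - μ ^ 2 * sn μ t ^ 2 = 1 := by
  unfold sn cs
  by_cases h : μ = 0
  · subst h; simp
  · simp only [h, if_false]
    have := Real.cosh_sq (μ * t)
    field_simp
    linarith

theorem sn_pos {μ t : ℝ} (hμ : 0 ≤ μ) (ht : 0 < t) : 0 < sn μ t := by
  unfold sn
  by_cases h : μ = 0
  · simp [h, ht]
  · simp only [h, if_false]
    have hμ' : 0 < μ := lt_of_le_of_ne hμ (Ne.symm h)
    exact div_pos (Real.sinh_pos_iff.2 (mul_pos hμ' ht)) hμ'

theorem lin_sys {a b c d : ℝ → ℝ} {μ ν : ℝ} (ha : ∀ t, HasDerivAt a (b t + c t) t)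
    (hb : ∀ t, HasDerivAt b (μ ^ 2 * a t + d t) t) (hc : ∀ t, HasDerivAt c (d t + ν ^ 2 * a t) t)
    (hd : ∀ t, HasDerivAt d (μ ^ 2 * c t + ν ^ 2 * b t) t) (a0 : a 0 = 0) (b0 : b 0 = 0)
    (c0 : c 0 = 0) (t : ℝ) : a t = sn μ t * sn ν t * d 0 := by
  have hs := hasDerivAt_sn μ
  have hs' := hasDerivAt_sn ν
  have hc1 := hasDerivAt_cs μ
  have hc2 := hasDerivAt_cs ν
  have PP : ∀ t, cs μ t * cs ν t * a t - cs μ t * sn ν t * c t - sn μ t * cs ν t * b t
      + sn μ t * sn ν t * d t = 0 := by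
    intro t
    have := is_const_of_deriv_eq_zero (f := fun t => cs μ t * cs ν t * a t
      - cs μ t * sn ν t * c t - sn μ t * cs ν t * b t + sn μ t * sn ν t * d t)
      (fun t => (((((hc1 t).mul (hc2 t)).mul (ha t)).sub (((hc1 t).mul (hs' t)).mul (hc t))).sub
        (((hs t).mul (hc2 t)).mul (hb t))).add (((hs t).mul (hs' t)).mul (hd t)) |>.differentiableAt)
      (fun t => by
        refine ((((((hc1 t).mul (hc2 t)).mul (ha t)).sub (((hc1 t).mul (hs' t)).mul (hc t))).sub
          (((hs t).mul (hc2 t)).mul (hb t))).add (((hs t).mul (hs' t)).mul (hd t))).deriv.trans ?_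
        simp only [Pi.mul_apply]
        ring) t 0
    simpa [a0, b0, c0, sn_zero] using this
  have PE : ∀ t, cs μ t * cs ν t * c t - cs μ t * (ν ^ 2 * sn ν t) * a t
      - sn μ t * cs ν t * d t + sn μ t * (ν ^ 2 * sn ν t) * b t = 0 := by
    intro t
    have := is_const_of_deriv_eq_zero (f := fun t => cs μ t * cs ν t * c t
      - cs μ t * (ν ^ 2 * sn ν t) * a t - sn μ t * cs ν t * d t + sn μ t * (ν ^ 2 * sn ν t) * b t)
      (fun t => (((((hc1 t).mul (hc2 t)).mul (hc t)).sub
        (((hc1 t).mul ((hs' t).const_mul (ν ^ 2))).mul (ha t))).sub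
        (((hs t).mul (hc2 t)).mul (hd t))).add
        (((hs t).mul ((hs' t).const_mul (ν ^ 2))).mul (hb t)) |>.differentiableAt)
      (fun t => by
        refine ((((((hc1 t).mul (hc2 t)).mul (hc t)).sub
          (((hc1 t).mul ((hs' t).const_mul (ν ^ 2))).mul (ha t))).sub
          (((hs t).mul (hc2 t)).mul (hd t))).add
          (((hs t).mul ((hs' t).const_mul (ν ^ 2))).mul (hb t))).deriv.trans ?_
        simp only [Pi.mul_apply]
        ring) t 0
    simpa [a0, b0, c0, sn_zero] using this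
  have EP : ∀ t, cs μ t * cs ν t * b t - cs μ t * sn ν t * d t
      - μ ^ 2 * sn μ t * cs ν t * a t + μ ^ 2 * sn μ t * sn ν t * c t = 0 := by
    intro t
    have := is_const_of_deriv_eq_zero (f := fun t => cs μ t * cs ν t * b t
      - cs μ t * sn ν t * d t
      - μ ^ 2 * sn μ t * cs ν t * a t + μ ^ 2 * sn μ t * sn ν t * c t)
      (fun t => (((((hc1 t).mul (hc2 t)).mul (hb t)).sub
        (((hc1 t).mul (hs' t)).mul (hd t))).sub
        ((((hs t).const_mul (μ ^ 2)).mul (hc2 t)).mul (ha t))).add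
        ((((hs t).const_mul (μ ^ 2)).mul (hs' t)).mul (hc t)) |>.differentiableAt)
      (fun t => by
        refine ((((((hc1 t).mul (hc2 t)).mul (hb t)).sub
          (((hc1 t).mul (hs' t)).mul (hd t))).sub
          ((((hs t).const_mul (μ ^ 2)).mul (hc2 t)).mul (ha t))).add
          ((((hs t).const_mul (μ ^ 2)).mul (hs' t)).mul (hc t))).deriv.trans ?_
        simp only [Pi.mul_apply]
        ring) t 0
    simpa [a0, b0, c0, sn_zero] using this
  have EE : ∀ t, cs μ t * cs ν t * d t - cs μ t * (ν ^ 2 * sn ν t) * b t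
      - μ ^ 2 * sn μ t * cs ν t * c t + μ ^ 2 * sn μ t * (ν ^ 2 * sn ν t) * a t = d 0 := by
    intro t
    have := is_const_of_deriv_eq_zero (f := fun t => cs μ t * cs ν t * d t
      - cs μ t * (ν ^ 2 * sn ν t) * b t
      - μ ^ 2 * sn μ t * cs ν t * c t + μ ^ 2 * sn μ t * (ν ^ 2 * sn ν t) * a t)
      (fun t => (((((hc1 t).mul (hc2 t)).mul (hd t)).sub
        (((hc1 t).mul ((hs' t).const_mul (ν ^ 2))).mul (hb t))).sub
        ((((hs t).const_mul (μ ^ 2)).mul (hc2 t)).mul (hc t))).add
        ((((hs t).const_mul (μ ^ 2)).mul ((hs' t).const_mul (ν ^ 2))).mul (ha t))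
          |>.differentiableAt)
      (fun t => by
        refine ((((((hc1 t).mul (hc2 t)).mul (hd t)).sub
          (((hc1 t).mul ((hs' t).const_mul (ν ^ 2))).mul (hb t))).sub
          ((((hs t).const_mul (μ ^ 2)).mul (hc2 t)).mul (hc t))).add
          ((((hs t).const_mul (μ ^ 2)).mul ((hs' t).const_mul (ν ^ 2))).mul (ha t))).deriv.trans ?_
        simp only [Pi.mul_apply]
        ring) t 0
    simpa [a0, b0, c0, sn_zero, cs_zero] using this
  have k1 := cs_sq μ t
  have k2 := cs_sq ν t
  have e1 := PP t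
  have e2 := PE t
  have e3 := EP t
  have e4 := EE t
  have key : a t = (cs μ t ^ 2 - μ ^ 2 * sn μ t ^ 2) * (cs ν t ^ 2 - ν ^ 2 * sn ν t ^ 2) * a t := by
    rw [k1, k2]; ring
  rw [key]
  linear_combination cs μ t * cs ν t * e1 + cs μ t * sn ν t * e2 + sn μ t * cs ν t * e3
    + sn μ t * sn ν t * e4

end PartC

section PartD

open Vale.Agent.P255

variable {E : Type} [NormedAddCommGroup E] [NormedSpace ℝ E] [FiniteDimensional ℝ E]
variable {M : Type} [TopologicalSpace M] [ChartedSpace E M] [IsManifold 𝓘(ℝ, E) ∞ M]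

/-- the variation field of the exponential map -/
def jf (e : M → E → M) (m : M) (v w : E) (a : M) (t : ℝ) : E :=
  fderiv ℝ (fun x => chartAt E a (e m x)) (t • v) (t • w)

variable {g : Metric E M} {e : M → E → M}

theorem covD_curv_vel_add (hs : Sym g) {γ : ℝ → M} (h : IsGeodesic g γ)
    {a : M} {s : ℝ} (hsr : γ s ∈ (chartAt E a).source) {X : ℝ → E} (hX : DifferentiableAt ℝ X s)
    (p : ℝ) :
    covD (g.coef a) (cc γ a)
      (fun s => curv (g.coef a) (cc γ a s) (X s) (vel γ a s) (vel γ a s) + p • X s) s =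
      curv (g.coef a) (cc γ a s) (covD (g.coef a) (cc γ a) X s) (vel γ a s) (vel γ a s)
        + p • covD (g.coef a) (cc γ a) X s := by
  obtain ⟨k1, k2⟩ := covD_curv_vel hs h hsr hX
  rw [← k2]
  have k3 := (k1.hasDerivAt.add (hX.hasDerivAt.const_smul p)).deriv
  simp only [covD]
  rw [show deriv (fun s => curv (g.coef a) (cc γ a s) (X s) (vel γ a s) (vel γ a s) + p • X s) s
    = _ from k3]
  simp only [← chrisB_apply, map_add, map_smul, smul_add]
  abel

omit [FiniteDimensional ℝ E] [IsManifold 𝓘(ℝ, E) ∞ M] in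
theorem jf_zero (m : M) (v w : E) (a : M) : jf e m v w a 0 = 0 := by simp [jf]

omit [FiniteDimensional ℝ E] [IsManifold 𝓘(ℝ, E) ∞ M] in
/-- initial covariant derivative of the variation field -/
theorem cov_jf_zero (he : IsExp g e) (m : M) (v w : E) :
    covD (g.coef m) (cc (fun t => e m (t • v)) m) (jf e m v w m) 0 = w := by
  have h1 : deriv (jf e m v w m) 0 = w := (he.jac_init m v w).deriv
  rw [covD, h1, jf_zero, ← chrisB_apply]
  simp

theorem jf_eigen (he : IsExp g e) (hs : Sym g) {m : M} {v w : E} {p : ℝ}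
    (hw : curvOp (g.coef m) (chartAt E m m) v w = -(p • w)) (a : M) (t : ℝ)
    (ha : e m (t • v) ∈ (chartAt E a).source) :
    covD (g.coef a) (cc (fun t => e m (t • v)) a)
      (covD (g.coef a) (cc (fun t => e m (t • v)) a) (jf e m v w a)) t = p • jf e m v w a t := by
  set γ : ℝ → M := fun t => e m (t • v) with hγ
  have hgeo : IsGeodesic g γ := he.geod m v
  have hJ : IsJacobi g γ (jf e m v w) := he.jac m v w
  have hZ := isJacobi_curv hs hgeo hJ p
  have hγ0 : γ 0 = m := by simp [hγ, he.zero]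
  have hm0 : γ 0 ∈ (chartAt E m).source := by rw [hγ0]; exact mem_chart_source E m
  have hcc : cc (E := E) γ m 0 = chartAt E m m := by simp only [cc, hγ0]
  have hvel : vel (E := E) γ m 0 = v := (he.init m v).deriv
  have hu : cc (E := E) γ m 0 ∈ (chartAt E m).target := cc_mem hm0
  have hmet := g.isMetricOn' m
  have hz := hZ.zero_of_initial hgeo (a := m) (t₀ := 0) hm0
    (by simp only [jf_zero, ← curvT_apply hmet hu]; simp)
    (by
      rw [covD_curv_vel_add hs hgeo hm0 (hJ.eqn m 0 hm0).1, cov_jf_zero he, hvel, hcc,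
        ← hmet.curvOp_apply (by rw [← hcc]; exact hu), hw]
      simp)
  have h1 := hz a t ha
  have h2 := (hJ.eqn a t ha).2.2
  have h3 : curv (g.coef a) (cc γ a t) (jf e m v w a t) (vel γ a t) (vel γ a t)
      = - (p • jf e m v w a t) := eq_neg_of_add_eq_zero_left h1
  have h4 := eq_neg_of_add_eq_zero_left h2
  rw [h4]
  change - curv (g.coef a) (cc γ a t) (jf e m v w a t) (vel γ a t) (vel γ a t) = _
  rw [h3, neg_neg]

/-- The Gram matrix of the differential of the exponential map. -/
theorem gram_exp (he : IsExp g e) (hs : Sym g) {m : M} {v w₁ w₂ : E} {μ ν : ℝ}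
    (h₁ : curvOp (g.coef m) (chartAt E m m) v w₁ = -(μ ^ 2 • w₁))
    (h₂ : curvOp (g.coef m) (chartAt E m m) v w₂ = -(ν ^ 2 • w₂)) {a : M}
    (ha : e m v ∈ (chartAt E a).source) :
    g.coef a (chartAt E a (e m v)) (fderiv ℝ (fun x => chartAt E a (e m x)) v w₁)
      (fderiv ℝ (fun x => chartAt E a (e m x)) v w₂) = sn μ 1 * sn ν 1 * g.ip m w₁ w₂ := by
  set γ : ℝ → M := fun t => e m (t • v) with hγ
  have hgeo : IsGeodesic g γ := he.geod m v
  have hJ₁ : IsJacobi g γ (jf e m v w₁) := he.jac m v w₁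
  have hJ₂ : IsJacobi g γ (jf e m v w₂) := he.jac m v w₂
  have hdc : ∀ a t, γ t ∈ (chartAt E a).source → DifferentiableAt ℝ (cc (E := E) γ a) t :=
    fun a t ha => (hgeo.eqn a t (mem_univ _) ha).1
  have c₁ := cov_compat (g := g) hgeo.continuous hdc hJ₁.compat' fun a t ha => (hJ₁.eqn a t ha).1
  have c₂ := cov_compat (g := g) hgeo.continuous hdc hJ₂.compat' fun a t ha => (hJ₂.eqn a t ha).1
  have hsrc : ∀ t, γ t ∈ (chartAt E (γ t)).source := fun t => mem_chart_source E (γ t)
  have e₁ : ∀ t, covD (g.coef (γ t)) (cc γ (γ t)) (cov g γ (jf e m v w₁) (γ t)) t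
      = μ ^ 2 • jf e m v w₁ (γ t) t := fun t => jf_eigen he hs h₁ (γ t) t (hsrc t)
  have e₂ : ∀ t, covD (g.coef (γ t)) (cc γ (γ t)) (cov g γ (jf e m v w₂) (γ t)) t
      = ν ^ 2 • jf e m v w₂ (γ t) t := fun t => jf_eigen he hs h₂ (γ t) t (hsrc t)
  have hγ0 : γ 0 = m := by simp [hγ, he.zero]
  have hm0 : γ 0 ∈ (chartAt E m).source := by rw [hγ0]; exact mem_chart_source E m
  have key := lin_sys (a := prodF g γ (jf e m v w₁) (jf e m v w₂))
    (b := prodF g γ (cov g γ (jf e m v w₁)) (jf e m v w₂))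
    (c := prodF g γ (jf e m v w₁) (cov g γ (jf e m v w₂)))
    (d := prodF g γ (cov g γ (jf e m v w₁)) (cov g γ (jf e m v w₂))) (μ := μ) (ν := ν)
    (fun t => hasDerivAt_prodF g hgeo.continuous hJ₁.compat' hJ₂.compat' (hsrc t)
      (hdc _ t (hsrc t)) (hJ₁.eqn _ t (hsrc t)).1 (hJ₂.eqn _ t (hsrc t)).1)
    (fun t => by
      have := hasDerivAt_prodF g hgeo.continuous c₁ hJ₂.compat' (hsrc t)
        (hdc _ t (hsrc t)) (hJ₁.eqn _ t (hsrc t)).2.1 (hJ₂.eqn _ t (hsrc t)).1
      rw [e₁ t, map_smul, smul_apply, smul_eq_mul] at this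
      exact this)
    (fun t => by
      have := hasDerivAt_prodF g hgeo.continuous hJ₁.compat' c₂ (hsrc t)
        (hdc _ t (hsrc t)) (hJ₁.eqn _ t (hsrc t)).1 (hJ₂.eqn _ t (hsrc t)).2.1
      rw [e₂ t, map_smul, smul_eq_mul] at this
      exact this)
    (fun t => by
      have := hasDerivAt_prodF g hgeo.continuous c₁ c₂ (hsrc t)
        (hdc _ t (hsrc t)) (hJ₁.eqn _ t (hsrc t)).2.1 (hJ₂.eqn _ t (hsrc t)).2.1
      rw [e₁ t, e₂ t, map_smul, map_smul, smul_apply, smul_eq_mul, smul_eq_mul] at this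
      exact this)
    (by rw [prodF_eq g hJ₁.compat' hJ₂.compat' hm0, jf_zero]; simp)
    (by rw [prodF_eq g c₁ hJ₂.compat' hm0, jf_zero]; simp)
    (by rw [prodF_eq g hJ₁.compat' c₂ hm0, jf_zero]; simp) 1
  have ha' : γ 1 ∈ (chartAt E a).source := by simpa [hγ] using ha
  rw [prodF_eq g hJ₁.compat' hJ₂.compat' ha', prodF_eq g c₁ c₂ hm0] at key
  have k1 : cov g γ (jf e m v w₁) m 0 = w₁ := cov_jf_zero he m v w₁
  have k2 : cov g γ (jf e m v w₂) m 0 = w₂ := cov_jf_zero he m v w₂
  rw [k1, k2] at key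
  have k3 : cc (E := E) γ m 0 = chartAt E m m := by simp only [cc, hγ0]
  rw [k3] at key
  simpa only [jf, cc, hγ, one_smul, Metric.ip] using key

end PartD

section PartE

section Eig

variable {E : Type} [AddCommGroup E] [Module ℝ E] [FiniteDimensional ℝ E]

/-- spectral theorem for an arbitrary inner product -/
theorem exists_eigenbasis {n : ℕ} (hn : Module.finrank ℝ E = n) (B : E →ₗ[ℝ] E →ₗ[ℝ] ℝ)
    (hs : ∀ v w, B v w = B w v) (hp : ∀ v, v ≠ 0 → 0 < B v v) (T : E →ₗ[ℝ] E)
    (hT : ∀ x y, B (T x) y = B x (T y)) :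
    ∃ (b : Module.Basis (Fin n) ℝ E) (x : Fin n → ℝ),
      (∀ i j, B (b i) (b j) = if i = j then 1 else 0) ∧ ∀ i, T (b i) = x i • b i := by
  have hnn : ∀ v, 0 ≤ B v v := by
    intro v
    by_cases hv : v = 0
    · simp [hv]
    · exact (hp v hv).le
  let core : InnerProductSpace.Core ℝ E :=
    { inner := fun v w => B v w
      conj_inner_symm := fun v w => by simpa using hs w v
      re_inner_nonneg := fun v => by simpa using hnn v
      add_left := fun u v w => by simp
      smul_left := fun u v r => by simp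
      definite := fun v hv => by
        by_contra h
        exact (hp v h).ne' hv }
  let _ : NormedAddCommGroup E := core.toNormedAddCommGroup
  let _ : InnerProductSpace ℝ E := InnerProductSpace.ofCore core.toCore
  have hTs : LinearMap.IsSymmetric T := fun x y => hT x y
  refine ⟨(hTs.eigenvectorBasis hn).toBasis, hTs.eigenvalues hn, ?_, ?_⟩
  · intro i j
    have h1 := (orthonormal_iff_ite.1 (hTs.eigenvectorBasis hn).orthonormal) i j
    simp only [OrthonormalBasis.coe_toBasis]
    exact h1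
  · intro i
    have := hTs.apply_eigenvectorBasis hn i
    simpa using this

end Eig

section Gram

open Matrix

variable {n : ℕ}

/-- Gram determinants under a linear map -/
theorem det_gram (B : EuclideanSpace ℝ (Fin n) →L[ℝ] EuclideanSpace ℝ (Fin n) →L[ℝ] ℝ)
    (L : EuclideanSpace ℝ (Fin n) →L[ℝ] EuclideanSpace ℝ (Fin n)) :
    (Matrix.of fun i j : Fin n => B (L (EuclideanSpace.single i 1))
      (L (EuclideanSpace.single j 1))).det =
      L.det ^ 2 * (Matrix.of fun i j : Fin n => B (EuclideanSpace.single i 1)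
        (EuclideanSpace.single j 1)).det := by
  set e := (EuclideanSpace.basisFun (Fin n) ℝ).toBasis with he
  have hei : ∀ i, e i = EuclideanSpace.single i (1 : ℝ) := by intro i; simp [he]
  set A := LinearMap.toMatrix e e (L : EuclideanSpace ℝ (Fin n) →ₗ[ℝ] EuclideanSpace ℝ (Fin n))
    with hA
  have hL : ∀ i, L (EuclideanSpace.single i 1) = ∑ k, A k i • EuclideanSpace.single k (1 : ℝ) := by
    intro i
    have h1 := LinearMap.toMatrix_apply e e
      (L : EuclideanSpace ℝ (Fin n) →ₗ[ℝ] EuclideanSpace ℝ (Fin n))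
    have h2 := e.sum_repr (L (EuclideanSpace.single i 1))
    rw [← h2]
    refine Finset.sum_congr rfl fun k _ => ?_
    rw [hei, hA, h1, hei]
    rfl
  have hM : (Matrix.of fun i j : Fin n => B (L (EuclideanSpace.single i 1))
      (L (EuclideanSpace.single j 1))) =
      Aᵀ * (Matrix.of fun i j : Fin n => B (EuclideanSpace.single i 1)
        (EuclideanSpace.single j 1)) * A := by
    ext i j
    rw [Matrix.of_apply, hL i, hL j]
    simp only [map_sum, map_smul, _root_.sum_apply, _root_.smul_apply,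
      smul_eq_mul, Matrix.mul_apply, Matrix.transpose_apply, Matrix.of_apply, Finset.sum_mul,
      Finset.mul_sum]
    refine Finset.sum_congr rfl fun k _ => Finset.sum_congr rfl fun l _ => ?_
    ring
  rw [hM, Matrix.det_mul, Matrix.det_mul, Matrix.det_transpose]
  have hdet : A.det = L.det := by
    rw [hA, LinearMap.det_toMatrix]
  rw [hdet]
  ring

end Gram

section Power

/-- two finite families of real numbers with the same power sums have the same sums
`∑ f (x i)` -/
theorem sum_eq_of_powerSums {ι : Type} [Fintype ι] (x y : ι → ℝ)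
    (h : ∀ k : ℕ, ∑ i, x i ^ k = ∑ i, y i ^ k) (f : ℝ → ℝ) : ∑ i, f (x i) = ∑ i, f (y i) := by
  classical
  have hp : ∀ p : Polynomial ℝ, ∑ i, p.eval (x i) = ∑ i, p.eval (y i) := by
    intro p
    simp only [Polynomial.eval_eq_sum_range]
    rw [Finset.sum_comm, Finset.sum_comm (s := Finset.univ) (t := Finset.range (p.natDegree + 1))]
    refine Finset.sum_congr rfl fun k _ => ?_
    rw [← Finset.mul_sum, ← Finset.mul_sum, h k]
  set S : Finset ℝ := Finset.image x Finset.univ ∪ Finset.image y Finset.univ with hS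
  set p := Lagrange.interpolate S id f with hpd
  have hev : ∀ z ∈ S, p.eval z = f z := fun z hz =>
    Lagrange.eval_interpolate_at_node (v := id) f (Function.injective_id.injOn) hz
  have h1 := hp p
  rw [Finset.sum_congr rfl (fun i _ => hev (x i) (by simp [hS])),
    Finset.sum_congr rfl (fun i _ => hev (y i) (by simp [hS]))] at h1
  exact h1

/-- the trace of the powers of an operator with an eigenbasis -/
theorem trace_pow_eigen {E : Type} [AddCommGroup E] [Module ℝ E] {n : ℕ}
    (b : Module.Basis (Fin n) ℝ E) (T : E →ₗ[ℝ] E) (x : Fin n → ℝ)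
    (h : ∀ i, T (b i) = x i • b i) (k : ℕ) : LinearMap.trace ℝ E (T ^ k) = ∑ i, x i ^ k := by
  have hk : ∀ i, (T ^ k) (b i) = x i ^ k • b i := by
    intro i
    induction k with
    | zero => simp
    | succ k ih => rw [pow_succ', Module.End.mul_apply, ih, map_smul, h, smul_smul, pow_succ]
  rw [LinearMap.trace_eq_matrix_trace ℝ b, Matrix.trace]
  refine Finset.sum_congr rfl fun i _ => ?_
  rw [Matrix.diag_apply, LinearMap.toMatrix_apply, hk, map_smul]
  simp

end Power

end PartE

end Vale.Agent.P207.D2
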