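import Vale.Agent.P207.BlkD2

/-!
# P207: `exists_jac_bounds` is now in `BlkD2.lean`; this file only re-exports it
-/
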