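import Vale.Agent.P207.BaseD

/-!
# P207, block DA: the area formula for the exponential map and the volume of balls
-/

open scoped Manifold ContDiff ENNReal Topology
open Bundle MeasureTheory Set Filter

noncomputable section

namespace Vale.Agent.P207

open Vale.Agent.P255 (RMetric coefIn Gam Riem IsGeo Metric Npc ExpSys toMetric geo expg cc curvOp
  trans isExp_expg contDiffAt_expg continuous_expg fderiv_expg_trans)

namespace DA

/-- The number of the sets containing a point. -/
theorem tsum_indicator_encard {X : Type} (B : ℕ → Set X) (z : X) :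
    ∑' i, (B i).indicator (1 : X → ℝ≥0∞) z = ({i | z ∈ B i}.encard : ℝ≥0∞) := by
  rw [← ENNReal.tsum_set_one, tsum_subtype {i | z ∈ B i} (fun _ => (1 : ℝ≥0∞))]
  refine tsum_congr fun i => ?_
  by_cases h : z ∈ B i
  · rw [indicator_of_mem h, indicator_of_mem (show i ∈ {i | z ∈ B i} from h)]
    rfl
  · rw [indicator_of_notMem h, indicator_of_notMem (show i ∉ {i | z ∈ B i} from h)]

/-- The area formula for a map that is locally measure preserving in the sense of `hloc`. -/
theorem lintegral_area {E X : Type} [MeasurableSpace E] [MeasurableSpace X] {ν : Measure E}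
    {μ : Measure X} (e : E → X) (f : E → ℝ≥0∞) (U : ℕ → Set E) (hU : ∀ i, MeasurableSet (U i))
    (hcov : ⋃ i, U i = univ)
    (hloc : ∀ i, ∀ A ⊆ U i, MeasurableSet A → MeasurableSet (e '' A) ∧
      ∫⁻ v in A, f v ∂ν = μ (e '' A))
    (hinj : ∀ i, InjOn e (U i)) {A : Set E} (hA : MeasurableSet A) :
    ∫⁻ v in A, f v ∂ν = ∫⁻ z, ({v | v ∈ A ∧ e v = z}.encard : ℝ≥0∞) ∂μ := by
  set D : ℕ → Set E := disjointed U with hD
  have hDm : ∀ i, MeasurableSet (D i) := fun i => MeasurableSet.disjointed hU i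
  have hDU : ∀ i, D i ⊆ U i := disjointed_subset U
  have hDdis : Pairwise (Function.onFun Disjoint D) := disjoint_disjointed U
  have hDcov : ⋃ i, D i = univ := by rw [hD, iUnion_disjointed, hcov]
  have hAU : A = ⋃ i, A ∩ D i := by rw [← inter_iUnion, hDcov, inter_univ]
  have hdis : Pairwise (Function.onFun Disjoint fun i => A ∩ D i) := fun i j hij =>
    (hDdis hij).mono inter_subset_right inter_subset_right
  have h1 : ∫⁻ v in A, f v ∂ν = ∑' i, ∫⁻ v in A ∩ D i, f v ∂ν := by
    conv_lhs => rw [hAU]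
    exact lintegral_iUnion (fun i => hA.inter (hDm i)) hdis f
  have h2 : ∀ i, ∫⁻ v in A ∩ D i, f v ∂ν = ∫⁻ z, (e '' (A ∩ D i)).indicator 1 z ∂μ := by
    intro i
    obtain ⟨h3, h4⟩ := hloc i (A ∩ D i) (inter_subset_right.trans (hDU i)) (hA.inter (hDm i))
    rw [h4, lintegral_indicator_one h3]
  rw [h1, tsum_congr h2, ← lintegral_tsum]
  · refine lintegral_congr fun z => ?_
    rw [tsum_indicator_encard]
    congr 1
    choose idx hidx using fun v : E => mem_iUnion.1 (hDcov ▸ mem_univ v : v ∈ ⋃ i, D i)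
    have h5 : {i | z ∈ e '' (A ∩ D i)} = idx '' {v | v ∈ A ∧ e v = z} := by
      ext i
      constructor
      · rintro ⟨v, ⟨hvA, hvD⟩, hv⟩
        refine ⟨v, ⟨hvA, hv⟩, ?_⟩
        by_contra hne
        exact disjoint_left.1 (hDdis hne) (hidx v) hvD
      · rintro ⟨v, ⟨hvA, hv⟩, rfl⟩
        exact ⟨v, ⟨hvA, hidx v⟩, hv⟩
    rw [h5]
    refine InjOn.encard_image ?_
    intro v hv w hw hvw
    have h6 := hidx v
    rw [hvw] at h6
    exact hinj (idx w) (hDU _ h6) (hDU _ (hidx w)) (hv.2.trans hw.2.symm)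
  · intro i
    obtain ⟨h3, -⟩ := hloc i (A ∩ D i) (inter_subset_right.trans (hDU i)) (hA.inter (hDm i))
    exact (measurable_one.indicator h3).aemeasurable

/-- The Gram matrix of a bilinear form on `ℝⁿ`. -/
def gram {n : ℕ} (B : EuclideanSpace ℝ (Fin n) →L[ℝ] EuclideanSpace ℝ (Fin n) →L[ℝ] ℝ) :
    Matrix (Fin n) (Fin n) ℝ :=
  Matrix.of fun i j => B (EuclideanSpace.single i 1) (EuclideanSpace.single j 1)

/-- The matrix of a linear map. -/
def mat {n : ℕ} (L : EuclideanSpace ℝ (Fin n) →L[ℝ] EuclideanSpace ℝ (Fin n)) :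
    Matrix (Fin n) (Fin n) ℝ :=
  Matrix.of fun i j => L (EuclideanSpace.single j 1) i

theorem sum_single {n : ℕ} (v : EuclideanSpace ℝ (Fin n)) :
    v = ∑ k, v k • EuclideanSpace.single k (1 : ℝ) := by
  have h := (EuclideanSpace.basisFun (Fin n) ℝ).sum_repr v
  simp only [EuclideanSpace.basisFun_repr, EuclideanSpace.basisFun_apply] at h
  exact h.symm

theorem det_mat {n : ℕ} (L : EuclideanSpace ℝ (Fin n) →L[ℝ] EuclideanSpace ℝ (Fin n)) :
    (mat L).det = L.det := by
  have h := LinearMap.det_toMatrix (EuclideanSpace.basisFun (Fin n) ℝ).toBasis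
    (L : EuclideanSpace ℝ (Fin n) →ₗ[ℝ] EuclideanSpace ℝ (Fin n))
  rw [ContinuousLinearMap.det, ← h]
  congr 1

theorem bil_apply {n : ℕ} (B : EuclideanSpace ℝ (Fin n) →L[ℝ] EuclideanSpace ℝ (Fin n) →L[ℝ] ℝ)
    (v w : EuclideanSpace ℝ (Fin n)) : B v w = ∑ l, w l * ∑ k, v k * gram B k l := by
  conv_lhs => rw [sum_single v, sum_single w]
  simp only [map_sum, map_smul, sum_apply, smul_apply, smul_eq_mul, gram, Matrix.of_apply]

/-- Change of variables for the Gram determinant. -/
theorem gram_comp {n : ℕ} (B B' : EuclideanSpace ℝ (Fin n) →L[ℝ] EuclideanSpace ℝ (Fin n) →L[ℝ] ℝ)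
    (L : EuclideanSpace ℝ (Fin n) →L[ℝ] EuclideanSpace ℝ (Fin n))
    (h : ∀ v w, B' (L v) (L w) = B v w) : (gram B).det = L.det ^ 2 * (gram B').det := by
  have e : gram B = (mat L).transpose * gram B' * mat L := by
    ext i j
    rw [gram, Matrix.of_apply, ← h, bil_apply B']
    simp only [Matrix.mul_apply, Matrix.transpose_apply, mat, Matrix.of_apply]
    exact Finset.sum_congr rfl fun k _ => mul_comm _ _
  rw [e, Matrix.det_mul, Matrix.det_mul, Matrix.det_transpose, det_mat]
  ring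

open scoped MatrixOrder in
theorem exists_matrix_root {n : ℕ} {A : Matrix (Fin n) (Fin n) ℝ} (hA : A.PosSemidef) :
    ∃ X : Matrix (Fin n) (Fin n) ℝ, X.transpose * X = A := by
  have h0 : 0 ≤ A := hA.nonneg
  refine ⟨CFC.sqrt A, ?_⟩
  have h1 : (CFC.sqrt A).PosSemidef := Matrix.nonneg_iff_posSemidef.1 (CFC.sqrt_nonneg A)
  have h2 : (CFC.sqrt A).transpose = CFC.sqrt A := by
    have h3 := h1.isHermitian
    rw [Matrix.IsHermitian, Matrix.conjTranspose_eq_transpose_of_trivial] at h3
    exact h3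
  rw [h2]
  exact CFC.sqrt_mul_sqrt_self A h0

/-- A positive symmetric form is the pullback of the Euclidean one. -/
theorem exists_root {n : ℕ} (B : EuclideanSpace ℝ (Fin n) →L[ℝ] EuclideanSpace ℝ (Fin n) →L[ℝ] ℝ)
    (hs : ∀ v w, B v w = B w v) (hp : ∀ v, v ≠ 0 → 0 < B v v) :
    ∃ L : EuclideanSpace ℝ (Fin n) →L[ℝ] EuclideanSpace ℝ (Fin n), L.det ≠ 0 ∧
      Real.sqrt (gram B).det = |L.det| ∧ ∀ v, B v v = ‖L v‖ ^ 2 := by
  have hform : ∀ x : Fin n → ℝ, dotProduct x ((gram B).mulVec x) =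
      B (WithLp.toLp 2 x) (WithLp.toLp 2 x) := by
    intro x
    rw [bil_apply]
    simp only [dotProduct, Matrix.mulVec, Finset.mul_sum]
    rw [Finset.sum_comm]
    refine Finset.sum_congr rfl fun l _ => Finset.sum_congr rfl fun k _ => ?_
    ring
  have hpd : (gram B).PosDef := by
    refine Matrix.PosDef.of_dotProduct_mulVec_pos ?_ ?_
    · ext i j
      simp only [Matrix.conjTranspose_apply, gram, Matrix.of_apply, star_trivial]
      exact hs _ _
    · intro x hx
      rw [star_trivial, hform]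
      refine hp _ ?_
      intro h0
      apply hx
      have h1 := congrArg WithLp.ofLp h0
      exact h1
  obtain ⟨X, hX⟩ := exists_matrix_root hpd.posSemidef
  set L : EuclideanSpace ℝ (Fin n) →L[ℝ] EuclideanSpace ℝ (Fin n) :=
    LinearMap.toContinuousLinearMap (Matrix.toEuclideanLin X) with hL
  have hLv : ∀ v i, L v i = ∑ k, X i k * v k := by
    intro v i
    rw [hL]
    simp [Matrix.toLpLin_apply, Matrix.mulVec, dotProduct]
  have hB : ∀ v w, (innerSL ℝ (L v)) (L w) = B v w := by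
    intro v w
    rw [bil_apply B, innerSL_apply_apply, PiLp.inner_apply]
    simp only [hLv]
    have h1 : ∀ k l, gram B k l = ∑ i, X i k * X i l := by
      intro k l
      rw [← hX, Matrix.mul_apply]
      rfl
    have h2 : ∀ i, inner ℝ (∑ k, X i k * v k) (∑ k, X i k * w k) =
        ∑ l, ∑ k, w l * (v k * (X i k * X i l)) := by
      intro i
      change (∑ k, X i k * w k) * (starRingEnd ℝ) (∑ k, X i k * v k) = _
      rw [conj_trivial, Finset.sum_mul]
      refine Finset.sum_congr rfl fun l _ => ?_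
      rw [Finset.mul_sum]
      refine Finset.sum_congr rfl fun k _ => ?_
      ring
    simp only [h1, Finset.mul_sum, h2]
    rw [Finset.sum_comm]
    refine Finset.sum_congr rfl fun l _ => ?_
    rw [Finset.sum_comm]
  have hg1 : gram (innerSL ℝ : EuclideanSpace ℝ (Fin n) →L[ℝ] EuclideanSpace ℝ (Fin n) →L[ℝ] ℝ) = 1 := by
    ext i j
    rw [gram, Matrix.of_apply, innerSL_apply_apply]
    simp [Matrix.one_apply, EuclideanSpace.inner_single_left]
  have hdet := gram_comp B (innerSL ℝ) L hB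
  rw [hg1, Matrix.det_one, mul_one] at hdet
  have h0 : L.det ≠ 0 := by
    intro h0
    rw [h0] at hdet
    have h1 := hpd.det_pos
    rw [hdet] at h1
    simp at h1
  refine ⟨L, h0, ?_, ?_⟩
  · rw [hdet, Real.sqrt_sq_eq_abs]
  · intro v
    rw [← hB, innerSL_apply_apply, real_inner_self_eq_norm_sq]

/-- Volume of the balls of a scalar product. -/
theorem volume_ball_form {n : ℕ} (hn : 1 ≤ n)
    (B : EuclideanSpace ℝ (Fin n) →L[ℝ] EuclideanSpace ℝ (Fin n) →L[ℝ] ℝ)
    (hs : ∀ v w, B v w = B w v) (hp : ∀ v, v ≠ 0 → 0 < B v v) {R : ℝ} (hR : 0 ≤ R) :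
    Real.sqrt (gram B).det * volume.real {v : EuclideanSpace ℝ (Fin n) | Real.sqrt (B v v) < R} =
      volume.real (Metric.ball (0 : EuclideanSpace ℝ (Fin n)) 1) * R ^ n := by
  obtain ⟨L, hL0, hL1, hL2⟩ := exists_root B hs hp
  have : Nonempty (Fin n) := ⟨⟨0, hn⟩⟩
  have e1 : {v : EuclideanSpace ℝ (Fin n) | Real.sqrt (B v v) < R} = L ⁻¹' Metric.ball 0 R := by
    ext v
    rw [mem_ofPred_eq, mem_preimage, mem_ball_zero_iff, hL2, Real.sqrt_sq (norm_nonneg _)]
  have e2 : volume (L ⁻¹' Metric.ball (0 : EuclideanSpace ℝ (Fin n)) R) =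
      ENNReal.ofReal |(L.det)⁻¹| * volume (Metric.ball (0 : EuclideanSpace ℝ (Fin n)) R) :=
    Measure.addHaar_preimage_continuousLinearMap volume hL0 _
  have e3 : volume (Metric.ball (0 : EuclideanSpace ℝ (Fin n)) R) =
      ENNReal.ofReal (R ^ n) * volume (Metric.ball (0 : EuclideanSpace ℝ (Fin n)) 1) := by
    rw [Measure.addHaar_ball volume 0 hR, finrank_euclideanSpace_fin]
  rw [e1, Measure.real, e2, e3, hL1, ENNReal.toReal_mul, ENNReal.toReal_mul,
    ENNReal.toReal_ofReal (abs_nonneg _), ENNReal.toReal_ofReal (by positivity), abs_inv,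
    ← mul_assoc, mul_inv_cancel₀ (abs_ne_zero.2 hL0), one_mul, mul_comm]
  rfl

end DA

variable {n : ℕ} {M : Type} [TopologicalSpace M] [ChartedSpace (EV n) M]
  [IsManifold 𝓘(ℝ, EV n) ∞ M]

theorem dens_eq (g : RMetric (EV n) M) (a : M) (u : EV n) :
    dens g a u = Real.sqrt (DA.gram ((mt g).coef a u)).det := rfl

variable [CompactSpace M] [T2Space M]

/-- The Jacobian of `exp_m` can be computed in any chart. -/
theorem jac_eq (g : RMetric (EV n) M) (m : M) (v : EV n) (a : M)
    (ha : expg (mt g) m v ∈ (chartAt (EV n) a).source) :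
    jac g m v = |(fderiv ℝ (fun w => chartAt (EV n) a (expg (mt g) m w)) v).det| *
      dens g a (chartAt (EV n) a (expg (mt g) m v)) := by
  set b := expg (mt g) m v with hb
  have hbs : expg (mt g) m v ∈ (chartAt (EV n) b).source := by
    rw [← hb]; exact mem_chart_source (EV n) b
  have h1 : fderiv ℝ (fun w => chartAt (EV n) b (expg (mt g) m w)) v =
      (fderiv ℝ (trans (EV n) a b) (chartAt (EV n) a (expg (mt g) m v))).comp
        (fderiv ℝ (fun w => chartAt (EV n) a (expg (mt g) m w)) v) := by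
    ext1 w
    exact fderiv_expg_trans (mt g) m v a b ha hbs w
  have hu : chartAt (EV n) a (expg (mt g) m v) ∈ (chartAt (EV n) a).target :=
    (chartAt (EV n) a).map_source ha
  have h2 := dens_trans g a b hu (by rw [(chartAt (EV n) a).left_inv ha]; exact hbs)
  have h3 : trans (EV n) a b (chartAt (EV n) a (expg (mt g) m v)) =
      chartAt (EV n) b (expg (mt g) m v) :=
    congrArg (chartAt (EV n) b) ((chartAt (EV n) a).left_inv ha)
  rw [h3] at h2
  rw [jac, h1, h2]
  have h4 : ((fderiv ℝ (trans (EV n) a b) (chartAt (EV n) a (expg (mt g) m v))).comp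
        (fderiv ℝ (fun w => chartAt (EV n) a (expg (mt g) m w)) v)).det =
      (fderiv ℝ (trans (EV n) a b) (chartAt (EV n) a (expg (mt g) m v))).det *
        (fderiv ℝ (fun w => chartAt (EV n) a (expg (mt g) m w)) v).det :=
    LinearMap.det_comp _ _
  rw [h4, abs_mul]
  ring

theorem DA.measurableSet_source_inter {X Y : Type} [TopologicalSpace X] [MeasurableSpace X]
    [BorelSpace X] [TopologicalSpace Y] [MeasurableSpace Y] [BorelSpace Y]
    (φ : OpenPartialHomeomorph X Y) {T : Set Y} (hT : MeasurableSet T) :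
    MeasurableSet (φ.source ∩ φ ⁻¹' T) := by
  have h1 : Measurable (φ.source.domRestrict φ) :=
    (continuousOn_iff_continuous_domRestrict.1 φ.continuousOn).measurable
  have h2 := φ.open_source.measurableSet.subtype_image (h1 hT)
  have h3 : φ.source ∩ φ ⁻¹' T = Subtype.val '' (φ.source.domRestrict φ ⁻¹' T) := by
    ext x
    constructor
    · rintro ⟨hx, hx2⟩
      exact ⟨⟨x, hx⟩, hx2, rfl⟩
    · rintro ⟨y, hy, rfl⟩
      exact ⟨y.2, hy⟩
  rw [h3]
  exact h2

variable [MeasurableSpace M] [BorelSpace M]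

/-- The local area formula. -/
theorem exists_nhd_area {g : RMetric (EV n) M} (h : Npc (mt g)) {μ : Measure M}
    (hμ : IsRiemVol g μ) (m : M) (v₀ : EV n) :
    ∃ U : Set (EV n), IsOpen U ∧ v₀ ∈ U ∧ InjOn (expg (mt g) m) U ∧
      ∀ A ⊆ U, MeasurableSet A → MeasurableSet (expg (mt g) m '' A) ∧
        ∫⁻ v in A, ENNReal.ofReal (jac g m v) = μ (expg (mt g) m '' A) := by
  have he := isExp_expg (mt g)
  have hinj : P255.InjAt (EV n) (expg (mt g)) m := (he.rauchAt h m).injAt
  obtain ⟨φ, hφ, hφe⟩ := he.isLocalHomeomorph m hinj v₀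
  set e := expg (mt g) m with hedef
  set a := e v₀ with ha
  have hec : Continuous e := continuous_expg (mt g) m
  set U : Set (EV n) := φ.source ∩ e ⁻¹' (chartAt (EV n) a).source with hU
  have hUo : IsOpen U := φ.open_source.inter ((chartAt (EV n) a).open_source.preimage hec)
  have hei : InjOn e U := by
    intro x hx y hy hxy
    rw [hφe] at hxy
    exact φ.injOn hx.1 hy.1 hxy
  refine ⟨U, hUo, ⟨hφ, mem_chart_source (EV n) a⟩, hei, ?_⟩
  intro A hAU hA
  set F : EV n → EV n := fun w => chartAt (EV n) a (e w) with hF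
  have hFd : ∀ x ∈ A, HasFDerivWithinAt F (fderiv ℝ F x) A x := fun x hx =>
    ((contDiffAt_expg (mt g) m x a (hAU hx).2).differentiableAt
      (by simp)).hasFDerivAt.hasFDerivWithinAt
  have hFi : InjOn F A := by
    intro x hx y hy hxy
    exact hei (hAU hx) (hAU hy) ((chartAt (EV n) a).injOn (hAU hx).2 (hAU hy).2 hxy)
  have hFA : MeasurableSet (F '' A) := measurable_image_of_fderivWithin hA hFd hFi
  have hsub : e '' A ⊆ (chartAt (EV n) a).source := by
    rintro _ ⟨x, hx, rfl⟩
    exact (hAU hx).2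
  have heA : e '' A = (chartAt (EV n) a).source ∩ chartAt (EV n) a ⁻¹' (F '' A) := by
    ext z
    constructor
    · rintro ⟨x, hx, rfl⟩
      exact ⟨(hAU hx).2, x, hx, rfl⟩
    · rintro ⟨hz, x, hx, hxz⟩
      exact ⟨x, hx, (chartAt (EV n) a).injOn (hAU hx).2 hz hxz⟩
  have heAm : MeasurableSet (e '' A) := by
    rw [heA]
    exact DA.measurableSet_source_inter _ hFA
  refine ⟨heAm, ?_⟩
  have h1 : μ (e '' A) = ∫⁻ u in (chartAt (EV n) a) '' (e '' A), ENNReal.ofReal (dens g a u) :=
    hμ a (e '' A) heAm hsub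
  have h2 : (chartAt (EV n) a) '' (e '' A) = F '' A := by rw [← image_comp]; rfl
  rw [h1, h2, lintegral_image_eq_lintegral_abs_det_fderiv_mul volume hA hFd hFi]
  refine setLIntegral_congr_fun hA fun x hx => ?_
  rw [jac_eq g m x a (hAU hx).2, ENNReal.ofReal_mul (abs_nonneg _)]

/-- The area formula for the exponential map. -/
theorem lintegral_jac_eq {g : RMetric (EV n) M} (h : Npc (mt g)) {μ : Measure M}
    (hμ : IsRiemVol g μ) (m : M) {A : Set (EV n)} (hA : MeasurableSet A) :
    ∫⁻ v in A, ENNReal.ofReal (jac g m v) =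
      ∫⁻ z, ({v | v ∈ A ∧ expg (mt g) m v = z}.encard : ℝ≥0∞) ∂μ := by
  choose U hUo hUm hUi hUa using fun v₀ : EV n => exists_nhd_area h hμ m v₀
  obtain ⟨s, hs, hcov⟩ := TopologicalSpace.countable_cover_nhds
    (fun v : EV n => (hUo v).mem_nhds (hUm v))
  have hne : s.Nonempty := by
    by_contra hne
    rw [not_nonempty_iff_eq_empty] at hne
    subst hne
    simp only [mem_empty_iff_false, iUnion_of_empty, iUnion_empty] at hcov
    exact (univ_nonempty (α := EV n)).ne_empty hcov.symm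
  obtain ⟨f, hf⟩ := hs.exists_eq_range hne
  refine DA.lintegral_area (expg (mt g) m) _ (fun i => U (f i)) (fun i => (hUo _).measurableSet) ?_
    (fun i A hAU hA => hUa _ A hAU hA) (fun i => hUi _) hA
  rw [hf] at hcov
  rw [← hcov, biUnion_range]

/-- DA1. area formula for `exp_m`, upper bound: if every point of `M` has at most `k` preimages
in `A` -/
theorem lintegral_jac_le {g : RMetric (EV n) M} (h : Npc (mt g)) {μ : Measure M}
    (hμ : IsRiemVol g μ) (m : M) {A : Set (EV n)} (hA : MeasurableSet A) {k : ℕ}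
    (hk : ∀ z : M, {v | v ∈ A ∧ expg (mt g) m v = z}.encard ≤ k) :
    ∫⁻ v in A, ENNReal.ofReal (jac g m v) ≤ k * μ univ := by
  rw [lintegral_jac_eq h hμ m hA, ← lintegral_const]
  refine lintegral_mono fun z => ?_
  have h1 := ENat.toENNReal_le.2 (hk z)
  simpa using h1

/-- DA2. area formula for `exp_m`, lower bound: if every point of `Z ⊆ M` has at least `k`
preimages in `A` -/
theorem le_lintegral_jac {g : RMetric (EV n) M} (h : Npc (mt g)) {μ : Measure M}
    (hμ : IsRiemVol g μ) (m : M) {A : Set (EV n)} (hA : MeasurableSet A) {Z : Set M}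
    (hZ : MeasurableSet Z) {k : ℕ}
    (hk : ∀ z ∈ Z, k ≤ {v | v ∈ A ∧ expg (mt g) m v = z}.encard) :
    k * μ Z ≤ ∫⁻ v in A, ENNReal.ofReal (jac g m v) := by
  rw [lintegral_jac_eq h hμ m hA, ← setLIntegral_const]
  refine (setLIntegral_mono' hZ fun z hz => ?_).trans (setLIntegral_le_lintegral Z _)
  have h1 := ENat.toENNReal_le.2 (hk z hz)
  simpa using h1

omit [CompactSpace M] [T2Space M] [MeasurableSpace M] [BorelSpace M] in
/-- DA3. the volume of the balls of `T_m M` -/
theorem volume_ball_nm (hn : 1 ≤ n) : ∃ κ : ℝ, 0 < κ ∧ ∀ (g : RMetric (EV n) M) (m : M) (R : ℝ), 0 ≤ R →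
    dens0 g m * volume.real {v : EV n | nm g m v < R} = κ * R ^ n := by
  refine ⟨volume.real (Metric.ball (0 : EV n) 1), ?_, ?_⟩
  · exact ENNReal.toReal_pos (Metric.measure_ball_pos _ _ one_pos).ne' measure_ball_lt_top.ne
  · intro g m R hR
    exact DA.volume_ball_form hn ((mt g).ip m) (fun v w => (mt g).ip_symm m v w)
      (fun v hv => (mt g).ip_pos m v hv) hR

end Vale.Agent.P207
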