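import Vale.Agent.P207.Base

/-!
# P207: rays in a system of exponential maps
-/

open scoped Topology unitInterval
open Set Filter

noncomputable section

namespace Vale.Agent.P207

open Vale.Agent.P255

section Rays

variable {E M : Type} [NormedAddCommGroup E] [NormedSpace ℝ E] [TopologicalSpace M]
  (S : ExpSys E M)

/-- the class of the geodesic segment with initial vector `v`, up to time `t` -/
def ray (x : M) (v : E) (t : ℝ) : Cl x (S.e x (t • v)) :=
  Path.Homotopic.Quotient.mk (S.rayTo x (S.e x (t • v)) (t • v) rfl)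

theorem vec_ray (x : M) (v : E) (t : ℝ) : S.vec (ray S x v t) = t • v := S.vec_rayTo _ _ _ _

theorem nrm_smul (m : M) (c : ℝ) (v : E) : S.nrm m (c • v) = |c| * S.nrm m v := by
  unfold ExpSys.nrm
  simp only [map_smul, smul_apply, smul_eq_mul]
  rw [← mul_assoc, Real.sqrt_mul (mul_self_nonneg c), Real.sqrt_mul_self_eq_abs]

theorem len_ray (x : M) (v : E) (t : ℝ) : S.len (ray S x v t) = |t| * S.nrm x v := by
  rw [ExpSys.len, vec_ray, nrm_smul]

omit [NormedAddCommGroup E] [NormedSpace ℝ E] in
theorem symm_trans_cancel {x y z : M} (α : Cl x y) (β : Cl y z) :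
    α.symm.trans (α.trans β) = β := by
  rw [← Path.Homotopic.Quotient.trans_assoc, Path.Homotopic.Quotient.symm_trans,
    Path.Homotopic.Quotient.refl_trans]

omit [NormedAddCommGroup E] [NormedSpace ℝ E] in
theorem trans_symm_cancel {x y z : M} (α : Cl x y) (β : Cl x z) :
    α.trans (α.symm.trans β) = β := by
  rw [← Path.Homotopic.Quotient.trans_assoc, Path.Homotopic.Quotient.trans_symm,
    Path.Homotopic.Quotient.refl_trans]

/-- The class from the point at time `t` of a geodesic to the end point of a longer (or shorter)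
segment of it. -/
theorem len_ray_symm_trans {x y : M} (α : Cl x y) {v : E} {s : ℝ} (hα : S.vec α = s • v)
    (t : ℝ) : S.len ((ray S x v t).symm.trans α) = |s - t| * S.nrm x v := by
  obtain ⟨w, hw, hw2⟩ := S.shift x v t
  set q := S.e x (t • v) with hq
  have hy : S.e q ((s - t) • w) = y := by
    rw [← hw2, add_sub_cancel, ← hα]
    exact S.e_vec α
  set γ := S.rayTo q y ((s - t) • w) hy with hγ
  have key : (ray S x v t).trans (Path.Homotopic.Quotient.mk γ) = α := by
    apply S.vec_inj
    rw [S.vec_trans (ray S x v t) γ ⟨fun u : I => (t + (u : ℝ) * (s - t)) • v, by fun_prop⟩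
      (by simp [vec_ray]) (by
        intro u
        simp only [ContinuousMap.coe_mk, hγ, ExpSys.rayTo_apply]
        rw [hw2, smul_smul])]
    rw [hα]
    simp
  rw [← key, symm_trans_cancel, ExpSys.len, S.vec_rayTo, nrm_smul]
  congr 1
  unfold ExpSys.nrm
  rw [hw]

/-- the distance function between two geodesics, in the class of the initial point -/
def gap (x : M) (v w : E) (t : ℝ) : ℝ := S.len ((ray S x v t).symm.trans (ray S x w t))

theorem gap_nonneg (x : M) (v w : E) (t : ℝ) : 0 ≤ gap S x v w t := S.len_nonneg _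

theorem gap_zero (x : M) (v w : E) : gap S x v w 0 = 0 := by
  refine le_antisymm ?_ (gap_nonneg S x v w 0)
  refine (S.len_trans _ _).trans ?_
  rw [S.len_symm, len_ray, len_ray]
  simp

theorem gap_le (x : M) (v w : E) (t t' : ℝ) :
    gap S x v w t' ≤ gap S x v w t + |t - t'| * (S.nrm x v + S.nrm x w) := by
  have e : (ray S x v t').symm.trans (ray S x w t') =
      ((ray S x v t').symm.trans (ray S x v t)).trans
        (((ray S x v t).symm.trans (ray S x w t)).trans
          ((ray S x w t).symm.trans (ray S x w t'))) := by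
    rw [Path.Homotopic.Quotient.trans_assoc, Path.Homotopic.Quotient.trans_assoc,
      trans_symm_cancel, trans_symm_cancel]
  unfold gap
  rw [e]
  refine (S.len_trans _ _).trans ?_
  have h1 := S.len_trans ((ray S x v t).symm.trans (ray S x w t))
    ((ray S x w t).symm.trans (ray S x w t'))
  have h2 := len_ray_symm_trans S (ray S x v t) (vec_ray S x v t) t'
  have h3 := len_ray_symm_trans S (ray S x w t') (vec_ray S x w t') t
  rw [abs_sub_comm] at h3
  rw [h2]
  rw [h3] at h1
  linarith

theorem continuous_gap (x : M) (v w : E) : Continuous (gap S x v w) := by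
  rw [Metric.continuous_iff]
  intro t ε hε
  set K := S.nrm x v + S.nrm x w with hK
  have hK0 : 0 ≤ K := add_nonneg (S.nrm_nonneg _ _) (S.nrm_nonneg _ _)
  refine ⟨ε / (K + 1), by positivity, fun t' ht' => ?_⟩
  have h1 := gap_le S x v w t t'
  have h2 := gap_le S x v w t' t
  rw [Real.dist_eq] at ht'
  rw [abs_sub_comm t t'] at h1
  have h3 : |t' - t| * K < ε := by
    calc |t' - t| * K ≤ |t' - t| * (K + 1) :=
          mul_le_mul_of_nonneg_left (by linarith) (abs_nonneg _)
      _ < ε / (K + 1) * (K + 1) := mul_lt_mul_of_pos_right ht' (by positivity)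
      _ = ε := by field_simp
  rw [Real.dist_eq, abs_lt]
  constructor <;> linarith

/-- If two geodesics with the same initial point stay close up to time `T` in the quotient, then
they stay close in the universal cover. -/
theorem gap_lt {sy η : ℝ} (hη : 0 < η) (hsη : 3 * η ≤ sy)
    (hsy : ∀ (x : M) (α : Cl x x), S.len α < sy → α = Path.Homotopic.Quotient.refl x)
    {x : M} {v w : E} {T : ℝ}
    (h : ∀ t ∈ Icc (0 : ℝ) T, ∃ δ : Cl (S.e x (t • v)) (S.e x (t • w)), S.len δ < η) :
    ∀ t ∈ Icc (0 : ℝ) T, gap S x v w t < η := by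
  have hdich : ∀ t ∈ Icc (0 : ℝ) T, gap S x v w t < η ∨ 2 * η ≤ gap S x v w t := by
    intro t ht
    obtain ⟨δ, hδ⟩ := h t ht
    by_cases heq : (ray S x v t).symm.trans (ray S x w t) = δ
    · left
      unfold gap
      rw [heq]; exact hδ
    · right
      by_contra hlt
      push Not at hlt
      apply heq
      set τ := (ray S x v t).symm.trans (ray S x w t) with hτ
      have h1 : S.len (δ.symm.trans τ) < sy := by
        have h2 := S.len_trans δ.symm τ
        rw [S.len_symm] at h2
        have h3 : S.len τ = gap S x v w t := rfl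
        linarith
      have h4 := hsy _ _ h1
      calc τ = δ.trans (δ.symm.trans τ) := (trans_symm_cancel δ τ).symm
        _ = δ := by rw [h4, Path.Homotopic.Quotient.trans_refl]
  intro t ht
  rcases hdich t ht with h1 | h1
  · exact h1
  · exfalso
    have hmem : (3 / 2 * η) ∈ Icc (gap S x v w 0) (gap S x v w t) := by
      rw [gap_zero]
      constructor <;> linarith
    obtain ⟨t', ht', heq⟩ := intermediate_value_Icc ht.1
      (continuous_gap S x v w).continuousOn hmem
    rcases hdich t' ⟨ht'.1, ht'.2.trans ht.2⟩ with h2 | h2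
    · rw [heq] at h2; linarith
    · rw [heq] at h2; linarith

/-- Two classes whose geodesics stay close are equal. -/
theorem eq_of_close {sy η : ℝ} (hη : 0 < η) (hsη : 3 * η ≤ sy)
    (hsy : ∀ (x : M) (α : Cl x x), S.len α < sy → α = Path.Homotopic.Quotient.refl x)
    {x y : M} {v w : E} {T : ℝ} (α β : Cl x y) {a b : ℝ} (hα : S.vec α = a • v)
    (hβ : S.vec β = b • w) (hw : S.nrm x w ≤ 1)
    (ha : 0 ≤ a) (haT : a ≤ T) (hab : |b - a| ≤ η)
    (h : ∀ t ∈ Icc (0 : ℝ) T, ∃ δ : Cl (S.e x (t • v)) (S.e x (t • w)), S.len δ < η) :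
    α = β := by
  have h1 := gap_lt S hη hsη hsy h a ⟨ha, haT⟩
  have h2 := len_ray_symm_trans S α hα a
  have h3 := len_ray_symm_trans S β hβ a
  rw [sub_self, abs_zero, zero_mul] at h2
  have e : α.symm.trans β = ((ray S x v a).symm.trans α).symm.trans
      (((ray S x v a).symm.trans (ray S x w a)).trans ((ray S x w a).symm.trans β)) := by
    rw [Path.Homotopic.Quotient.trans_assoc, trans_symm_cancel, ExpSys.symm_trans',
      ExpSys.symm_symm', Path.Homotopic.Quotient.trans_assoc, trans_symm_cancel]
  have h4 : S.len (α.symm.trans β) < sy := by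
    rw [e]
    have h5 := S.len_trans ((ray S x v a).symm.trans α).symm
      (((ray S x v a).symm.trans (ray S x w a)).trans ((ray S x w a).symm.trans β))
    have h6 := S.len_trans ((ray S x v a).symm.trans (ray S x w a))
      ((ray S x w a).symm.trans β)
    rw [S.len_symm, h2] at h5
    have h7 : |b - a| * S.nrm x w ≤ η := by
      calc |b - a| * S.nrm x w ≤ |b - a| * 1 := mul_le_mul_of_nonneg_left hw (abs_nonneg _)
        _ ≤ η := by rw [mul_one]; exact hab
    have h8 : S.len ((ray S x v a).symm.trans (ray S x w a)) = gap S x v w a := rfl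
    rw [h3, h8] at h6
    linarith
  have h9 := hsy _ _ h4
  calc α = α.trans (α.symm.trans β) := by rw [h9, Path.Homotopic.Quotient.trans_refl]
    _ = β := trans_symm_cancel α β

end Rays

end Vale.Agent.P207
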