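import Vale.Agent.P207.BlkF
import Vale.Agent.P207.BlkC1
import Vale.Agent.P207.BlkE2
import Vale.Agent.P207.BlkV
import Vale.Agent.P207.BlkDA
import Vale.Agent.P207.Rays

/-!
# P207, block DB: Bowen balls of the Liouville measure are exponentially small
-/

open scoped Manifold ContDiff ENNReal Topology Pointwise
open Bundle MeasureTheory Set Filter

noncomputable section

set_option maxSynthPendingDepth 3

namespace Vale.Agent.P207

open Vale.Agent.P255 (RMetric coefIn Gam Riem IsGeo Metric Npc ExpSys toMetric geo expg cc curvOp)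

namespace DB

section Close

variable {E M : Type} [NormedAddCommGroup E] [NormedSpace ℝ E] [TopologicalSpace M]

/-- points which are near in `X` are mapped, uniformly in `t ∈ [0,1]`, to points of `M` joined by a
short class -/
theorem exists_close (S : ExpSys E M) {X : Type} [PseudoMetricSpace X] [CompactSpace X]
    {F : ℝ → X → M} (hF : Continuous fun q : ℝ × X => F q.1 q.2) {η : ℝ} (hη : 0 < η) :
    ∃ δ : ℝ, 0 < δ ∧ ∀ p q : X, dist p q < δ → ∀ t ∈ Icc (0 : ℝ) 1, F t q ∈ C1.nb S (F t p) η := by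
  have hG : Continuous fun q : (Icc (0 : ℝ) 1) × X => F q.1 q.2 :=
    hF.comp ((continuous_subtype_val.comp continuous_fst).prodMk continuous_snd)
  obtain ⟨δ, hδ, h⟩ := lebesgue_number_lemma_of_metric
    (s := (univ : Set ((Icc (0 : ℝ) 1) × X)))
    (c := fun x : M => (fun q : (Icc (0 : ℝ) 1) × X => F q.1 q.2) ⁻¹' C1.nb S x (η / 2))
    isCompact_univ (fun x => (C1.isOpen_nb S x _).preimage hG)
    (fun q _ => mem_iUnion.2 ⟨F q.1 q.2, C1.mem_nb_self S _ (by positivity)⟩)
  refine ⟨δ, hδ, fun p q hpq t ht => ?_⟩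
  obtain ⟨c, hc⟩ := h (⟨t, ht⟩, p) (mem_univ _)
  have h1 : ((⟨t, ht⟩, p) : (Icc (0 : ℝ) 1) × X) ∈ Metric.ball ((⟨t, ht⟩, p) : (Icc (0 : ℝ) 1) × X) δ :=
    Metric.mem_ball_self hδ
  have h2 : ((⟨t, ht⟩, q) : (Icc (0 : ℝ) 1) × X) ∈ Metric.ball ((⟨t, ht⟩, p) : (Icc (0 : ℝ) 1) × X) δ := by
    rw [Metric.mem_ball, Prod.dist_eq]
    simp only [dist_self]
    rw [dist_comm q p]
    exact max_lt hδ hpq
  have h3 := C1.exists_len_lt_of_mem_nb S (hc h1) (hc h2)
  rw [add_halves] at h3
  exact h3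

end Close

variable {n : ℕ} {M : Type} [TopologicalSpace M] [ChartedSpace (EV n) M]
  [IsManifold 𝓘(ℝ, EV n) ∞ M] [CompactSpace M] [T2Space M]
  {g : RMetric (EV n) M} {φ : ℝ → UT g → UT g}

theorem pt_eq_e (hφ : IsGeoFlow g φ) (h : Npc (mt g)) (t : ℝ) (q : UT g) :
    (φ t q).pt = (sys g h).e q.pt (t • (q.vec : EV n)) := by
  rw [hφ.pt_eq]
  exact (P255.expg_smul (mt g) q.pt _ t).symm

/-! ### volumes of sectors -/

section Sector

theorem nm_smul (g : RMetric (EV n) M) (h : Npc (mt g)) (x : M) (r : ℝ) (v : EV n) :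
    nm g x (r • v) = |r| * nm g x v := C1.nrm_smul (sys g h) x r v

theorem continuous_nm (g : RMetric (EV n) M) (h : Npc (mt g)) (x : M) : Continuous (nm g x) :=
  C1.continuous_nrm (sys g h) x

theorem nm_nonneg (g : RMetric (EV n) M) (x : M) (v : EV n) : 0 ≤ nm g x v := Real.sqrt_nonneg _

theorem volume_nm_lt_top (g : RMetric (EV n) M) (h : Npc (mt g)) (x : M) (R : ℝ) :
    volume {v : EV n | nm g x v < R} < (⊤ : ℝ≥0∞) :=
  (measure_mono (fun v (hv : nm g x v < R) => (le_of_lt hv : nm g x v ≤ R))).trans_lt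
    (C1.isCompact_nrm_le (sys g h) x R).measure_lt_top

/-- the part of a cone inside the ball of radius `R` -/
theorem cone_smul (g : RMetric (EV n) M) (h : Npc (mt g)) (x : M) {C : Set (EV n)}
    (hC : ∀ r : ℝ, 0 < r → ∀ v ∈ C, r • v ∈ C) {R : ℝ} (hR : 0 < R) :
    volume.real (C ∩ {v | nm g x v < R}) = R ^ n * volume.real (C ∩ {v | nm g x v < 1}) := by
  have e : C ∩ {v | nm g x v < R} = R • (C ∩ {v | nm g x v < 1}) := by
    ext v
    rw [Set.mem_smul_set_iff_inv_smul_mem₀ hR.ne']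
    have h1 : nm g x (R⁻¹ • v) < 1 ↔ nm g x v < R := by
      rw [nm_smul g h, abs_of_pos (inv_pos.2 hR), inv_mul_lt_iff₀ hR, mul_one]
    constructor
    · rintro ⟨h2, h3⟩
      exact ⟨hC _ (inv_pos.2 hR) v h2, h1.2 h3⟩
    · rintro ⟨h2, h3⟩
      refine ⟨?_, h1.1 h3⟩
      have := hC R hR _ h2
      rwa [smul_inv_smul₀ hR.ne'] at this
  rw [e, measureReal_def, Measure.addHaar_smul, finrank_euclideanSpace, Fintype.card_fin,
    ENNReal.toReal_mul, abs_of_pos (pow_pos hR n), ENNReal.toReal_ofReal (pow_pos hR n).le]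
  rfl

variable [MeasurableSpace M] [BorelSpace M] {μ : Measure M}

theorem cone_bound (hn : 1 ≤ n) (h : Npc (mt g)) (hμ : IsRiemVol g μ) {H c η : ℝ} (hc : 0 < c)
    (hH : 0 ≤ H) (hη : 0 < η) (hη1 : η < 1)
    (hj : ∀ (m : M) (v : EV n),
      c * dens0 g m * Real.exp (H * nm g m v) / (1 + nm g m v) ^ n ≤ jac g m v)
    (x : M) {C : Set (EV n)} (hCm : MeasurableSet C) (hC : ∀ r : ℝ, 0 < r → ∀ v ∈ C, r • v ∈ C)
    {N : ℕ} (hN : 1 ≤ N)
    (hinj : InjOn (expg (mt g) x) {v | v ∈ C ∧ N - η ≤ nm g x v ∧ nm g x v < N}) :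
    dens0 g x * volume.real (C ∩ {v | nm g x v < 1}) ≤
      (1 + N) ^ n * μ.real univ * Real.exp (H * η) / (c * η) * Real.exp (-H * N) := by
  have hfin := hμ.isFiniteMeasure
  have hN1 : (1 : ℝ) ≤ N := by exact_mod_cast hN
  have hR : 0 < (N : ℝ) - η := by linarith
  set V := volume.real (C ∩ {v | nm g x v < 1}) with hV
  have hV0 : 0 ≤ V := measureReal_nonneg
  set Ω : Set (EV n) := {v | v ∈ C ∧ N - η ≤ nm g x v ∧ nm g x v < N} with hΩ
  have hcn := continuous_nm g h x
  have hball : ∀ R : ℝ, MeasurableSet {v : EV n | nm g x v < R} := fun R =>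
    (isOpen_lt hcn continuous_const).measurableSet
  have hΩe : Ω = (C ∩ {v | nm g x v < N}) \ (C ∩ {v | nm g x v < N - η}) := by
    ext v
    simp only [hΩ, Set.mem_sdiff, mem_inter_iff, Set.mem_ofPred_eq, not_and, not_lt]
    constructor
    · rintro ⟨h1, h2, h3⟩
      exact ⟨⟨h1, h3⟩, fun _ => h2⟩
    · rintro ⟨⟨h1, h3⟩, h2⟩
      exact ⟨h1, h2 h1, h3⟩
  have hΩm : MeasurableSet Ω := by
    rw [hΩe]
    exact (hCm.inter (hball _)).diff (hCm.inter (hball _))
  have hlt : ∀ R : ℝ, volume (C ∩ {v | nm g x v < R}) ≠ (⊤ : ℝ≥0∞) := fun R =>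
    ((measure_mono inter_subset_right).trans_lt (volume_nm_lt_top g h x R)).ne
  have hvol : volume.real Ω = ((N : ℝ) ^ n - (N - η) ^ n) * V := by
    have hsub : C ∩ {v | nm g x v < N - η} ⊆ C ∩ {v | nm g x v < N} := by
      rintro v ⟨h1, h2⟩
      have h2' : nm g x v < N - η := h2
      have h3 : nm g x v < N := by linarith
      exact ⟨h1, h3⟩
    rw [hΩe, measureReal_sdiff hsub (hCm.inter (hball _)) (hlt _),
      cone_smul g h x hC (by linarith), cone_smul g h x hC hR]
    ring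
  have hpow : η ≤ (N : ℝ) ^ n - (N - η) ^ n := by
    obtain ⟨k, rfl⟩ : ∃ k, n = k + 1 := ⟨n - 1, by omega⟩
    have h1 : ((N : ℝ) - η) ^ k ≤ N ^ k := pow_le_pow_left₀ hR.le (by linarith) k
    have h2 : (1 : ℝ) ≤ (N : ℝ) ^ k := one_le_pow₀ hN1
    have h3 : ((N : ℝ) - η) ^ (k + 1) ≤ (N - η) * N ^ k := by
      rw [pow_succ, mul_comm]
      exact mul_le_mul_of_nonneg_left h1 hR.le
    rw [pow_succ (N : ℝ) k]
    nlinarith
  -- the area formula
  have hda := lintegral_jac_le h hμ x hΩm (k := 1) (by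
    intro z
    rw [Nat.cast_one, Set.encard_le_one_iff]
    rintro v w ⟨hv, hvz⟩ ⟨hw, hwz⟩
    exact hinj hv hw (hvz.trans hwz.symm))
  rw [Nat.cast_one, one_mul] at hda
  have hd0 : 0 ≤ dens0 g x := Real.sqrt_nonneg _
  set K := c * dens0 g x * Real.exp (H * (N - η)) / (1 + N) ^ n with hK
  have hK0 : 0 ≤ K := by positivity
  have hlow : ENNReal.ofReal K * volume Ω ≤ ∫⁻ v in Ω, ENNReal.ofReal (jac g x v) := by
    rw [← setLIntegral_const]
    refine setLIntegral_mono' hΩm ?_
    rintro v ⟨-, hv1, hv2⟩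
    apply ENNReal.ofReal_le_ofReal
    refine le_trans ?_ (hj x v)
    have hnn := nm_nonneg g x v
    rw [hK]
    apply div_le_div₀ (by positivity) ?_ (by positivity) ?_
    · apply mul_le_mul_of_nonneg_left _ (by positivity)
      exact Real.exp_le_exp.2 (mul_le_mul_of_nonneg_left hv1 hH)
    · exact pow_le_pow_left₀ (by positivity) (by linarith) n
  have h4 := hlow.trans hda
  have hΩfin : volume Ω ≠ (⊤ : ℝ≥0∞) := by
    refine ((measure_mono ?_).trans_lt (volume_nm_lt_top g h x N)).ne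
    rintro v ⟨-, -, hv⟩
    exact hv
  have h5 : K * volume.real Ω ≤ μ.real univ := by
    have h6 := ENNReal.toReal_mono (measure_ne_top μ univ) h4
    rw [ENNReal.toReal_mul, ENNReal.toReal_ofReal hK0] at h6
    exact h6
  rw [hvol] at h5
  have h7 : K * (η * V) ≤ μ.real univ := by
    refine le_trans (mul_le_mul_of_nonneg_left (mul_le_mul_of_nonneg_right hpow hV0) hK0) h5
  have e1 : Real.exp (H * (N - η)) = (Real.exp (H * η))⁻¹ * (Real.exp (-H * N))⁻¹ := by
    rw [← Real.exp_neg, ← Real.exp_neg, ← Real.exp_add]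
    congr 1
    ring
  have e2 : K * (η * V) = dens0 g x * V *
      ((c * η) / ((1 + N) ^ n * Real.exp (H * η) * Real.exp (-H * N))) := by
    rw [hK, e1]
    field_simp
  rw [e2] at h7
  have hpos : 0 < (c * η) / ((1 + (N : ℝ)) ^ n * Real.exp (H * η) * Real.exp (-H * N)) := by
    positivity
  rw [← le_div_iff₀ hpos] at h7
  refine h7.trans (le_of_eq ?_)
  field_simp

end Sector

/-! ### directions -/

section Dir

theorem inner_pos (g : RMetric (EV n) M) (x : M) {v : EV n} (hv : v ≠ 0) :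
    0 < g.inner x (v : TangentSpace 𝓘(ℝ, EV n) x) (v : TangentSpace 𝓘(ℝ, EV n) x) := g.pos x v hv

theorem nm_eq (g : RMetric (EV n) M) (x : M) (v : EV n) :
    nm g x v = Real.sqrt (g.inner x (v : TangentSpace 𝓘(ℝ, EV n) x)
      (v : TangentSpace 𝓘(ℝ, EV n) x)) := congrArg Real.sqrt (ip_eq g x v v)

theorem nm_pos (g : RMetric (EV n) M) (x : M) {v : EV n} (hv : v ≠ 0) : 0 < nm g x v := by
  rw [nm_eq]
  exact Real.sqrt_pos.2 (inner_pos g x hv)

theorem unitDir_vec (g : RMetric (EV n) M) (x : M) {v : EV n} (hv : v ≠ 0) :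
    ((unitDir g x v hv).vec : EV n) = (nm g x v)⁻¹ • v := by
  rw [nm_eq]
  rfl

theorem unitDir_smul (g : RMetric (EV n) M) (h : Npc (mt g)) (x : M) {v : EV n} (hv : v ≠ 0)
    {r : ℝ} (hr : 0 < r) (hrv : r • v ≠ 0) : unitDir g x (r • v) hrv = unitDir g x v hv := by
  apply Subtype.ext
  have h1 : (nm g x (r • v))⁻¹ • (r • v) = (nm g x v)⁻¹ • v := by
    rw [nm_smul g h, abs_of_pos hr, mul_inv, smul_smul, mul_assoc, mul_comm _ r, ← mul_assoc,
      inv_mul_cancel₀ hr.ne', one_mul]
  rw [nm_eq, nm_eq] at h1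
  exact congrArg (fun w : TangentSpace 𝓘(ℝ, EV n) x =>
    (⟨x, w⟩ : TangentBundle 𝓘(ℝ, EV n) M)) h1

theorem continuousOn_dir (g : RMetric (EV n) M) (h : Npc (mt g)) (x : M) :
    Continuous (fun v : {v : EV n // v ≠ 0} => unitDir g x v.1 v.2) := by
  have h1 : Continuous (fun v : {v : EV n // v ≠ 0} => (nm g x v.1)⁻¹ • v.1) :=
    (((continuous_nm g h x).comp continuous_subtype_val).inv₀
      (fun v => (nm_pos g x v.2).ne')).smul continuous_subtype_val
  have h2 : Continuous (fun w : EV n => (⟨x, w⟩ : TangentBundle 𝓘(ℝ, EV n) M)) :=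
    FiberBundle.continuous_totalSpaceMk (F := EV n) (E := TangentSpace 𝓘(ℝ, EV n)) x
  have h3 := h2.comp h1
  refine continuous_induced_rng.2 (h3.congr fun v => ?_)
  rw [Function.comp_apply, nm_eq]
  rfl

/-- the cone of all vectors whose direction is in `U` -/
def dcone (g : RMetric (EV n) M) (x : M) (U : Set (UT g)) : Set (EV n) :=
  {v | ∃ hv : v ≠ 0, unitDir g x v hv ∈ U}

theorem isOpen_dcone (g : RMetric (EV n) M) (h : Npc (mt g)) (x : M) {U : Set (UT g)}
    (hU : IsOpen U) : IsOpen (dcone g x U) := by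
  have h1 := (hU.preimage (continuousOn_dir g h x))
  have h2 : IsOpen {v : EV n | v ≠ 0} := isOpen_ne
  have h3 := h2.isOpenMap_subtype_val _ h1
  have e : dcone g x U = Subtype.val '' ((fun v : {v : EV n // v ≠ 0} =>
      unitDir g x v.1 v.2) ⁻¹' U) := by
    ext v
    constructor
    · rintro ⟨hv, hU⟩
      exact ⟨⟨v, hv⟩, hU, rfl⟩
    · rintro ⟨⟨w, hw⟩, hU, rfl⟩
      exact ⟨hw, hU⟩
  rw [e]
  exact h3

theorem dcone_smul (g : RMetric (EV n) M) (h : Npc (mt g)) (x : M) (U : Set (UT g)) (r : ℝ)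
    (hr : 0 < r) (v : EV n) (hv : v ∈ dcone g x U) : r • v ∈ dcone g x U := by
  obtain ⟨h0, h1⟩ := hv
  have h2 : r • v ≠ 0 := smul_ne_zero hr.ne' h0
  exact ⟨h2, by rw [unitDir_smul g h x h0 hr h2]; exact h1⟩

end Dir

/-! ### Bowen balls -/

section Bowen

variable {X : Type}

/-- the exponential map is injective on sectors over Bowen balls -/
theorem injOn_sector [MetricSpace X] (e : X ≃ UT g) (hφ : IsGeoFlow g φ) (h : Npc (mt g))
    {sy η : ℝ} (hη : 0 < η) (hsη : 3 * η ≤ sy)
    (hsy : ∀ (x : M) (α : Cl x x), (sys g h).len α < sy → α = Path.Homotopic.Quotient.refl x)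
    {δ : ℝ} (hδ : ∀ p q : X, dist p q < δ → ∀ t ∈ Icc (0 : ℝ) 1,
      (φ t (e q)).pt ∈ C1.nb (sys g h) (φ t (e p)).pt (η / 2))
    (p : X) (N : ℕ) (hN : 1 ≤ N) (x : M) :
    InjOn (expg (mt g) x) {v | v ∈ dcone g x
      {q | ∀ i < N, dist (e.symm (φ i (e p))) (e.symm (φ i q)) < δ} ∧
      N - η ≤ nm g x v ∧ nm g x v < N} := by
  set S := sys g h with hS
  -- closeness of the geodesics
  have hclose : ∀ q ∈ {q | ∀ i < N, dist (e.symm (φ i (e p))) (e.symm (φ i q)) < δ},
      ∀ t ∈ Icc (0 : ℝ) N, (φ t q).pt ∈ C1.nb S (φ t (e p)).pt (η / 2) := by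
    intro q hq t ht
    obtain ⟨i, hi, r, hr, rfl⟩ : ∃ i : ℕ, i < N ∧ ∃ r ∈ Icc (0 : ℝ) 1, t = r + i := by
      rcases lt_or_ge t N with h1 | h1
      · refine ⟨⌊t⌋₊, (Nat.floor_lt ht.1).2 h1, t - ⌊t⌋₊, ⟨?_, ?_⟩, by ring⟩
        · have := Nat.floor_le ht.1
          linarith
        · have := Nat.lt_floor_add_one t
          linarith
      · have h2 : t = N := le_antisymm ht.2 h1
        refine ⟨N - 1, by omega, 1, ⟨zero_le_one, le_rfl⟩, ?_⟩
        rw [h2, Nat.cast_sub hN]
        push_cast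
        ring
    have h1 := hδ _ _ (hq i hi) r hr
    rw [Equiv.apply_symm_apply, Equiv.apply_symm_apply] at h1
    rw [hφ.add, hφ.add]
    exact h1
  rintro v₁ ⟨⟨h01, hv1⟩, ha1, hb1⟩ v₂ ⟨⟨h02, hv2⟩, ha2, hb2⟩ he
  set q₁ := unitDir g x v₁ h01 with hq1
  set q₂ := unitDir g x v₂ h02 with hq2
  set w₁ : EV n := (nm g x v₁)⁻¹ • v₁ with hw1
  set w₂ : EV n := (nm g x v₂)⁻¹ • v₂ with hw2
  have e1 : ∀ t : ℝ, (φ t q₁).pt = S.e x (t • w₁) := by
    intro t
    have := pt_eq_e hφ h t q₁
    rw [this]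
    have h1 : (q₁.vec : EV n) = w₁ := unitDir_vec g x h01
    exact congrArg (fun w : EV n => S.e x (t • w)) h1
  have e2 : ∀ t : ℝ, (φ t q₂).pt = S.e x (t • w₂) := by
    intro t
    have := pt_eq_e hφ h t q₂
    rw [this]
    have h1 : (q₂.vec : EV n) = w₂ := unitDir_vec g x h02
    exact congrArg (fun w : EV n => S.e x (t • w)) h1
  have hp1 := nm_pos g x h01
  have hp2 := nm_pos g x h02
  have ev1 : nm g x v₁ • w₁ = v₁ := smul_inv_smul₀ hp1.ne' v₁
  have ev2 : nm g x v₂ • w₂ = v₂ := smul_inv_smul₀ hp2.ne' v₂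
  have hn2 : S.nrm x w₂ ≤ 1 := by
    have : nm g x w₂ = 1 := by
      rw [hw2, nm_smul g h, abs_of_pos (inv_pos.2 hp2), inv_mul_cancel₀ hp2.ne']
    exact this.le
  set α : Cl x (S.e x v₁) := Path.Homotopic.Quotient.mk (S.rayTo x (S.e x v₁) v₁ rfl) with hα
  set β : Cl x (S.e x v₁) := Path.Homotopic.Quotient.mk (S.rayTo x (S.e x v₁) v₂ he.symm) with hβ
  have hvα : S.vec α = v₁ := S.vec_rayTo _ _ _ _
  have hvβ : S.vec β = v₂ := S.vec_rayTo _ _ _ _
  have key : α = β := by
    refine eq_of_close S hη hsη hsy (v := w₁) (w := w₂) (T := N) α β (a := nm g x v₁)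
      (b := nm g x v₂) (hvα.trans ev1.symm) (hvβ.trans ev2.symm) hn2 hp1.le hb1.le ?_ ?_
    · rw [abs_le]
      constructor <;> linarith
    · intro t ht
      have h1 := C1.exists_len_lt_of_mem_nb S (hclose q₁ hv1 t ht) (hclose q₂ hv2 t ht)
      rw [add_halves, e1, e2] at h1
      exact h1
  rw [← hvα, ← hvβ, key]

theorem exists_bump [MetricSpace X] {f : ℕ → X → X} (hf : ∀ i, Continuous (f i)) (p : X) (N : ℕ)
    {ε : ℝ} (hε : 0 < ε) : ∃ a : X → ℝ, Continuous a ∧ (∀ q, 0 ≤ a q) ∧ (∀ q, a q ≤ 1) ∧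
      (∀ q, (∀ i < N, dist (f i p) (f i q) < ε) → a q = 1) ∧
      ∀ q, a q ≠ 0 → ∀ i < N, dist (f i p) (f i q) < 2 * ε := by
  have h0 : ∀ (i : ℕ) (q : X), 0 ≤ max 0 (min 1 (2 - dist (f i p) (f i q) / ε)) := fun i q =>
    le_max_left _ _
  have h1 : ∀ (i : ℕ) (q : X), max 0 (min 1 (2 - dist (f i p) (f i q) / ε)) ≤ 1 := fun i q =>
    max_le zero_le_one (min_le_left _ _)
  refine ⟨fun q => ∏ i ∈ Finset.range N, max 0 (min 1 (2 - dist (f i p) (f i q) / ε)), ?_,
    fun q => Finset.prod_nonneg fun i _ => h0 i q,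
    fun q => Finset.prod_le_one (fun i _ => h0 i q) (fun i _ => h1 i q), ?_, ?_⟩
  · refine continuous_finsetProd _ fun i _ => ?_
    have := hf i
    fun_prop
  · intro q hq
    refine Finset.prod_eq_one fun i hi => ?_
    have h2 := hq i (Finset.mem_range.1 hi)
    have h3 : dist (f i p) (f i q) / ε < 1 := (div_lt_one hε).2 h2
    rw [min_eq_left (by linarith), max_eq_right zero_le_one]
  · intro q hq i hi
    by_contra h2
    push Not at h2
    apply hq
    apply Finset.prod_eq_zero (Finset.mem_range.2 hi)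
    have h3 : 2 ≤ dist (f i p) (f i q) / ε := (le_div_iff₀ hε).2 h2
    rw [max_eq_left]
    exact (min_le_right _ _).trans (by linarith)

theorem ballAt_eq (g : RMetric (EV n) M) (x : M) : ballAt g x = {v | nm g x v < 1} := by
  ext v
  have h1 : nm g x v < 1 ↔ g.inner x (v : TangentSpace 𝓘(ℝ, EV n) x)
      (v : TangentSpace 𝓘(ℝ, EV n) x) < 1 := by
    rw [nm_eq, Real.sqrt_lt' one_pos, one_pow]
  exact h1.symm

theorem sphAvg_le (h : Npc (mt g)) {a : UT g → ℝ} (ha0 : ∀ q, 0 ≤ a q) (ha1 : ∀ q, a q ≤ 1)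
    {U : Set (UT g)} (hU : IsOpen U) (haU : ∀ q, a q ≠ 0 → q ∈ U) (x : M) :
    sphAvg g a x ≤ volume.real (dcone g x U ∩ {v | nm g x v < 1}) /
      volume.real {v : EV n | nm g x v < 1} := by
  unfold sphAvg
  rw [ballAt_eq]
  apply div_le_div_of_nonneg_right _ measureReal_nonneg
  have hCm : MeasurableSet (dcone g x U) := (isOpen_dcone g h x hU).measurableSet
  have hfin := volume_nm_lt_top g h x 1
  have : IsFiniteMeasure (volume.restrict {v : EV n | nm g x v < 1}) := ⟨by
    rw [Measure.restrict_apply_univ]; exact hfin⟩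
  have h1 : ∫ v in {v : EV n | nm g x v < 1}, radial g a x v ≤
      ∫ v in {v : EV n | nm g x v < 1}, (dcone g x U).indicator (fun _ => (1 : ℝ)) v := by
    refine integral_mono_of_nonneg (Eventually.of_forall fun v => ?_)
      ((integrable_const 1).indicator hCm) (Eventually.of_forall fun v => ?_)
    · change 0 ≤ radial g a x v
      unfold radial
      split_ifs
      · exact le_rfl
      · exact ha0 _
    · change radial g a x v ≤ (dcone g x U).indicator (fun _ => (1 : ℝ)) v
      by_cases hv : v ∈ dcone g x U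
      · rw [indicator_of_mem hv]
        unfold radial
        split_ifs
        · exact zero_le_one
        · exact ha1 _
      · rw [indicator_of_notMem hv]
        unfold radial
        split_ifs with h0
        · exact le_rfl
        · refine le_of_eq ?_
          by_contra h2
          exact hv ⟨h0, haU _ h2⟩
  refine h1.trans (le_of_eq ?_)
  rw [integral_indicator_const _ hCm, measureReal_restrict_apply hCm, smul_eq_mul, mul_one]

end Bowen

end DB

section Main

variable {n : ℕ} {M : Type} [TopologicalSpace M] [ChartedSpace (EV n) M]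
  [IsManifold 𝓘(ℝ, EV n) ∞ M] [CompactSpace M] [T2Space M]

variable [MeasurableSpace M] [BorelSpace M]

/-- DB. lower bound for the entropy of the Liouville measure from the Jacobian of the exponential
maps (Bowen balls are small) -/
theorem le_ksEntropy_of_jac (hn : 1 ≤ n) {g : RMetric (EV n) M} {φ : ℝ → UT g → UT g}
    {μ : Measure M} {m : Measure (UT g)} (hφ : IsGeoFlow g φ) (hμ : IsRiemVol g μ)
    (hm : IsLiouville g μ m) (h : Npc (mt g)) {H c : ℝ} (hc : 0 < c)
    (hj : ∀ (m : M) (v : EV n),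
      c * dens0 g m * Real.exp (H * nm g m v) / (1 + nm g m v) ^ n ≤ jac g m v) :
    ENNReal.ofReal H ≤ ksEntropy m (φ 1) := by
  rcases le_or_gt H 0 with hH | hH
  · rw [ENNReal.ofReal_of_nonpos hH]; exact zero_le
  have hprob := hm.1
  have hfinμ := hμ.isFiniteMeasure
  have hcomp := compactSpace_UT g
  have hmetr := metrizableSpace_UT g
  let _ : MetricSpace (UT g) := TopologicalSpace.metrizableSpaceMetric (UT g)
  obtain ⟨sy, hsy0, hsy⟩ := C1.exists_systole (sys g h)
  obtain ⟨κ, hκ, hvol⟩ := volume_ball_nm (M := M) hn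
  set η := min (sy / 3) (1 / 2) with hηdef
  have hη : 0 < η := lt_min (by positivity) (by norm_num)
  have hη1 : η < 1 := lt_of_le_of_lt (min_le_right _ _) (by norm_num)
  have hsη : 3 * η ≤ sy := by
    have := min_le_left (sy / 3) (1 / 2)
    linarith
  obtain ⟨δ, hδ, hclose⟩ := DB.exists_close (sys g h) (X := UT g) (F := fun t q => (φ t q).pt)
    ((continuous_pt g).comp hφ.continuous) (η := η / 2) (by positivity)
  refine le_of_forall_lt_imp_le_of_dense fun b hb => ?_
  have hbtop : b ≠ ⊤ := (hb.trans_le le_top).ne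
  obtain ⟨s, hs0, rfl⟩ : ∃ s : ℝ, 0 ≤ s ∧ b = ENNReal.ofReal s :=
    ⟨b.toReal, ENNReal.toReal_nonneg, (ENNReal.ofReal_toReal hbtop).symm⟩
  have hsH : s < H := (ENNReal.ofReal_lt_ofReal_iff_of_nonneg hs0).1 hb
  set d := H - s with hd
  have hd0 : 0 < d := sub_pos.2 hsH
  set A := μ.real univ * Real.exp (H * η) / (c * η) / κ with hA
  have hA0 : 0 ≤ A := by positivity
  set C := 1 + A * (n.factorial / d ^ n * Real.exp d) with hC
  have hC0 : 0 ≤ A * (n.factorial / d ^ n * Real.exp d) := by positivity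
  refine le_ksEntropy_of_ball (hφ.continuous_right 1) (ε := δ / 2) (s := s) (C := C)
    (by positivity) fun p N => ?_
  rcases Nat.eq_zero_or_pos N with rfl | hN
  · refine measureReal_le_one.trans ?_
    simp only [Nat.cast_zero, mul_zero, Real.exp_zero, mul_one]
    linarith
  -- the Bowen ball of the flow
  have hit : ∀ (i : ℕ) (q : UT g), (φ 1)^[i] q = φ i q := by
    intro i q
    rw [hφ.iterate, mul_one]
  simp only [hit]
  obtain ⟨a, hac, ha0, ha1, haone, haU⟩ := DB.exists_bump (f := fun i q => φ (i : ℕ) q)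
    (fun i => hφ.continuous_right i) p N (ε := δ / 2) (by positivity)
  have e2 : 2 * (δ / 2) = δ := by ring
  rw [e2] at haU
  set U : Set (UT g) := {q | ∀ i < N, dist (φ i p) (φ i q) < δ} with hUdef
  have hUo : IsOpen U := by
    have : U = ⋂ i ∈ Finset.range N, {q | dist (φ i p) (φ i q) < δ} := by
      ext q
      simp [hUdef]
    rw [this]
    exact isOpen_biInter_finset fun i _ =>
      isOpen_lt (continuous_const.dist (hφ.continuous_right i)) continuous_const
  -- step 1
  have h1 : m.real {q | ∀ i < N, dist (φ i p) (φ i q) < δ / 2} ≤ ∫ q, a q ∂m := by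
    have hB : MeasurableSet {q : UT g | ∀ i < N, dist (φ i p) (φ i q) < δ / 2} := by
      have : {q : UT g | ∀ i < N, dist (φ i p) (φ i q) < δ / 2} =
          ⋂ i ∈ Finset.range N, {q | dist (φ i p) (φ i q) < δ / 2} := by
        ext q
        simp
      rw [this]
      refine IsOpen.measurableSet ?_
      exact isOpen_biInter_finset fun i _ =>
        isOpen_lt (continuous_const.dist (hφ.continuous_right i)) continuous_const
    have hint : Integrable a m :=
      (integrable_const (1 : ℝ)).mono' hac.aestronglyMeasurable (Eventually.of_forall fun q => by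
        rw [Real.norm_of_nonneg (ha0 q)]; exact ha1 q)
    calc m.real {q | ∀ i < N, dist (φ i p) (φ i q) < δ / 2}
        = ∫ q, ({q | ∀ i < N, dist (φ i p) (φ i q) < δ / 2} : Set (UT g)).indicator
            (fun _ => (1 : ℝ)) q ∂m := by
          rw [integral_indicator_const _ hB, smul_eq_mul, mul_one]
      _ ≤ ∫ q, a q ∂m := by
          refine integral_mono ((integrable_const 1).indicator hB) hint fun q => ?_
          by_cases hq : q ∈ {q | ∀ i < N, dist (φ i p) (φ i q) < δ / 2}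
          · rw [indicator_of_mem hq, haone q hq]
          · rw [indicator_of_notMem hq]; exact ha0 q
  -- step 2
  set K := (1 + (N : ℝ)) ^ n * A * Real.exp (-H * N) with hK
  have hK0 : 0 ≤ K := by positivity
  have h2 : ∀ x : M, sphAvg g a x ≤ K := by
    intro x
    refine (DB.sphAvg_le h ha0 ha1 hUo haU x).trans ?_
    have hinj := DB.injOn_sector (X := UT g) (Equiv.refl (UT g)) hφ h hη hsη hsy (δ := δ)
      hclose p N hN x
    have h3 := DB.cone_bound hn h hμ hc hH.le hη hη1 hj x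
      (DB.isOpen_dcone g h x hUo).measurableSet (DB.dcone_smul g h x U) hN hinj
    have h4 := hvol g x 1 zero_le_one
    rw [one_pow, mul_one] at h4
    have hdx0 : 0 ≤ dens0 g x := Real.sqrt_nonneg _
    have hdx : 0 < dens0 g x := by
      rcases hdx0.lt_or_eq with h5 | h5
      · exact h5
      · rw [← h5, zero_mul] at h4
        exact absurd h4.symm hκ.ne'
    have hv0 : 0 < volume.real {v : EV n | nm g x v < 1} := by
      rcases (measureReal_nonneg : 0 ≤ volume.real {v : EV n | nm g x v < 1}).lt_or_eq with h5 | h5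
      · exact h5
      · rw [← h5, mul_zero] at h4
        exact absurd h4.symm hκ.ne'
    have h5 : volume.real {v : EV n | nm g x v < 1} = κ / dens0 g x := by
      rw [← h4]; field_simp
    rw [h5, div_div_eq_mul_div, div_le_iff₀ hκ, mul_comm (volume.real _)]
    refine h3.trans (le_of_eq ?_)
    rw [hK, hA]
    field_simp
  have h3 : ∫ q, a q ∂m ≤ K := by
    rw [hm.2 a hac]
    have h4 : ∫ x, sphAvg g a x ∂μ ≤ K * μ.real univ := by
      have h5 : ∫ x, sphAvg g a x ∂μ ≤ ∫ _x, K ∂μ := by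
        refine integral_mono_of_nonneg (Eventually.of_forall fun x => ?_) (integrable_const K)
          (Eventually.of_forall h2)
        change 0 ≤ sphAvg g a x
        unfold sphAvg
        refine div_nonneg (integral_nonneg fun v => ?_) measureReal_nonneg
        change 0 ≤ radial g a x v
        unfold radial
        split_ifs
        · exact le_rfl
        · exact ha0 _
      refine h5.trans (le_of_eq ?_)
      rw [integral_const, smul_eq_mul, mul_comm]
    rcases (measureReal_nonneg : 0 ≤ μ.real univ).lt_or_eq with h5 | h5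
    · rw [div_le_iff₀ h5]; exact h4
    · rw [← h5, div_zero]; exact hK0
  refine (h1.trans h3).trans ?_
  -- step 3
  have h4 : (1 + (N : ℝ)) ^ n ≤ n.factorial / d ^ n * Real.exp d * Real.exp (d * N) := by
    have h5 := Real.pow_div_factorial_le_exp (d * (1 + N)) (by positivity) n
    rw [div_le_iff₀ (by positivity), mul_pow] at h5
    have h6 : Real.exp (d * (1 + N)) = Real.exp d * Real.exp (d * N) := by
      rw [← Real.exp_add]; congr 1; ring
    rw [h6] at h5
    have h7 : 0 < d ^ n := by positivity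
    calc (1 + (N : ℝ)) ^ n = (d ^ n * (1 + N) ^ n) / d ^ n := by field_simp
      _ ≤ (Real.exp d * Real.exp (d * N) * n.factorial) / d ^ n :=
          div_le_div_of_nonneg_right h5 h7.le
      _ = n.factorial / d ^ n * Real.exp d * Real.exp (d * N) := by ring
  have h5 : Real.exp (d * N) * Real.exp (-H * N) = Real.exp (-s * N) := by
    rw [← Real.exp_add]; congr 1; rw [hd]; ring
  calc K ≤ n.factorial / d ^ n * Real.exp d * Real.exp (d * N) * A * Real.exp (-H * N) := by
        rw [hK]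
        exact mul_le_mul_of_nonneg_right (mul_le_mul_of_nonneg_right h4 hA0) (Real.exp_pos _).le
    _ = A * (n.factorial / d ^ n * Real.exp d) * (Real.exp (d * N) * Real.exp (-H * N)) := by ring
    _ = A * (n.factorial / d ^ n * Real.exp d) * Real.exp (-s * N) := by rw [h5]
    _ ≤ C * Real.exp (-s * N) := by
        apply mul_le_mul_of_nonneg_right _ (Real.exp_pos _).le
        rw [hC]; linarith

end Main

end Vale.Agent.P207
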