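import Vale.Agent.P207.BlkC1
import Vale.Agent.P207.BlkV
import Vale.Agent.P207.BlkDA

/-!
# P207, block DG: growth of the homotopy classes from the Jacobian of the exponential maps
-/

open scoped Manifold ContDiff ENNReal Topology
open Bundle MeasureTheory Set Filter

noncomputable section

namespace Vale.Agent.P207

open Vale.Agent.P255 (RMetric coefIn Gam Riem IsGeo Metric Npc ExpSys toMetric geo expg cc curvOp)

/-- a power is at most an exponential -/
lemma pow_le_const_mul_exp (n : ℕ) {δ x : ℝ} (hδ : 0 < δ) (hx : 0 ≤ x) :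
    x ^ n ≤ n.factorial / δ ^ n * Real.exp (δ * x) := by
  have h := Real.pow_div_factorial_le_exp (δ * x) (by positivity) n
  have h1 : (0 : ℝ) < n.factorial := by exact_mod_cast n.factorial_pos
  rw [div_le_iff₀ h1, mul_pow] at h
  rw [div_mul_eq_mul_div, le_div_iff₀ (by positivity)]
  nlinarith

variable {n : ℕ} {M : Type} [TopologicalSpace M] [ChartedSpace (EV n) M]
  [IsManifold 𝓘(ℝ, EV n) ∞ M] [CompactSpace M] [T2Space M]

/-- the classes `x → y` of length `≤ R` give preimages, in the ball of radius `R + 1` about `0` of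
`T_x M`, of all points near `y` -/
lemma ncard_le_encard_fiber {g : RMetric (EV n) M} (h : Npc (mt g)) {x y z : M} {R : ℝ}
    (τ : Cl y z) (hτ : (sys g h).len τ < 1) :
    ({α : Cl x y | (sys g h).len α ≤ R}.ncard : ℕ∞) ≤
      {v | v ∈ {v : EV n | nm g x v < R + 1} ∧ expg (mt g) x v = z}.encard := by
  set S := sys g h with hS
  have hfin := C1.finite_len_le S x y R
  rw [hfin.cast_ncard_eq]
  refine Set.encard_le_encard_of_injOn (f := fun α : Cl x y => S.vec (α.trans τ)) ?_ ?_
  · intro α hα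
    have hα : S.len α ≤ R := hα
    refine ⟨?_, S.e_vec _⟩
    have h1 := S.len_trans α τ
    change S.len (α.trans τ) < R + 1
    linarith
  · intro α _ β _ hab
    exact C1.trans_right_inj τ (S.vec_inj hab)

variable [MeasurableSpace M] [BorelSpace M]

/-- DG. growth of the homotopy classes from the Jacobian of the exponential maps -/
theorem growthLE_of_jac (hn : 1 ≤ n) {g : RMetric (EV n) M} (h : Npc (mt g)) {H s : ℝ} (hH : 0 ≤ H)
    (hj : ∀ (m : M) (v : EV n), jac g m v ≤ dens0 g m * Real.exp (H * nm g m v)) (hs : H < s) :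
    GrowthLE (sys g h) s := by
  set S := sys g h with hS
  obtain ⟨μ, hμ⟩ := exists_riemVol g
  have hfin := hμ.isFiniteMeasure
  have hpos := hμ.isOpenPosMeasure
  obtain ⟨κ, hκ, hvol⟩ := volume_ball_nm (n := n) (M := M) hn
  obtain ⟨F, hF⟩ := C1.exists_centers S (show (0 : ℝ) < 1 / 2 by norm_num)
  -- the volume of the small balls about the centers
  have hc : ∃ c₀ : ℝ, 0 < c₀ ∧ ∀ p ∈ F, c₀ ≤ μ.real (C1.nb S p (1 / 2)) := by
    have hp : ∀ p, 0 < μ.real (C1.nb S p (1 / 2)) := fun p => by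
      have h1 := (C1.isOpen_nb S p (1 / 2)).measure_pos μ
        ⟨p, C1.mem_nb_self S p (by norm_num)⟩
      exact ENNReal.toReal_pos h1.ne' (measure_ne_top _ _)
    rcases F.eq_empty_or_nonempty with hF0 | hF0
    · exact ⟨1, one_pos, fun p hp => by simp [hF0] at hp⟩
    · obtain ⟨p₀, -, hmin⟩ := F.exists_min_image (fun p => μ.real (C1.nb S p (1 / 2))) hF0
      exact ⟨_, hp p₀, hmin⟩
  obtain ⟨c₀, hc₀, hc⟩ := hc
  refine ⟨κ / c₀ * (n.factorial / (s - H) ^ n) * Real.exp s, fun x y R hR =>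
    ⟨C1.finite_len_le S x y R, ?_⟩⟩
  obtain ⟨p, hp, β, hβ⟩ := hF y
  set N := {α : Cl x y | S.len α ≤ R}.ncard with hN
  set B : Set (EV n) := {v | nm g x v < R + 1} with hB
  have hBm : MeasurableSet B := by
    have h1 := C1.continuous_nrm S x
    exact (isOpen_lt h1 continuous_const).measurableSet
  have hBt : volume B ≠ ⊤ := by
    have h1 := (C1.isCompact_nrm_le S x (R + 1)).measure_lt_top (μ := volume)
    refine (lt_of_le_of_lt (measure_mono fun v hv => ?_) h1).ne
    have hv : nm g x v < R + 1 := hv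
    exact hv.le
  -- the area formula
  have h1 : (N : ℝ≥0∞) * μ (C1.nb S p (1 / 2)) ≤ ∫⁻ v in B, ENNReal.ofReal (jac g x v) := by
    refine le_lintegral_jac h hμ x hBm (C1.isOpen_nb S p (1 / 2)).measurableSet fun z hz => ?_
    obtain ⟨τ, hτ⟩ := C1.exists_len_lt_of_mem_nb S (show y ∈ C1.nb S p (1 / 2) from ⟨β, hβ⟩) hz
    rw [add_halves] at hτ
    exact ncard_le_encard_fiber h τ hτ
  -- the upper bound of the integral
  have h2 : ∫⁻ v in B, ENNReal.ofReal (jac g x v) ≤
      ENNReal.ofReal (dens0 g x * Real.exp (H * (R + 1))) * volume B := by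
    rw [← setLIntegral_const]
    refine setLIntegral_mono measurable_const fun v hv => ENNReal.ofReal_le_ofReal ?_
    refine (hj x v).trans ?_
    have hv : nm g x v < R + 1 := hv
    refine mul_le_mul_of_nonneg_left (Real.exp_le_exp.2 ?_) (Real.sqrt_nonneg _)
    exact mul_le_mul_of_nonneg_left hv.le hH
  have h3 : ENNReal.ofReal (dens0 g x * Real.exp (H * (R + 1))) * volume B =
      ENNReal.ofReal (κ * (R + 1) ^ n * Real.exp (H * (R + 1))) := by
    rw [← hvol g x (R + 1) (by linarith), ← ofReal_measureReal hBt, ← ENNReal.ofReal_mul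
      (by have : 0 ≤ dens0 g x := Real.sqrt_nonneg _
          positivity)]
    congr 1
    ring
  have h4 : (N : ℝ) * μ.real (C1.nb S p (1 / 2)) ≤ κ * (R + 1) ^ n * Real.exp (H * (R + 1)) := by
    have h5 := h1.trans (h2.trans_eq h3)
    have h6 := ENNReal.toReal_mono ENNReal.ofReal_ne_top h5
    rw [ENNReal.toReal_mul, ENNReal.toReal_natCast, ENNReal.toReal_ofReal (by positivity)] at h6
    exact h6
  have h5 : (N : ℝ) * c₀ ≤ κ * (R + 1) ^ n * Real.exp (H * (R + 1)) :=
    (mul_le_mul_of_nonneg_left (hc p hp) (Nat.cast_nonneg _)).trans h4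
  have h6 := pow_le_const_mul_exp n (sub_pos.2 hs) (show (0 : ℝ) ≤ R + 1 by linarith)
  calc (N : ℝ) ≤ κ * (R + 1) ^ n * Real.exp (H * (R + 1)) / c₀ := (le_div_iff₀ hc₀).2 h5
    _ ≤ κ * (n.factorial / (s - H) ^ n * Real.exp ((s - H) * (R + 1))) *
        Real.exp (H * (R + 1)) / c₀ := by gcongr
    _ = κ / c₀ * (n.factorial / (s - H) ^ n) *
        (Real.exp ((s - H) * (R + 1)) * Real.exp (H * (R + 1))) := by ring
    _ = κ / c₀ * (n.factorial / (s - H) ^ n) * (Real.exp s * Real.exp (s * R)) := by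
        rw [← Real.exp_add, ← Real.exp_add]
        congr 2
        ring
    _ = κ / c₀ * (n.factorial / (s - H) ^ n) * Real.exp s * Real.exp (s * R) := by ring

end Vale.Agent.P207
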