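import Vale.Agent.P207.BlkF

/-!
# P207, block G1: convexity of the distance between geodesics, in terms of homotopy classes
-/

open scoped Manifold ContDiff ENNReal Topology unitInterval
open Bundle MeasureTheory Set Filter

noncomputable section

namespace Vale.Agent.P207

open Vale.Agent.P255 (RMetric coefIn Gam Riem IsGeo Metric Npc ExpSys toMetric geo expg)
open Path.Homotopic.Quotient

namespace G1

variable {E M : Type} [NormedAddCommGroup E] [NormedSpace ℝ E] [TopologicalSpace M]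
  (S : ExpSys E M)

/-- The class of the initial part of the geodesic in the class `β`. -/
def part {y z : M} (β : Cl y z) (t : ℝ) : Cl y (S.e y (t • S.vec β)) :=
  mk (S.rayTo y _ (t • S.vec β) rfl)

lemma vec_part {y z : M} (β : Cl y z) (t : ℝ) : S.vec (part S β t) = t • S.vec β :=
  S.vec_rayTo _ _ _ _

lemma len_part {y z : M} (β : Cl y z) {t : ℝ} (ht : 0 ≤ t) :
    S.len (part S β t) = t * S.len β := by
  unfold ExpSys.len ExpSys.nrm
  rw [vec_part]
  simp only [map_smul, smul_apply, smul_eq_mul]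
  rw [← mul_assoc, Real.sqrt_mul (mul_nonneg ht ht), Real.sqrt_mul_self ht]

/-- The comparison inequality for a point on a geodesic. -/
theorem mid_t {y z : M} (β : Cl y z) {t : ℝ} (ht0 : 0 ≤ t) (ht1 : t ≤ 1) {x : M} (ζ : Cl y x) :
    S.len ((part S β t).symm.trans ζ) ^ 2 ≤ (1 - t) * S.len ζ ^ 2 +
      t * S.len (β.symm.trans ζ) ^ 2 - t * (1 - t) * S.len β ^ 2 := by
  set u := S.vec β with hu
  set m := S.e y (t • u) with hm
  obtain ⟨w, hw, hw2⟩ := S.shift y u t
  rw [← hm] at hw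
  have hw3 : ∀ s : ℝ, S.e y ((t + s) • u) = S.e m (s • w) := hw2
  have hwy : S.e m ((-t) • w) = y := by
    rw [← hw3]; simp [S.zero]
  have hwz : S.e m ((1 - t) • w) = z := by
    rw [← hw3]
    simp only [add_sub_cancel, one_smul]
    exact S.e_vec β
  set μ : Cl y m := part S β t with hμ
  have hvμ : S.vec μ = t • u := vec_part S β t
  have hvμ' : S.vec μ.symm = (-t) • w := by
    rw [hμ, part, ← mk_symm]
    have := S.vec_mk (S.rayTo y m (t • u) rfl).symm
      ⟨fun s : I => (-((s : ℝ) * t)) • w, by fun_prop⟩ (by simp) (by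
        intro s
        change S.e m ((-((s : ℝ) * t)) • w) = S.e y (((unitInterval.symm s : I) : ℝ) • (t • u))
        rw [← hw3, smul_smul, unitInterval.coe_symm_eq]
        congr 2
        ring)
    simpa using this
  set ν : Cl m z := mk (S.rayTo m z ((1 - t) • w) hwz) with hν
  have hvν : S.vec ν = (1 - t) • w := S.vec_rayTo _ _ _ _
  have hμν : μ.trans ν = β := by
    apply S.vec_inj
    rw [hν, S.vec_trans μ (S.rayTo m z ((1 - t) • w) hwz)
      ⟨fun s : I => (t + (s : ℝ) * (1 - t)) • u, by fun_prop⟩ (by simp [hvμ]) (by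
        intro s
        simp only [ContinuousMap.coe_mk, ExpSys.rayTo_apply]
        rw [hw3, smul_smul])]
    simp only [ContinuousMap.coe_mk, Icc.coe_one, one_mul, add_sub_cancel, one_smul]
    exact hu
  have hν' : μ.symm.trans β = ν := by
    rw [← hμν, ← trans_assoc, symm_trans, refl_trans]
  set V := S.vec (μ.symm.trans ζ) with hV
  have c1 := S.compare' μ.symm ζ
  rw [hvμ', ← hV] at c1
  have c2 := S.compare' ν (β.symm.trans ζ)
  have e2 : ν.trans (β.symm.trans ζ) = μ.symm.trans ζ := by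
    rw [← hν', trans_assoc, ← trans_assoc β, trans_symm, refl_trans]
  rw [e2, hvν, ← hV] at c2
  have q1 := pow_le_pow_left₀ (S.nrm_nonneg _ _) c1 2
  have q2 := pow_le_pow_left₀ (S.nrm_nonneg _ _) c2 2
  rw [S.nrm_sq, S.ip_sub] at q1 q2
  simp only [map_smul, smul_apply, smul_eq_mul] at q1 q2
  have q3 : S.len (μ.symm.trans ζ) ^ 2 = S.ip m V V := by rw [ExpSys.len, S.nrm_sq]
  have q4 : S.len β ^ 2 = S.ip m w w := by rw [ExpSys.len, S.nrm_sq, hw]
  rw [q3, q4]
  have q5 := mul_le_mul_of_nonneg_left q1 (sub_nonneg.2 ht1)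
  have q6 := mul_le_mul_of_nonneg_left q2 ht0
  nlinarith [q5, q6]

lemma len_le_of_sq {a b : ℝ} (hb : 0 ≤ b) (h : a ^ 2 ≤ b ^ 2) : a ≤ b := by
  nlinarith [abs_le_of_sq_le_sq' h hb |>.2]

/-- Two geodesics from the same point. -/
lemma fan {y a b : M} (β : Cl y a) (β' : Cl y b) {t : ℝ} (ht0 : 0 ≤ t) (ht1 : t ≤ 1) :
    S.len ((part S β t).symm.trans (part S β' t)) ≤ t * S.len (β.symm.trans β') := by
  apply len_le_of_sq (mul_nonneg ht0 (S.len_nonneg _))
  have h1 := mid_t S β ht0 ht1 (part S β' t)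
  rw [len_part S β' ht0] at h1
  have h2 := mid_t S β' ht0 ht1 β
  have e1 : S.len ((part S β' t).symm.trans β) = S.len (β.symm.trans (part S β' t)) := by
    rw [← S.len_symm, ExpSys.symm_trans', ExpSys.symm_symm']
  have e2 : S.len (β'.symm.trans β) = S.len (β.symm.trans β') := by
    rw [← S.len_symm, ExpSys.symm_trans', ExpSys.symm_symm']
  rw [e1, e2] at h2
  have h3 := mul_le_mul_of_nonneg_left h2 ht0
  nlinarith [h1, h3]

/-- Two geodesics to the same point. -/
lemma fan' {y y' z : M} (α : Cl y y') (γ : Cl y' z) {t : ℝ} (ht0 : 0 ≤ t) (ht1 : t ≤ 1) :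
    S.len ((part S (α.trans γ) t).symm.trans (α.trans (part S γ t))) ≤ (1 - t) * S.len α := by
  apply len_le_of_sq (mul_nonneg (sub_nonneg.2 ht1) (S.len_nonneg _))
  have h1 := mid_t S (α.trans γ) ht0 ht1 (α.trans (part S γ t))
  have h2 := mid_t S γ ht0 ht1 α.symm
  have h3 := mid_t S γ ht0 ht1 γ
  have e1 : S.len ((part S γ t).symm.trans α.symm) = S.len (α.trans (part S γ t)) := by
    rw [← S.len_symm, ExpSys.symm_trans', ExpSys.symm_symm', ExpSys.symm_symm']
  have e2 : S.len (γ.symm.trans α.symm) = S.len (α.trans γ) := by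
    rw [← S.len_symm, ExpSys.symm_trans', ExpSys.symm_symm', ExpSys.symm_symm']
  have e3 : (α.trans γ).symm.trans (α.trans (part S γ t)) = γ.symm.trans (part S γ t) := by
    rw [ExpSys.symm_trans', trans_assoc, ← trans_assoc α.symm, symm_trans, refl_trans]
  have e4 : S.len (γ.symm.trans (part S γ t)) = S.len ((part S γ t).symm.trans γ) := by
    rw [← S.len_symm, ExpSys.symm_trans', ExpSys.symm_symm']
  rw [e1, e2, S.len_symm] at h2
  rw [e3, e4] at h1
  rw [symm_trans, S.len_refl] at h3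
  have h4 := mul_le_mul_of_nonneg_left h3 ht0
  have h5 := mul_le_mul_of_nonneg_left h2 (sub_nonneg.2 ht1)
  nlinarith [h1, h4, h5]

/-- Convexity. -/
theorem convex {y z y' z' : M} (α : Cl y y') (β : Cl z z') (γ : Cl y z) (γ' : Cl y' z')
    (h : γ.trans β = α.trans γ') {t : ℝ} (ht0 : 0 ≤ t) (ht1 : t ≤ 1) :
    S.len ((part S γ t).symm.trans (α.trans (part S γ' t))) ≤
      (1 - t) * S.len α + t * S.len β := by
  have h1 := fan S γ (α.trans γ') ht0 ht1
  have h2 := fan' S α γ' ht0 ht1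
  have e1 : γ.symm.trans (α.trans γ') = β := by
    rw [← h, ← trans_assoc, symm_trans, refl_trans]
  rw [e1] at h1
  have h3 := S.len_trans ((part S γ t).symm.trans (part S (α.trans γ') t))
    ((part S (α.trans γ') t).symm.trans (α.trans (part S γ' t)))
  have e2 : ((part S γ t).symm.trans (part S (α.trans γ') t)).trans
      ((part S (α.trans γ') t).symm.trans (α.trans (part S γ' t))) =
      (part S γ t).symm.trans (α.trans (part S γ' t)) := by
    rw [trans_assoc, ← trans_assoc (part S (α.trans γ') t), trans_symm, refl_trans]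
  rw [e2] at h3
  linarith

end G1

section Final

variable {n : ℕ} {M : Type} [TopologicalSpace M] [ChartedSpace (EV n) M]
  [IsManifold 𝓘(ℝ, EV n) ∞ M] [CompactSpace M] [T2Space M]
  {g₀ : RMetric (EV n) M} {φ : ℝ → UT g₀ → UT g₀}

theorem dist_le_of_endpoints_aux
    (hpt : ∀ (t : ℝ) (p : UT g₀), (φ t p).pt = geo (mt g₀) p.pt (p.vec : EV n) t)
    (h₀ : Npc (mt g₀)) {p q : UT g₀} {T κ : ℝ}
    (hT : 0 ≤ T) (α : Cl p.pt q.pt) (β : Cl (φ T p).pt (φ T q).pt)
    (hα : (sys g₀ h₀).len α ≤ κ) (hβ : (sys g₀ h₀).len β ≤ κ)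
    (γp : Cl p.pt (φ T p).pt) (γq : Cl q.pt (φ T q).pt)
    (hγp : (sys g₀ h₀).vec γp = T • (p.vec : EV n)) (hγq : (sys g₀ h₀).vec γq = T • (q.vec : EV n))
    (h : γp.trans β = α.trans γq) {t : ℝ} (ht0 : 0 ≤ t) (ht : t ≤ T) :
    ∃ δ : Cl (φ t p).pt (φ t q).pt, (sys g₀ h₀).len δ ≤ κ := by
  have key : ∃ τ : ℝ, 0 ≤ τ ∧ τ ≤ 1 ∧ τ * T = t := by
    rcases eq_or_lt_of_le hT with h1 | h1
    · exact ⟨0, le_rfl, zero_le_one, by rw [zero_mul]; linarith⟩
    · exact ⟨t / T, div_nonneg ht0 hT, (div_le_one h1).2 ht, div_mul_cancel₀ t h1.ne'⟩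
  obtain ⟨τ, hτ0, hτ1, hτ⟩ := key
  have hc := G1.convex (sys g₀ h₀) α β γp γq h hτ0 hτ1
  have e0 : ∀ (x : UT g₀) (V v : EV n), (x.vec : EV n) = v → V = T • v →
      (sys g₀ h₀).e x.pt (τ • V) = (φ t x).pt := by
    intro x V v hv hV
    rw [hV, smul_smul, hτ, hpt, hv]
    exact P255.expg_smul _ _ _ _
  have e1 := e0 p _ _ rfl hγp
  have e2 := e0 q _ _ rfl hγq
  have hex : ∃ δ : Cl ((sys g₀ h₀).e p.pt (τ • (sys g₀ h₀).vec γp))
      ((sys g₀ h₀).e q.pt (τ • (sys g₀ h₀).vec γq)), (sys g₀ h₀).len δ ≤ κ := by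
    refine ⟨_, hc.trans ?_⟩
    have h1 := mul_le_mul_of_nonneg_left hα (sub_nonneg.2 hτ1)
    have h2 := mul_le_mul_of_nonneg_left hβ hτ0
    linarith
  rw [e1, e2] at hex
  exact hex

/-- G1. convexity: two geodesic segments whose endpoints are joined by classes of length `≤ κ`,
compatibly, stay within `κ` of each other -/
theorem dist_le_of_endpoints (hφ : IsGeoFlow g₀ φ) (h₀ : Npc (mt g₀)) {p q : UT g₀} {T κ : ℝ}
    (hT : 0 ≤ T) (α : Cl p.pt q.pt) (β : Cl (φ T p).pt (φ T q).pt)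
    (hα : (sys g₀ h₀).len α ≤ κ) (hβ : (sys g₀ h₀).len β ≤ κ)
    (γp : Cl p.pt (φ T p).pt) (γq : Cl q.pt (φ T q).pt)
    (hγp : (sys g₀ h₀).vec γp = T • (p.vec : EV n)) (hγq : (sys g₀ h₀).vec γq = T • (q.vec : EV n))
    (h : γp.trans β = α.trans γq) {t : ℝ} (ht0 : 0 ≤ t) (ht : t ≤ T) :
    ∃ δ : Cl (φ t p).pt (φ t q).pt, (sys g₀ h₀).len δ ≤ κ :=
  dist_le_of_endpoints_aux (fun t p => hφ.pt_eq t p) h₀ hT α β hα hβ γp γq hγp hγq h ht0 ht

end Final

end Vale.Agent.P207
end
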