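import Vale.Agent.P207.BaseD
import Vale.Agent.P207.BlkC1
import Vale.Agent.P207.BlkF
import Vale.Agent.P207.BlkG1
import Vale.Agent.P207.BlkE2

/-!
# P207, block DT: the topological entropy of the geodesic flow of a metric of nonpositive curvature
is at most the growth rate of the homotopy classes
-/

open scoped Manifold ContDiff ENNReal Topology unitInterval
open Bundle MeasureTheory Set Filter

noncomputable section

namespace Vale.Agent.P207

open Vale.Agent.P255 (RMetric coefIn Gam Riem IsGeo Metric Npc ExpSys toMetric geo expg cc curvOp)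
open Path.Homotopic.Quotient

namespace DT

section Abstract

variable {E M : Type} [NormedAddCommGroup E] [NormedSpace ℝ E] [TopologicalSpace M]
  (S : ExpSys E M)

/-- small balls are contained in given neighbourhoods -/
lemma exists_nb_subset [FiniteDimensional ℝ E] (x : M) {U : Set M} (hU : U ∈ 𝓝 x) :
    ∃ η : ℝ, 0 < η ∧ C1.nb S x η ⊆ U := by
  have hc : ContinuousAt (S.e x) 0 := (S.cov x).continuous.continuousAt
  have hU' : S.e x ⁻¹' U ∈ 𝓝 (0 : E) := hc (by rw [S.zero]; exact hU)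
  obtain ⟨r, hr, hr2⟩ := Metric.mem_nhds_iff.1 hU'
  obtain ⟨c, hc0, hc1⟩ := C1.exists_le_ip S x
  refine ⟨Real.sqrt c * r, by positivity, ?_⟩
  rw [C1.nb_eq]
  rintro _ ⟨v, hv, rfl⟩
  apply hr2
  rw [mem_ball_zero_iff]
  have hv : S.nrm x v < Real.sqrt c * r := hv
  have h1 : (Real.sqrt c * ‖v‖) ^ 2 ≤ S.nrm x v ^ 2 := by
    rw [S.nrm_sq, mul_pow, Real.sq_sqrt hc0.le]
    exact hc1 v
  have h2 : Real.sqrt c * ‖v‖ ≤ S.nrm x v :=
    (abs_le_of_sq_le_sq' h1 (S.nrm_nonneg _ _)).2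
  have h3 : 0 < Real.sqrt c := Real.sqrt_pos.2 hc0
  exact lt_of_mul_lt_mul_left (h2.trans_lt hv) h3.le

/-- limits of points joined by classes whose length tends to zero coincide -/
lemma eq_of_tendsto [FiniteDimensional ℝ E] [T2Space M] {x y : ℕ → M} {x₀ y₀ : M}
    (hx : Tendsto x atTop (𝓝 x₀)) (hy : Tendsto y atTop (𝓝 y₀)) {κ : ℕ → ℝ}
    (hκ : Tendsto κ atTop (𝓝 0)) (h : ∀ k, ∃ α : Cl (x k) (y k), S.len α ≤ κ k) : x₀ = y₀ := by
  by_contra hne
  obtain ⟨U, V, hU, hV, hxU, hyV, hUV⟩ := t2_separation hne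
  obtain ⟨η, hη, hη2⟩ := exists_nb_subset S x₀ (hU.mem_nhds hxU)
  have e1 : ∀ᶠ k in atTop, x k ∈ C1.nb S x₀ (η / 2) :=
    hx (C1.nb_mem_nhds S x₀ (by positivity))
  have e2 : ∀ᶠ k in atTop, κ k < η / 2 := hκ (Iio_mem_nhds (by positivity))
  have e3 : ∀ᶠ k in atTop, y k ∈ V := hy (hV.mem_nhds hyV)
  obtain ⟨k, hk1, hk2, hk3⟩ := (e1.and (e2.and e3)).exists
  obtain ⟨α, hα⟩ := hk1
  obtain ⟨β, hβ⟩ := h k
  have : y k ∈ C1.nb S x₀ η := by
    refine ⟨α.trans β, ?_⟩
    have := S.len_trans α β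
    linarith
  exact hUV.le_bot ⟨hη2 this, hk3⟩

/-- a vector is determined by its geodesic on `[0,1]` -/
lemma eq_of_ray {x : M} {v w : E} (h : ∀ t : ℝ, 0 ≤ t → t ≤ 1 → S.e x (t • v) = S.e x (t • w)) :
    v = w := by
  have h1 : S.e x v = S.e x w := by
    have := h 1 zero_le_one le_rfl
    rwa [one_smul, one_smul] at this
  have e1 := S.vec_rayTo x (S.e x w) v h1
  have e2 := S.vec_rayTo x (S.e x w) w rfl
  have e3 : S.rayTo x (S.e x w) v h1 = S.rayTo x (S.e x w) w rfl := by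
    ext t
    simp only [ExpSys.rayTo_apply]
    exact h t t.2.1 t.2.2
  rw [e3] at e1
  exact e1.symm.trans e2

/-- points of a compact space whose orbits of length one are close are close -/
lemma exists_kappa [FiniteDimensional ℝ E] [T2Space M] {X : Type} [MetricSpace X] [CompactSpace X]
    (P : ℝ → X → M) (hP : ∀ t, Continuous (P t))
    (hinj : ∀ p q, (∀ t : ℝ, 0 ≤ t → t ≤ 1 → P t p = P t q) → p = q) {ε : ℝ} (hε : 0 < ε) :
    ∃ κ : ℝ, 0 < κ ∧ ∀ p q : X,
      (∀ t : ℝ, 0 ≤ t → t ≤ 1 → ∃ δ : Cl (P t p) (P t q), S.len δ ≤ κ) → dist p q < ε := by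
  by_contra! H
  choose p q hpq hd using fun k : ℕ => H (1 / ((k : ℝ) + 1)) Nat.one_div_pos_of_nat
  obtain ⟨⟨p₀, q₀⟩, ψ, hψ, hlim⟩ := CompactSpace.tendsto_subseq (fun k : ℕ => (p k, q k))
  have hp : Tendsto (fun k => p (ψ k)) atTop (𝓝 p₀) := (continuous_fst.tendsto _).comp hlim
  have hq : Tendsto (fun k => q (ψ k)) atTop (𝓝 q₀) := (continuous_snd.tendsto _).comp hlim
  have heq : p₀ = q₀ := by
    apply hinj
    intro t ht0 ht1
    refine eq_of_tendsto S (((hP t).tendsto _).comp hp) (((hP t).tendsto _).comp hq)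
      (κ := fun k => 1 / ((ψ k : ℝ) + 1))
      (tendsto_one_div_add_atTop_nhds_zero_nat.comp hψ.tendsto_atTop)
      (fun k => hpq (ψ k) t ht0 ht1)
  subst heq
  have h1 : Tendsto (fun k => dist (p (ψ k)) (q (ψ k))) atTop (𝓝 0) := by
    have := hp.dist hq
    rwa [dist_self] at this
  obtain ⟨k, hk⟩ := (h1.eventually (Iio_mem_nhds hε)).exists
  exact absurd hk (not_lt.2 (hd (ψ k)))

/-- choice of representatives -/
lemma exists_reps {X A : Type} (code : X → A) (K : Finset A) (hK : ∀ x, code x ∈ K) :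
    ∃ E : Finset X, E.card ≤ K.card ∧ ∀ x, ∃ y ∈ E, code y = code x := by
  classical
  rcases isEmpty_or_nonempty X with hX | hX
  · exact ⟨∅, by simp, fun x => (hX.false x).elim⟩
  · refine ⟨K.image (Function.invFun code), Finset.card_image_le, fun x =>
      ⟨Function.invFun code (code x), Finset.mem_image_of_mem _ (hK x), ?_⟩⟩
    exact Function.invFun_eq ⟨x, rfl⟩

/-- two geodesics with the same code -/
lemma conj_of_code {a b a' b' x y x' y' : M} (τ : Cl a x) (ρ : Cl b y) (γ : Cl x y)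
    (τ' : Cl a' x') (ρ' : Cl b' y') (γ' : Cl x' y')
    (h : (⟨(a, b), (τ.trans γ).trans ρ.symm⟩ : Σ jk : M × M, Cl jk.1 jk.2) =
      ⟨(a', b'), (τ'.trans γ').trans ρ'.symm⟩) {κ : ℝ}
    (h1 : S.len τ < κ) (h2 : S.len ρ < κ) (h3 : S.len τ' < κ) (h4 : S.len ρ' < κ) :
    ∃ (α : Cl x x') (β : Cl y y'), S.len α ≤ 2 * κ ∧ S.len β ≤ 2 * κ ∧
      γ.trans β = α.trans γ' := by
  obtain ⟨h5, h6⟩ := Sigma.mk.inj_iff.1 h
  obtain ⟨h7, h8⟩ := Prod.ext_iff.1 h5
  subst h7
  subst h8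
  have h9 := eq_of_heq h6
  refine ⟨τ.symm.trans τ', ρ.symm.trans ρ', ?_, ?_, ?_⟩
  · have := S.len_trans τ.symm τ'
    rw [S.len_symm] at this
    linarith
  · have := S.len_trans ρ.symm ρ'
    rw [S.len_symm] at this
    linarith
  · have h10 : γ = τ.symm.trans ((((τ'.trans γ').trans ρ'.symm)).trans ρ) := by
      rw [← h9, C1.trans_cancel_right, C1.symm_trans_cancel_left]
    have e : ρ.trans (ρ.symm.trans ρ') = ρ' := by
      rw [← trans_assoc, trans_symm, refl_trans]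
    rw [h10, trans_assoc, trans_assoc, trans_assoc, e, symm_trans, trans_refl, trans_assoc]

end Abstract

section Span

variable {n : ℕ} {M : Type} [TopologicalSpace M] [CompactSpace M] [T2Space M]
  (S : ExpSys (EV n) M)

/-- Spanning sets from the growth of the homotopy classes. -/
theorem exists_span {X : Type} [MetricSpace X] [CompactSpace X] (Φ : ℝ → X → X) (P : X → M)
    (hP : ∀ t, Continuous fun x => P (Φ t x))
    (hadd : ∀ s t x, Φ (s + t) x = Φ s (Φ t x))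
    (hinj : ∀ p q, (∀ t : ℝ, 0 ≤ t → t ≤ 1 → P (Φ t p) = P (Φ t q)) → p = q)
    (cls : ∀ (T : ℝ) (p : X), Cl (P p) (P (Φ T p)))
    (hlen : ∀ (T : ℝ) (p : X), 0 ≤ T → S.len (cls T p) ≤ T)
    (hconv : ∀ (p q : X) (T κ : ℝ), 0 ≤ T → ∀ (α : Cl (P p) (P q)) (β : Cl (P (Φ T p)) (P (Φ T q))),
      S.len α ≤ κ → S.len β ≤ κ → (cls T p).trans β = α.trans (cls T q) →
      ∀ t, 0 ≤ t → t ≤ T → ∃ δ : Cl (P (Φ t p)) (P (Φ t q)), S.len δ ≤ κ)
    {s : ℝ} (hG : GrowthLE S s) {ε : ℝ} (hε : 0 < ε) :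
    ∃ C : ℝ, ∀ N : ℕ, ∃ E : Finset X, (E.card : ℝ) ≤ C * Real.exp (s * N) ∧
      ∀ x, ∃ y ∈ E, ∀ i < N, dist (Φ i x) (Φ i y) < ε := by
  obtain ⟨κ, hκ, hκ2⟩ := exists_kappa S (fun t x => P (Φ t x)) hP hinj hε
  obtain ⟨F, hF⟩ := C1.exists_centers S (show (0 : ℝ) < κ / 2 by positivity)
  obtain ⟨C, hC⟩ := hG
  choose c hc τ hτ using hF
  refine ⟨F.card * F.card * (C * Real.exp (s * κ)), fun N => ?_⟩
  have hfin := fun jk : M × M => (hC jk.1 jk.2 (N + κ) (by positivity)).1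
  set K : Finset (Σ jk : M × M, Cl jk.1 jk.2) :=
    (F ×ˢ F).sigma (fun jk => (hfin jk).toFinset) with hKdef
  set code : X → Σ jk : M × M, Cl jk.1 jk.2 := fun x =>
    ⟨(c (P x), c (P (Φ N x))), ((τ (P x)).trans (cls N x)).trans (τ (P (Φ N x))).symm⟩ with hcode
  have hcK : ∀ x, code x ∈ K := by
    intro x
    rw [hKdef, Finset.mem_sigma]
    refine ⟨Finset.mem_product.2 ⟨hc _, hc _⟩, ?_⟩
    rw [Set.Finite.mem_toFinset]
    change S.len _ ≤ _
    have h1 := S.len_trans ((τ (P x)).trans (cls N x)) (τ (P (Φ N x))).symm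
    have h2 := S.len_trans (τ (P x)) (cls N x)
    have h3 := hlen N x (Nat.cast_nonneg N)
    rw [S.len_symm] at h1
    have h4 := hτ (P x)
    have h5 := hτ (P (Φ N x))
    linarith
  obtain ⟨E, hE1, hE2⟩ := exists_reps code K hcK
  refine ⟨E, ?_, ?_⟩
  · have h1 : (K.card : ℝ) ≤ F.card * F.card * (C * Real.exp (s * κ)) * Real.exp (s * N) := by
      rw [hKdef, Finset.card_sigma]
      push_cast
      have h2 : ∀ jk ∈ F ×ˢ F, (((hfin jk).toFinset.card : ℕ) : ℝ) ≤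
          C * Real.exp (s * κ) * Real.exp (s * N) := by
        intro jk _
        have h3 := (hC jk.1 jk.2 (N + κ) (by positivity)).2
        rw [Set.ncard_eq_toFinset_card _ (hfin jk)] at h3
        rw [mul_assoc, ← Real.exp_add]
        rw [show s * κ + s * N = s * (N + κ) by ring]
        exact h3
      refine (Finset.sum_le_sum h2).trans ?_
      rw [Finset.sum_const, Finset.card_product, nsmul_eq_mul]
      push_cast
      exact le_of_eq (by ring)
    exact (Nat.cast_le.2 hE1).trans h1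
  · intro x
    obtain ⟨y, hy, hxy⟩ := hE2 x
    refine ⟨y, hy, fun i hi => ?_⟩
    obtain ⟨α, β, hα, hβ, hαβ⟩ := conj_of_code S (τ (P x)) (τ (P (Φ N x))) (cls N x) (τ (P y))
      (τ (P (Φ N y))) (cls N y) hxy.symm (hτ _) (hτ _) (hτ _) (hτ _)
    rw [show (2 : ℝ) * (κ / 2) = κ by ring] at hα hβ
    have h1 := hconv x y N κ (Nat.cast_nonneg N) α β hα hβ hαβ
    apply hκ2
    intro t ht0 ht1
    have h2 : (i : ℝ) + 1 ≤ N := by exact_mod_cast hi
    have h3 := h1 (t + i) (by positivity) (by linarith)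
    rw [hadd, hadd] at h3
    exact h3

end Span

variable {n : ℕ} {M : Type} [TopologicalSpace M] [ChartedSpace (EV n) M]
  [IsManifold 𝓘(ℝ, EV n) ∞ M]

lemma ext_UT {g : RMetric (EV n) M} {p q : UT g} (h1 : p.pt = q.pt)
    (h2 : (p.vec : EV n) = (q.vec : EV n)) : p = q := by
  obtain ⟨⟨x, v⟩, hp⟩ := p
  obtain ⟨⟨y, w⟩, hq⟩ := q
  have h1 : x = y := h1
  subst h1
  have h2 : v = w := h2
  subst h2
  rfl

variable [CompactSpace M] [T2Space M] {g : RMetric (EV n) M} {φ : ℝ → UT g → UT g}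

/-- the point of the flow is the value of the exponential map -/
lemma pt_eq_e (hφ : IsGeoFlow g φ) (h : Npc (mt g)) (t : ℝ) (p : UT g) :
    (φ t p).pt = (sys g h).e p.pt (t • (p.vec : EV n)) := by
  have h1 := hφ.pt_eq t p
  have h2 := P255.expg_smul (mt g) p.pt (p.vec : EV n) t
  exact h1.trans h2.symm

/-- two unit vectors whose geodesics are equal on `[0,1]` -/
lemma eq_of_pt_eq (hφ : IsGeoFlow g φ) (h : Npc (mt g)) {p q : UT g}
    (hpq : ∀ t : ℝ, 0 ≤ t → t ≤ 1 → (φ t p).pt = (φ t q).pt) : p = q := by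
  have h0 : p.pt = q.pt := by
    have := hpq 0 le_rfl zero_le_one
    rwa [hφ.zero, hφ.zero] at this
  apply ext_UT h0
  apply eq_of_ray (sys g h) (x := p.pt)
  intro t ht0 ht1
  have h1 := pt_eq_e hφ h t p
  have h2 := pt_eq_e hφ h t q
  rw [← h0] at h2
  exact h1.symm.trans ((hpq t ht0 ht1).trans h2)

/-- the class of the geodesic segment of a unit vector -/
def cls (hφ : IsGeoFlow g φ) (h : Npc (mt g)) (T : ℝ) (p : UT g) : Cl p.pt (φ T p).pt :=
  Path.Homotopic.Quotient.mk ((sys g h).rayTo p.pt (φ T p).pt (T • (p.vec : EV n))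
    (pt_eq_e hφ h T p).symm)

lemma vec_cls (hφ : IsGeoFlow g φ) (h : Npc (mt g)) (T : ℝ) (p : UT g) :
    (sys g h).vec (cls hφ h T p) = T • (p.vec : EV n) :=
  (sys g h).vec_rayTo _ _ _ _

lemma nrm_vec (h : Npc (mt g)) (p : UT g) : (sys g h).nrm p.pt (p.vec : EV n) = 1 := by
  unfold ExpSys.nrm
  rw [sys_ip, ip_eq]
  have : g.inner p.pt p.vec p.vec = 1 := p.2
  rw [this, Real.sqrt_one]

lemma len_cls (hφ : IsGeoFlow g φ) (h : Npc (mt g)) (T : ℝ) (p : UT g) :
    (sys g h).len (cls hφ h T p) = |T| := by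
  rw [ExpSys.len]
  have h1 := C1.nrm_smul (sys g h) p.pt T (p.vec : EV n)
  have h2 := congrArg (fun x : EV n => (sys g h).nrm p.pt x) (vec_cls hφ h T p)
  have h3 := congrArg (fun x : ℝ => |T| * x) (nrm_vec h p)
  exact h2.trans (h1.trans (h3.trans (mul_one _)))

end DT

variable {n : ℕ} {M : Type} [TopologicalSpace M] [ChartedSpace (EV n) M]
  [IsManifold 𝓘(ℝ, EV n) ∞ M] [CompactSpace M] [T2Space M]

set_option linter.unusedVariables false in
/-- DT. the topological entropy of the geodesic flow of a metric of nonpositive curvature is at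
most the growth rate of the homotopy classes -/
theorem topEntropy_le_of_growthLE {g : RMetric (EV n) M} {φ : ℝ → UT g → UT g}
    (hφ : IsGeoFlow g φ) (h : Npc (mt g)) {s : ℝ} (hs : 0 ≤ s) (hG : GrowthLE (sys g h) s) :
    topEntropy (φ 1) ≤ ENNReal.ofReal s := by
  have := compactSpace_UT g
  have := metrizableSpace_UT g
  let _ : MetricSpace (UT g) := TopologicalSpace.metrizableSpaceMetric (UT g)
  refine topEntropy_le_of_span (hφ.continuous_right 1) fun ε hε => ?_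
  obtain ⟨C, hC⟩ := DT.exists_span (sys g h) φ UT.pt
    (fun t => (continuous_pt g).comp (hφ.continuous_right t)) hφ.add
    (fun p q hpq => DT.eq_of_pt_eq hφ h hpq) (DT.cls hφ h)
    (fun T p hT => by rw [DT.len_cls, abs_of_nonneg hT])
    (fun p q T κ hT α β hα hβ hαβ t ht0 ht => dist_le_of_endpoints hφ h hT α β hα hβ
      (DT.cls hφ h T p) (DT.cls hφ h T q) (DT.vec_cls hφ h T p) (DT.vec_cls hφ h T q) hαβ ht0 ht)
    hG hε
  refine ⟨C, fun N => ?_⟩
  obtain ⟨E, hE1, hE2⟩ := hC N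
  refine ⟨E, hE1, fun x => ?_⟩
  obtain ⟨y, hy, hxy⟩ := hE2 x
  refine ⟨y, hy, fun i hi => ?_⟩
  have := hxy i hi
  rw [hφ.iterate, hφ.iterate, mul_one]
  exact this

end Vale.Agent.P207
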