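import Vale.Agent.P207.Base
import Vale.Agent.P207.H891.VarPrinc

/-!
# P207, block E1: the easy half of the variational principle, with a potential
-/

open scoped Manifold ContDiff ENNReal Topology
open Bundle MeasureTheory Set Filter

noncomputable section

namespace Vale.Agent.P207

/-- E1. The easy half of the variational principle, with a potential. -/
theorem ksEntropy_le_of_sum {X : Type} [MetricSpace X] [CompactSpace X] [MeasurableSpace X]
    [BorelSpace X] {μ : Measure X} [IsProbabilityMeasure μ] {T : X → X} (hT : Continuous T)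
    (hμ : MeasurePreserving T μ μ) {F : X → ℝ} (hF : Continuous F)
    (h : ∀ ε > 0, ∃ C : ℝ, ∀ (N : ℕ) (E : Finset X), Sep T N ε E →
      ∑ x ∈ E, Real.exp (-∑ i ∈ Finset.range N, F (T^[i] x)) ≤ C) :
    ksEntropy μ T ≤ ENNReal.ofReal (∫ x, F x ∂μ) := by
  refine H891.ksEntropy_le hT hμ hF fun ε hε κ hκ => ?_
  obtain ⟨C, hC⟩ := h ε hε
  refine ⟨|C|, fun N E hE => ?_⟩
  have h1 : Sep T N ε E := fun x hx y hy hxy => by
    obtain ⟨i, hi, hi'⟩ := hE x hx y hy hxy
    exact ⟨i, hi, hi'.le⟩
  calc ∑ x ∈ E, Real.exp (-birkhoffSum T F N x) ≤ C := hC N E h1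
    _ ≤ |C| * 1 := by rw [mul_one]; exact le_abs_self C
    _ ≤ |C| * Real.exp (κ * N) :=
        mul_le_mul_of_nonneg_left (Real.one_le_exp (by positivity)) (abs_nonneg _)

end Vale.Agent.P207
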