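import Vale.Agent.P207.BlkF

/-!
# P207, block G2: the length of a homotopy class is at most the length of any curve in it
-/

open scoped Manifold ContDiff ENNReal Topology unitInterval
open Bundle MeasureTheory Set Filter

noncomputable section

namespace Vale.Agent.P207

open Vale.Agent.P255 (RMetric coefIn Gam Riem IsGeo Metric Npc ExpSys toMetric geo expg IsExp cc)
open Path.Homotopic.Quotient

namespace G2

variable {E M : Type} [NormedAddCommGroup E] [NormedSpace ℝ E] [TopologicalSpace M]
  (S : ExpSys E M)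

/-- The curve `c` on `[s, t]`. -/
def seg {c : ℝ → M} (hc : Continuous c) (s t : ℝ) : Path (c s) (c t) where
  toFun τ := c (s + τ * (t - s))
  continuous_toFun := by fun_prop
  source' := by simp
  target' := by simp

@[simp] lemma seg_apply {c : ℝ → M} (hc : Continuous c) (s t : ℝ) (τ : I) :
    seg hc s t τ = c (s + τ * (t - s)) := rfl

lemma continuous_nrm (m : M) : Continuous fun v : E => S.nrm m v := by
  unfold ExpSys.nrm
  apply Continuous.sqrt
  fun_prop

lemma nrm_smul (m : M) {a : ℝ} (ha : 0 ≤ a) (v : E) : S.nrm m (a • v) = a * S.nrm m v := by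
  unfold ExpSys.nrm
  simp only [map_smul, smul_apply, smul_eq_mul]
  rw [← mul_assoc, Real.sqrt_mul (mul_nonneg ha ha), Real.sqrt_mul_self ha]

/-- The length of a homotopy class is at most the integral of a local speed bound. -/
theorem len_mk_le {c : ℝ → M} (hc : Continuous c) {f : ℝ → ℝ} (hf : Continuous f) {T : ℝ}
    (hT : 0 ≤ T) {y z : M} (γ : Path y z) (hγ : ∀ τ : I, γ τ = c (τ * T))
    (hloc : ∀ s, 0 ≤ s → s < T → ∀ r, f s < r →
      ∀ᶠ t in 𝓝[>] s, S.len (mk (seg hc s t)) ≤ r * (t - s)) :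
    S.len (mk γ) ≤ ∫ t in (0 : ℝ)..T, f t := by
  rcases eq_or_lt_of_le hT with rfl | hT'
  · have h1 : S.vec (mk γ) = 0 := by
      have h2 := S.vec_mk γ ⟨fun _ => (0 : E), continuous_const⟩ rfl (by
        intro t
        have h3 := hγ 0
        rw [γ.source] at h3
        rw [hγ t, mul_zero]
        simp only [mul_zero] at h3
        simp only [ContinuousMap.coe_mk]
        rw [S.zero, h3])
      exact h2
    rw [ExpSys.len, h1, S.nrm_zero, intervalIntegral.integral_same]
  have hγ0 : γ.toContinuousMap 0 = S.e y 0 := by rw [S.zero]; exact γ.source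
  set Γ := (S.cov y).liftPath γ.toContinuousMap 0 hγ0 with hΓ
  have hl : ∀ t, S.e y (Γ t) = γ t := fun t =>
    congrFun ((S.cov y).liftPath_lifts γ.toContinuousMap 0 hγ0) t
  have hΓ0 : Γ 0 = 0 := (S.cov y).liftPath_zero _ _ _
  have hvec : S.vec (mk γ) = Γ 1 := S.vec_mk γ Γ hΓ0 hl
  let V : ℝ → E := fun t => Γ (projIcc 0 1 zero_le_one (t / T))
  have hV : Continuous V := by fun_prop
  have hVc : ∀ t, 0 ≤ t → t ≤ T → S.e y (V t) = c t := by
    intro t h0 h1
    show S.e y (Γ _) = _
    rw [hl, hγ, projIcc_of_mem zero_le_one ⟨div_nonneg h0 hT, (div_le_one hT').2 h1⟩]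
    simp only
    rw [div_mul_cancel₀ t hT'.ne']
  have hstep : ∀ s t, 0 ≤ s → s ≤ t → t ≤ T →
      S.nrm y (V t) ≤ S.len (mk (seg hc s t)) + S.nrm y (V s) := by
    intro s t h0 hst h1
    let μ : Cl y (c s) := mk (S.rayTo y (c s) (V s) (hVc s h0 (hst.trans h1)))
    have hμ : S.vec μ = V s := S.vec_rayTo _ _ _ _
    have h2 := S.vec_trans μ (seg hc s t) ⟨fun τ : I => V (s + τ * (t - s)), by fun_prop⟩
      (by simp [hμ]) (by
        intro τ
        simp only [ContinuousMap.coe_mk, seg_apply]
        apply hVc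
        · have := mul_nonneg τ.2.1 (sub_nonneg.2 hst)
          linarith
        · have := mul_le_mul_of_nonneg_right τ.2.2 (sub_nonneg.2 hst)
          linarith)
    simp only [ContinuousMap.coe_mk, Icc.coe_one, one_mul, add_sub_cancel] at h2
    have h3 := S.compare' μ (mk (seg hc s t))
    rw [h2, hμ] at h3
    have h4 := S.nrm_add y (V t - V s) (V s)
    rw [sub_add_cancel] at h4
    linarith
  have hmain := image_le_of_liminf_slope_right_le_deriv_boundary
    (f := fun t => S.nrm y (V t)) (a := 0) (b := T)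
    ((continuous_nrm S y).comp hV).continuousOn (B := fun t => ∫ x in (0 : ℝ)..t, f x) (B' := f)
    (by
      have h1 : V 0 = 0 := by
        show Γ _ = 0
        rw [zero_div, projIcc_left]
        exact hΓ0
      simp only [h1, S.nrm_zero, intervalIntegral.integral_same, le_refl])
    (by
      apply Continuous.continuousOn
      exact intervalIntegral.continuous_primitive (fun a b => hf.intervalIntegrable a b) 0)
    (fun x _ => (intervalIntegral.integral_hasDerivAt_right (hf.intervalIntegrable _ _)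
      (hf.stronglyMeasurableAtFilter _ _) hf.continuousAt).hasDerivWithinAt)
    (by
      intro s hs r hr
      obtain ⟨r', hr1, hr2⟩ := exists_between hr
      have h1 := hloc s hs.1 hs.2 r' hr1
      have h2 : ∀ᶠ t in 𝓝[>] s, t ∈ Ioc s T := Ioc_mem_nhdsGT hs.2
      apply Eventually.frequently
      filter_upwards [h1, h2] with t h3 h4
      have h5 := hstep s t hs.1 h4.1.le h4.2
      have h6 : 0 < t - s := sub_pos.2 h4.1
      rw [slope_def_field, div_lt_iff₀ h6]
      have h7 := mul_lt_mul_of_pos_right hr2 h6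
      linarith)
  have h1 := hmain (right_mem_Icc.2 hT)
  have h2 : V T = Γ 1 := by
    show Γ _ = _
    rw [div_self hT'.ne', projIcc_right]
    rfl
  rw [ExpSys.len, hvec, ← h2]
  exact h1

section Local

variable [ChartedSpace E M] {g : Metric E M} {e : M → E → M}

/-- The derivative of the exponential map at zero. -/
lemma hasFDerivAt_exp (he : IsExp g e) (m : M) :
    HasFDerivAt (fun w => chartAt E m (e m w)) (ContinuousLinearMap.id ℝ E) 0 := by
  have h1 : DifferentiableAt ℝ (fun w => chartAt E m (e m w)) 0 :=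
    (he.smooth m 0 m (by rw [he.zero]; exact mem_chart_source E m)).differentiableAt
      one_ne_zero
  have h2 : fderiv ℝ (fun w => chartAt E m (e m w)) 0 = ContinuousLinearMap.id ℝ E := by
    ext w
    have h3 : HasDerivAt (fun t : ℝ => t • w) w 0 := by
      simpa using (hasDerivAt_id (0 : ℝ)).smul_const w
    have h4 : HasFDerivAt (fun w => chartAt E m (e m w))
        (fderiv ℝ (fun w => chartAt E m (e m w)) 0) ((0 : ℝ) • w) := by
      rw [zero_smul]
      exact h1.hasFDerivAt
    have h5 := h4.comp_hasDerivAt (0 : ℝ) h3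
    exact h5.unique (he.init m w)
  rw [← h2]
  exact h1.hasFDerivAt

/-- The first order behaviour of the length of short pieces of a curve. -/
theorem local_len (he : IsExp g e) (hSe : S.e = e) {c : ℝ → M} (hc : Continuous c) {s : ℝ}
    {v : E} (hv : HasDerivAt (cc (E := E) c (c s)) v s) {r : ℝ} (hr : S.nrm (c s) v < r) :
    ∀ᶠ t in 𝓝[>] s, S.len (mk (seg hc s t)) ≤ r * (t - s) := by
  subst hSe
  set m := c s with hm
  have hP0 : (seg hc s (s + 1)).toContinuousMap 0 = S.e m 0 := by
    rw [S.zero]; exact (seg hc s (s + 1)).source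
  set Γ := (S.cov m).liftPath (seg hc s (s + 1)).toContinuousMap 0 hP0 with hΓ
  have hl : ∀ t : I, S.e m (Γ t) = c (s + t) := fun t => by
    have h1 : S.e m (Γ t) = seg hc s (s + 1) t :=
      congrFun ((S.cov m).liftPath_lifts (seg hc s (s + 1)).toContinuousMap 0 hP0) t
    rw [h1, seg_apply]
    congr 1
    ring
  have hΓ0 : Γ 0 = 0 := (S.cov m).liftPath_zero _ _ _
  let V : ℝ → E := fun t => Γ (projIcc 0 1 zero_le_one (t - s))
  have hV : Continuous V := by fun_prop
  have hVs : V s = 0 := by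
    show Γ _ = 0
    rw [sub_self, projIcc_left]
    exact hΓ0
  have hVc : ∀ t, s ≤ t → t ≤ s + 1 → S.e m (V t) = c t := by
    intro t h0 h1
    show S.e m (Γ _) = _
    rw [hl, projIcc_of_mem zero_le_one ⟨by linarith, by linarith⟩]
    simp
  have hvec : ∀ t, s ≤ t → t ≤ s + 1 → S.vec (mk (seg hc s t)) = V t := by
    intro t h0 h1
    have h2 := S.vec_mk (seg hc s t) ⟨fun τ : I => V (s + τ * (t - s)), by fun_prop⟩
      (by simp [hVs]) (by
        intro τ
        simp only [ContinuousMap.coe_mk, seg_apply]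
        apply hVc
        · have := mul_nonneg τ.2.1 (sub_nonneg.2 h0)
          linarith
        · have := mul_le_mul_of_nonneg_right τ.2.2 (sub_nonneg.2 h0)
          linarith)
    simpa using h2
  have hnear : ∀ᶠ t in 𝓝[>] s, t ∈ Ioc s (s + 1) := Ioc_mem_nhdsGT (by linarith)
  -- the chart expression of the exponential map
  set F : E → E := fun w => chartAt E m (S.e m w) with hF
  have hF' : HasFDerivAt F (ContinuousLinearMap.id ℝ E) 0 := hasFDerivAt_exp he m
  have hFV : ∀ᶠ t in 𝓝[>] s, F (V t) = cc c m t := by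
    filter_upwards [hnear] with t ht
    show chartAt E m (S.e m (V t)) = _
    rw [hVc t ht.1.le ht.2]
    rfl
  have hF0 : F 0 = cc c m s := by
    show chartAt E m (S.e m 0) = chartAt E m (c s)
    rw [S.zero]
  have hVt : Tendsto V (𝓝[>] s) (𝓝 0) := by
    have h1 := hV.continuousAt (x := s)
    unfold ContinuousAt at h1
    rw [hVs] at h1
    exact h1.mono_left nhdsWithin_le_nhds
  have o1 : (fun t => F (V t) - F 0 - V t) =o[𝓝[>] s] V := by
    have h1 := hF'.isLittleO.comp_tendsto hVt
    simpa [Function.comp_def] using h1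
  have o2 : (fun t => cc (E := E) c m t - cc c m s - (t - s) • v) =o[𝓝[>] s] fun t => t - s :=
    (hasDerivAt_iff_isLittleO.1 hv).mono nhdsWithin_le_nhds
  have o3 : (fun t => F (V t) - F 0) =O[𝓝[>] s] fun t => t - s := by
    have h1 : (fun t => (t - s) • v) =O[𝓝[>] s] fun t => t - s := by
      refine Asymptotics.IsBigO.of_bound ‖v‖ (Eventually.of_forall fun t => ?_)
      rw [norm_smul, mul_comm]
    have h2 := o2.isBigO.add h1
    refine (Asymptotics.isBigO_congr ?_ EventuallyEq.rfl).1 h2
    filter_upwards [hFV] with t ht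
    rw [ht, hF0]
    abel
  have o4 : V =O[𝓝[>] s] fun t => t - s := by
    have h1 : Asymptotics.IsEquivalent (𝓝[>] s) (fun t => F (V t) - F 0) V := o1
    exact h1.isBigO_symm.trans o3
  have o5 : (fun t => V t - (t - s) • v) =o[𝓝[>] s] fun t => t - s := by
    have h1 := (o1.trans_isBigO o4).neg_left.add o2
    refine (Asymptotics.isLittleO_congr ?_ EventuallyEq.rfl).1 h1
    filter_upwards [hFV] with t ht
    rw [ht, hF0]
    abel
  have hd : Tendsto (fun t => (t - s)⁻¹ • V t) (𝓝[>] s) (𝓝 v) := by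
    have h1 : Tendsto (fun t => (t - s)⁻¹ • (V t - (t - s) • v)) (𝓝[>] s) (𝓝 0) :=
      o5.tendsto_inv_smul_nhds_zero
    have h2 := h1.add_const v
    rw [zero_add] at h2
    refine h2.congr' ?_
    filter_upwards [hnear] with t ht
    have h3 : t - s ≠ 0 := (sub_pos.2 ht.1).ne'
    rw [smul_sub, smul_smul, inv_mul_cancel₀ h3, one_smul, sub_add_cancel]
  have h1 : ∀ᶠ t in 𝓝[>] s, S.nrm m ((t - s)⁻¹ • V t) < r :=
    (((continuous_nrm S m).tendsto v).comp hd).eventually (gt_mem_nhds hr)
  filter_upwards [h1, hnear] with t h2 ht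
  have h3 : 0 < t - s := sub_pos.2 ht.1
  rw [nrm_smul S m (inv_nonneg.2 h3.le)] at h2
  rw [ExpSys.len, hvec t ht.1.le ht.2]
  have h4 := mul_lt_mul_of_pos_right h2 h3
  have h5 : (t - s)⁻¹ * S.nrm m (V t) * (t - s) = S.nrm m (V t) := by
    field_simp
  rw [h5] at h4
  exact h4.le

end Local

end G2

section Final

open Vale.Agent.P255 (IsGeodesic)

variable {n : ℕ} {M : Type} [TopologicalSpace M] [ChartedSpace (EV n) M]
  [IsManifold 𝓘(ℝ, EV n) ∞ M]

/-- the square of the `g₁`-length is continuous on the tangent bundle -/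
theorem continuous_inner_TB [CompactSpace M] [T2Space M] (g : RMetric (EV n) M) :
    Continuous fun p : TangentBundle 𝓘(ℝ, EV n) M => g.inner p.1 p.2 p.2 := by
  rw [continuous_iff_continuousAt]
  intro p
  have hp : p.1 ∈ (chartAt (EV n) p.1).source := mem_chart_source _ _
  have h1 := continuousAt_chT (n := n) p.1 hp
  have h2 : ContinuousAt (P255.coefL g p.1) (chT p.1 p).1 :=
    (P255.contDiffOn_coefL g p.1).continuousOn.continuousAt
      ((chartAt (EV n) p.1).open_target.mem_nhds ((chartAt (EV n) p.1).map_source hp))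
  have h3 : ContinuousAt (fun q : TangentBundle 𝓘(ℝ, EV n) M =>
      P255.coefL g p.1 (chT p.1 q).1 (chT p.1 q).2 (chT p.1 q).2) p :=
    ((ContinuousAt.comp (f := fun q => (chT p.1 q).1) h2 h1.fst).clm_apply h1.snd).clm_apply h1.snd
  refine h3.congr ?_
  filter_upwards [continuous_pt_TB.continuousAt.preimage_mem_nhds
    ((chartAt (EV n) p.1).open_source.mem_nhds hp)] with q hq
  exact inner_chT g p.1 hq

/-- the `g₁`-length of the `g₀`-unit vectors is continuous -/
theorem continuous_nrm_UT [CompactSpace M] [T2Space M] (g₀ g₁ : RMetric (EV n) M) : Continuous (nrm g₀ g₁) :=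
  ((continuous_inner_TB g₁).comp (continuous_val g₀)).sqrt

variable [CompactSpace M] [T2Space M] {g₀ g₁ : RMetric (EV n) M} {φ : ℝ → UT g₀ → UT g₀}

/-- G2. the `g₁`-geodesic in the class of a `g₀`-geodesic segment is shorter -/
theorem len_le_integral (hφ : IsGeoFlow g₀ φ) (h₀ : Npc (mt g₀)) (h₁ : Npc (mt g₁)) (p : UT g₀)
    {T : ℝ} (hT : 0 ≤ T) (γp : Cl p.pt (φ T p).pt)
    (hγp : (sys g₀ h₀).vec γp = T • (p.vec : EV n)) :
    (sys g₁ h₁).len γp ≤ ∫ t in (0 : ℝ)..T, nrm g₀ g₁ (φ t p) := by
  have hc : Continuous fun t => (φ t p).pt := (continuous_pt g₀).comp (hφ.continuous_left p)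
  have hf : Continuous fun t => nrm g₀ g₁ (φ t p) :=
    (continuous_nrm_UT g₀ g₁).comp (hφ.continuous_left p)
  -- the class is the class of the geodesic
  obtain ⟨V, hV⟩ : ∃ V : EV n, V = T • (p.vec : EV n) := ⟨_, rfl⟩
  have hend : (sys g₀ h₀).e p.pt V = (φ T p).pt := by
    rw [hV, hφ.pt_eq, sys_e]
    exact P255.expg_smul _ _ _ _
  have hmk : γp = mk ((sys g₀ h₀).rayTo p.pt (φ T p).pt V hend) := by
    apply (sys g₀ h₀).vec_inj
    rw [hγp, ← hV]
    exact ((sys g₀ h₀).vec_rayTo _ _ _ _).symm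
  rw [hmk]
  refine G2.len_mk_le (sys g₁ h₁) hc hf hT _ ?_ ?_
  · intro τ
    have key : ∀ v : EV n, (p.vec : EV n) = v → V = T • v →
        (sys g₀ h₀).e p.pt ((τ : ℝ) • V) = (φ (τ * T) p).pt := by
      intro v hv hV'
      rw [hV', smul_smul, hφ.pt_eq, sys_e, hv]
      exact P255.expg_smul _ _ _ _
    exact key _ rfl hV
  · intro s hs0 hsT r hr
    have hgeo := P255.isGeodesic_geo (mt g₀) p.pt (p.vec : EV n)
    have hcc : (fun t => (φ t p).pt) = geo (mt g₀) p.pt (p.vec : EV n) := by
      funext t; exact hφ.pt_eq t p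
    have hd : HasDerivAt (cc (E := EV n) (fun t => (φ t p).pt) (φ s p).pt)
        ((φ s p).vec : EV n) s := by
      have h1 := (hgeo.eqn (φ s p).pt s (mem_univ _) (by
        rw [← hφ.pt_eq]; exact mem_chart_source _ _)).1
      have h2 := hφ.vec_eq s p
      rw [hcc]
      have h3 := h1.hasDerivAt
      exact h2 ▸ h3
    refine G2.local_len (sys g₁ h₁) (P255.isExp_expg (mt g₁)) (sys_e g₁ h₁) hc hd ?_
    refine lt_of_eq_of_lt ?_ hr
    unfold ExpSys.nrm nrm
    rw [sys_ip]
    exact congrArg Real.sqrt (ip_eq g₁ _ _ _)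

end Final

end Vale.Agent.P207
end
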