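import Vale.Agent.P207.Rays

/-!
# P207, block G3: auxiliary statements
-/

open scoped Manifold ContDiff ENNReal Topology
open Bundle MeasureTheory Set Filter

noncomputable section

namespace Vale.Agent.P207

open Vale.Agent.P255 (RMetric coefIn Gam Riem IsGeo Metric Npc ExpSys toMetric geo expg cc)

/-- exponential counting bounds sum of exponentials -/
theorem sum_exp_le {ι : Type} (E : Finset ι) (ℓ : ι → ℝ) (hℓ : ∀ i ∈ E, 0 ≤ ℓ i) {C s s' : ℝ}
    (hC : 0 ≤ C) (hs' : 0 ≤ s') (hss : s < s')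
    (h : ∀ R : ℝ, 0 ≤ R → (∀ F ⊆ E, (∀ i ∈ F, ℓ i ≤ R) → (F.card : ℝ) ≤ C * Real.exp (s * R))) :
    ∑ i ∈ E, Real.exp (-(s' * ℓ i)) ≤ C * Real.exp s * (1 - Real.exp (-(s' - s)))⁻¹ := by
  classical
  set K := E.sup fun i => ⌊ℓ i⌋₊ with hK
  have hr0 : 0 ≤ Real.exp (-(s' - s)) := (Real.exp_pos _).le
  have hr1 : Real.exp (-(s' - s)) < 1 := by
    rw [Real.exp_lt_one_iff]; linarith
  calc ∑ i ∈ E, Real.exp (-(s' * ℓ i))
      = ∑ k ∈ Finset.range (K + 1), ∑ i ∈ E with ⌊ℓ i⌋₊ = k, Real.exp (-(s' * ℓ i)) := by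
        symm
        apply Finset.sum_fiberwise_of_maps_to
        intro i hi
        rw [Finset.mem_range, Nat.lt_succ_iff]
        exact Finset.le_sup (f := fun i => ⌊ℓ i⌋₊) hi
    _ ≤ ∑ k ∈ Finset.range (K + 1), C * Real.exp s * Real.exp (-(s' - s)) ^ k := by
        refine Finset.sum_le_sum fun k _ => ?_
        calc ∑ i ∈ E with ⌊ℓ i⌋₊ = k, Real.exp (-(s' * ℓ i))
            ≤ ∑ i ∈ E with ⌊ℓ i⌋₊ = k, Real.exp (-(s' * k)) := by
              refine Finset.sum_le_sum fun i hi => ?_
              rw [Finset.mem_filter] at hi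
              apply Real.exp_le_exp.2
              have h1 : (k : ℝ) ≤ ℓ i := by
                rw [← hi.2]; exact Nat.floor_le (hℓ i hi.1)
              nlinarith
          _ = ((E.filter fun i => ⌊ℓ i⌋₊ = k).card : ℝ) * Real.exp (-(s' * k)) := by
              rw [Finset.sum_const, nsmul_eq_mul]
          _ ≤ (C * Real.exp (s * (k + 1))) * Real.exp (-(s' * k)) := by
              apply mul_le_mul_of_nonneg_right _ (Real.exp_pos _).le
              apply h (k + 1) (by positivity) _ (Finset.filter_subset _ _)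
              intro i hi
              rw [Finset.mem_filter] at hi
              have := Nat.lt_floor_add_one (ℓ i)
              rw [hi.2] at this
              exact this.le
          _ = C * Real.exp s * Real.exp (-(s' - s)) ^ k := by
              rw [← Real.exp_nat_mul, mul_assoc, mul_assoc, ← Real.exp_add, ← Real.exp_add]
              congr 2
              ring
    _ = C * Real.exp s * ∑ k ∈ Finset.range (K + 1), Real.exp (-(s' - s)) ^ k := by
        rw [Finset.mul_sum]
    _ ≤ C * Real.exp s * (1 - Real.exp (-(s' - s)))⁻¹ := by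
        apply mul_le_mul_of_nonneg_left _ (by positivity)
        rw [← tsum_geometric_of_lt_one hr0 hr1]
        exact (summable_geometric_of_lt_one hr0 hr1).sum_le_tsum _ fun k _ => pow_nonneg hr0 k

section Birkhoff

variable {X : Type} [TopologicalSpace X] {Φ : ℝ → X → X} {a : X → ℝ}

theorem sum_avg (hΦ : Continuous fun q : ℝ × X => Φ q.1 q.2)
    (hadd : ∀ (s t : ℝ) (p : X), Φ (s + t) p = Φ s (Φ t p)) (ha : Continuous a) (N : ℕ) (x : X) :
    ∑ i ∈ Finset.range N, (∫ t in (0 : ℝ)..1, a (Φ t (Φ i x))) = ∫ t in (0 : ℝ)..N, a (Φ t x) := by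
  have hc : Continuous fun t : ℝ => a (Φ t x) :=
    ha.comp (hΦ.comp (by fun_prop : Continuous fun t : ℝ => (t, x)))
  have h1 := intervalIntegral.sum_integral_adjacent_intervals (f := fun t : ℝ => a (Φ t x))
    (μ := volume) (a := fun i : ℕ => (i : ℝ)) (n := N) (fun k _ => hc.intervalIntegrable _ _)
  rw [Nat.cast_zero] at h1
  rw [← h1]
  refine Finset.sum_congr rfl fun i _ => ?_
  have h2 := intervalIntegral.integral_comp_add_right (a := 0) (b := 1)
    (fun t : ℝ => a (Φ t x)) (i : ℝ)
  rw [zero_add, add_comm (1 : ℝ)] at h2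
  push_cast
  rw [← h2]
  simp_rw [hadd]

theorem continuous_avg (hΦ : Continuous fun q : ℝ × X => Φ q.1 q.2) (ha : Continuous a) :
    Continuous fun x => ∫ t in (0 : ℝ)..1, a (Φ t x) := by
  apply intervalIntegral.continuous_parametric_intervalIntegral_of_continuous'
  exact ha.comp (hΦ.comp (by fun_prop : Continuous fun q : X × ℝ => (q.2, q.1)))

theorem integral_avg [CompactSpace X] [SecondCountableTopology X] [MeasurableSpace X]
    [BorelSpace X] {ν : Measure X} [IsProbabilityMeasure ν]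
    (hΦ : Continuous fun q : ℝ × X => Φ q.1 q.2)
    (hν : ∀ t, MeasurePreserving (Φ t) ν ν) (ha : Continuous a) :
    ∫ x, (∫ t in (0 : ℝ)..1, a (Φ t x)) ∂ν = ∫ x, a x ∂ν := by
  have hcont : Continuous (Function.uncurry fun (t : ℝ) (x : X) => a (Φ t x)) := ha.comp hΦ
  have hint : Integrable (Function.uncurry fun (t : ℝ) (x : X) => a (Φ t x))
      ((volume.restrict (uIoc (0 : ℝ) 1)).prod ν) := by
    obtain ⟨B, hB⟩ : ∃ B, ∀ x, ‖a x‖ ≤ B := by
      obtain ⟨B, hB⟩ := (isCompact_range ha).isBounded.exists_norm_le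
      exact ⟨B, fun x => hB _ (mem_range_self x)⟩
    have : IsFiniteMeasure (volume.restrict (uIoc (0 : ℝ) 1)) := by
      rw [uIoc_of_le zero_le_one]; infer_instance
    exact Integrable.of_bound hcont.aestronglyMeasurable B (Eventually.of_forall fun q => hB _)
  rw [← intervalIntegral_integral_swap hint]
  have h1 : ∀ t : ℝ, ∫ x, a (Φ t x) ∂ν = ∫ x, a x ∂ν := by
    intro t
    have h2 := integral_map (μ := ν) (hν t).aemeasurable (f := a)
      (by rw [(hν t).map_eq]; exact ha.aestronglyMeasurable)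
    rw [(hν t).map_eq] at h2
    exact h2.symm
  simp_rw [h1]
  simp

end Birkhoff

end Vale.Agent.P207
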