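import Vale.Agent.P207.BlkE1
import Vale.Agent.P207.BlkG1
import Vale.Agent.P207.BlkG2
import Vale.Agent.P207.BlkC2
import Vale.Agent.P207.G3aux
import Vale.Agent.P207.Nrm

/-!
# P207, block G3: the stretch inequality
-/

open scoped Manifold ContDiff ENNReal Topology unitInterval
open Bundle MeasureTheory Set Filter

noncomputable section

namespace Vale.Agent.P207

open Vale.Agent.P255 (RMetric coefIn Gam Riem IsGeo Metric Npc ExpSys toMetric geo expg cc)

section Top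

variable {E M : Type} [NormedAddCommGroup E] [NormedSpace ℝ E] [TopologicalSpace M]

/-- different points are not joined by arbitrarily short classes -/
theorem exists_le_len_of_ne [FiniteDimensional ℝ E] [T1Space M] (S : ExpSys E M) {x y : M}
    (h : x ≠ y) : ∃ η > 0, ∀ α : Cl x y, η ≤ S.len α := by
  have hfin := C1.finite_len_le S x y 1
  rcases Set.eq_empty_or_nonempty {α : Cl x y | S.len α ≤ 1} with h0 | h0
  · refine ⟨1, one_pos, fun α => ?_⟩
    by_contra hα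
    push Not at hα
    have : α ∈ {α : Cl x y | S.len α ≤ 1} := hα.le
    rw [h0] at this
    exact this
  · obtain ⟨α₀, hα₀, hmin⟩ := Set.exists_min_image _ (fun α => S.len α) hfin h0
    have hpos : 0 < S.len α₀ := by
      rcases (S.len_nonneg α₀).lt_or_eq with h1 | h1
      · exact h1
      · exfalso
        apply h
        have h2 := S.eq_zero_of_nrm h1.symm
        have h3 := S.e_vec α₀
        rw [h2, S.zero] at h3
        exact h3
    refine ⟨min 1 (S.len α₀), lt_min one_pos hpos, fun α => ?_⟩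
    by_contra hα
    push Not at hα
    have h1 := hmin α (hα.le.trans (min_le_left _ _))
    have h2 := lt_of_lt_of_le hα (min_le_right 1 (S.len α₀))
    linarith

omit [NormedAddCommGroup E] [NormedSpace ℝ E] in
theorem trans_symm_cancel_right {x y z : M} (α : Cl x y) (β : Cl z y) :
    (α.trans β.symm).trans β = α := by
  rw [Path.Homotopic.Quotient.trans_assoc, Path.Homotopic.Quotient.symm_trans,
    Path.Homotopic.Quotient.trans_refl]

/-- from equal cells to short classes -/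
theorem cell_eq (S : ExpSys E M) {c₁ c₂ d₁ d₂ x y x' y' : M} {τ₁ : Cl c₁ x} {τ₂ : Cl c₂ y}
    {σ₁ : Cl d₁ x'} {σ₂ : Cl d₂ y'} {γx : Cl x x'} {γy : Cl y y'}
    (h : (⟨(c₁, d₁), (τ₁.trans γx).trans σ₁.symm⟩ : Σ p : M × M, Cl p.1 p.2) =
      ⟨(c₂, d₂), (τ₂.trans γy).trans σ₂.symm⟩) :
    ∃ (α : Cl x y) (β : Cl x' y'), S.len α ≤ S.len τ₁ + S.len τ₂ ∧
      S.len β ≤ S.len σ₁ + S.len σ₂ ∧ γx.trans β = α.trans γy := by
  rw [Sigma.mk.injEq] at h
  obtain ⟨h1, h2⟩ := h
  obtain ⟨rfl, rfl⟩ := Prod.mk.inj h1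
  replace h2 := eq_of_heq h2
  dsimp only at h2
  refine ⟨τ₁.symm.trans τ₂, σ₁.symm.trans σ₂, ?_, ?_, ?_⟩
  · have := S.len_trans τ₁.symm τ₂
    rwa [S.len_symm] at this
  · have := S.len_trans σ₁.symm σ₂
    rwa [S.len_symm] at this
  · have h3 : τ₁.trans (γx.trans (σ₁.symm.trans σ₂)) = τ₂.trans γy := by
      rw [← Path.Homotopic.Quotient.trans_assoc, ← Path.Homotopic.Quotient.trans_assoc, h2,
        trans_symm_cancel_right]
    rw [Path.Homotopic.Quotient.trans_assoc, ← h3, symm_trans_cancel]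

/-- if the points of two orbit segments of length one are joined by short classes, then the
orbits are close -/
theorem exists_dist_lt [FiniteDimensional ℝ E] [T1Space M] (S : ExpSys E M) {X : Type}
    [MetricSpace X] [CompactSpace X] {f : ℝ → X → M} (hf : ∀ t, Continuous (f t))
    (hinj : ∀ p q, (∀ t ∈ Icc (0 : ℝ) 1, f t p = f t q) → p = q) {ε : ℝ} (hε : 0 < ε) :
    ∃ κ > 0, ∀ p q : X, (∀ t ∈ Icc (0 : ℝ) 1, ∃ δ : Cl (f t p) (f t q), S.len δ ≤ κ) →
      dist p q < ε := by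
  have hK : IsCompact {z : X × X | ε ≤ dist z.1 z.2} :=
    (isClosed_le continuous_const (continuous_fst.dist continuous_snd)).isCompact
  obtain ⟨κ, hκ, h⟩ : ∃ κ > 0, ∀ z ∈ {z : X × X | ε ≤ dist z.1 z.2},
      ¬ ∀ t ∈ Icc (0 : ℝ) 1, ∃ δ : Cl (f t z.1) (f t z.2), S.len δ ≤ κ := by
    refine hK.induction_on (p := fun s => ∃ κ > 0, ∀ z ∈ s,
      ¬ ∀ t ∈ Icc (0 : ℝ) 1, ∃ δ : Cl (f t z.1) (f t z.2), S.len δ ≤ κ) ?_ ?_ ?_ ?_
    · exact ⟨1, one_pos, fun z hz => absurd hz (Set.notMem_empty z)⟩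
    · rintro s t hst ⟨κ, hκ, h⟩
      exact ⟨κ, hκ, fun z hz => h z (hst hz)⟩
    · rintro s t ⟨κ, hκ, h⟩ ⟨κ', hκ', h'⟩
      refine ⟨min κ κ', lt_min hκ hκ', ?_⟩
      rintro z (hz | hz) hall
      · apply h z hz
        intro t ht
        obtain ⟨δ, hδ⟩ := hall t ht
        exact ⟨δ, hδ.trans (min_le_left _ _)⟩
      · apply h' z hz
        intro t ht
        obtain ⟨δ, hδ⟩ := hall t ht
        exact ⟨δ, hδ.trans (min_le_right _ _)⟩
    · rintro ⟨p, q⟩ hpq
      have hne : p ≠ q := by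
        rintro rfl
        have : ε ≤ dist p p := hpq
        rw [dist_self] at this
        linarith
      obtain ⟨t, ht, htne⟩ : ∃ t ∈ Icc (0 : ℝ) 1, f t p ≠ f t q := by
        by_contra hcon
        push Not at hcon
        exact hne (hinj p q hcon)
      obtain ⟨η, hη, hη2⟩ := exists_le_len_of_ne S htne
      have hη4 : 0 < η / 4 := by positivity
      refine ⟨(fun z : X × X => f t z.1) ⁻¹' (C1.nb S (f t p) (η / 4)) ∩
        (fun z : X × X => f t z.2) ⁻¹' (C1.nb S (f t q) (η / 4)), ?_, η / 4, hη4, ?_⟩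
      · apply mem_nhdsWithin_of_mem_nhds
        apply inter_mem
        · exact ((hf t).comp continuous_fst).continuousAt.preimage_mem_nhds
            (C1.nb_mem_nhds S _ hη4)
        · exact ((hf t).comp continuous_snd).continuousAt.preimage_mem_nhds
            (C1.nb_mem_nhds S _ hη4)
      · rintro ⟨p', q'⟩ ⟨hp', hq'⟩ hall
        obtain ⟨δ, hδ⟩ := hall t ht
        obtain ⟨α, hα⟩ := hp'
        obtain ⟨β, hβ⟩ := hq'
        have h1 := hη2 ((α.trans δ).trans β.symm)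
        have h2 := S.len_trans (α.trans δ) β.symm
        have h3 := S.len_trans α δ
        rw [S.len_symm] at h2
        dsimp only at hδ hα hβ h1 h2 h3
        linarith
  refine ⟨κ, hκ, fun p q hpq => ?_⟩
  by_contra hcon
  push Not at hcon
  exact h (p, q) hcon hpq

/-- two rays which agree on `[0,1]` are equal -/
theorem eq_of_ray_eq (S : ExpSys E M) {x : M} {v w : E}
    (h : ∀ t ∈ Icc (0 : ℝ) 1, S.e x (t • v) = S.e x (t • w)) : v = w := by
  have h5 := S.vec_mk (S.rayTo x (S.e x v) v rfl)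
    ⟨fun t : I => (t : ℝ) • w, by fun_prop⟩ (by simp) (by
      intro t
      rw [ExpSys.rayTo_apply]
      exact (h t t.2).symm)
  rw [ExpSys.vec_rayTo] at h5
  simpa using h5

end Top

variable {n : ℕ} {M : Type} [TopologicalSpace M] [ChartedSpace (EV n) M]
  [IsManifold 𝓘(ℝ, EV n) ∞ M] [CompactSpace M] [T2Space M]

variable {g₀ g₁ : RMetric (EV n) M} {φ : ℝ → UT g₀ → UT g₀}

/-- unit vectors with the same geodesic on `[0,1]` are equal -/
theorem eq_of_pt_eq (hφ : IsGeoFlow g₀ φ) (h₀ : Npc (mt g₀)) {p q : UT g₀}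
    (h : ∀ t ∈ Icc (0 : ℝ) 1, (φ t p).pt = (φ t q).pt) : p = q := by
  have h1 : ∀ t ∈ Icc (0 : ℝ) 1, (sys g₀ h₀).e p.pt (t • (p.vec : EV n)) =
      (sys g₀ h₀).e q.pt (t • (q.vec : EV n)) := by
    intro t ht
    rw [← hφ.pt_eq_e, ← hφ.pt_eq_e, h t ht]
  have h2 := h 0 ⟨le_rfl, zero_le_one⟩
  rw [(hφ p).1, (hφ q).1] at h2
  obtain ⟨⟨x, v⟩, hv⟩ := p
  obtain ⟨⟨y, w⟩, hw⟩ := q
  have h3 : x = y := h2
  subst h3
  have h4 : (v : EV n) = (w : EV n) := eq_of_ray_eq (sys g₀ h₀) h1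
  congr 2

/-- the class of the geodesic segment of length `T` -/
def seg (hφ : IsGeoFlow g₀ φ) (h₀ : Npc (mt g₀)) (p : UT g₀) (T : ℝ) : Cl p.pt (φ T p).pt :=
  Path.Homotopic.Quotient.mk ((sys g₀ h₀).rayTo p.pt (φ T p).pt (T • (p.vec : EV n))
    (hφ.pt_eq_e h₀ T p).symm)

theorem vec_seg (hφ : IsGeoFlow g₀ φ) (h₀ : Npc (mt g₀)) (p : UT g₀) (T : ℝ) :
    (sys g₀ h₀).vec (seg hφ h₀ p T) = T • (p.vec : EV n) := ExpSys.vec_rayTo _ _ _ _ _

/-- the `g₁`-length of a class is bounded by a multiple of the `g₀`-length -/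
theorem exists_len_le_mul (hφ : IsGeoFlow g₀ φ) (h₀ : Npc (mt g₀)) (h₁ : Npc (mt g₁)) :
    ∃ K : ℝ, 0 ≤ K ∧ ∀ (x y : M) (τ : Cl x y),
      (sys g₁ h₁).len τ ≤ K * (sys g₀ h₀).len τ := by
  have := compactSpace_UT g₀
  obtain ⟨K, hK⟩ := (isCompact_range (continuous_nrm g₀ g₁)).isBounded.exists_norm_le
  have hK' : ∀ p : UT g₀, nrm g₀ g₁ p ≤ |K| := fun p =>
    ((le_abs_self _).trans (hK _ (mem_range_self p))).trans (le_abs_self K)
  refine ⟨|K|, abs_nonneg K, fun x y τ => ?_⟩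
  rcases ((sys g₀ h₀).len_nonneg τ).lt_or_eq with hpos | h0
  · -- positive length
    have key : ∀ (p : UT g₀) (T : ℝ), 0 ≤ T → ∀ (y : M) (τ : Cl p.pt y),
        (sys g₀ h₀).vec τ = T • (p.vec : EV n) → (sys g₁ h₁).len τ ≤ |K| * T := by
      intro p T hT y τ hτ
      have hy : y = (φ T p).pt := by
        rw [hφ.pt_eq_e h₀, ← hτ]
        exact ((sys g₀ h₀).e_vec τ).symm
      subst hy
      refine (len_le_integral hφ h₀ h₁ p hT τ hτ).trans ?_
      have h1 : ∫ t in (0 : ℝ)..T, nrm g₀ g₁ (φ t p) ≤ ∫ _t in (0 : ℝ)..T, |K| := by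
        apply intervalIntegral.integral_mono_on hT
        · exact ((continuous_nrm g₀ g₁).comp (hφ.continuous.comp
            (by fun_prop : Continuous fun t : ℝ => (t, p)))).intervalIntegrable _ _
        · exact intervalIntegrable_const
        · exact fun t _ => hK' _
      rw [intervalIntegral.integral_const, sub_zero, smul_eq_mul, mul_comm] at h1
      exact h1
    refine key (mkUT g₀ x (((sys g₀ h₀).len τ)⁻¹ • (sys g₀ h₀).vec τ) (ip_unit h₀ τ hpos))
      ((sys g₀ h₀).len τ) hpos.le y τ ?_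
    change _ = (sys g₀ h₀).len τ • (((sys g₀ h₀).len τ)⁻¹ • (sys g₀ h₀).vec τ)
    rw [smul_smul, mul_inv_cancel₀ hpos.ne', one_smul]
    rfl
  · -- the constant class
    have h2 := (sys g₀ h₀).eq_zero_of_nrm h0.symm
    have h3 := (sys g₀ h₀).e_vec τ
    rw [h2, (sys g₀ h₀).zero] at h3
    subst h3
    rw [(sys g₀ h₀).eq_refl_of_len h0.symm, (sys g₁ h₁).len_refl, (sys g₀ h₀).len_refl, mul_zero]

omit [ChartedSpace (EV n) M] [IsManifold 𝓘(ℝ, EV n) ∞ M] [CompactSpace M] [T2Space M] in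
/-- the number of short classes with ends in a finite set -/
theorem card_cells_le {S : ExpSys (EV n) M} {C s : ℝ}
    (hG : ∀ (x y : M) (R : ℝ), 0 ≤ R → {α : Cl x y | S.len α ≤ R}.Finite ∧
      ({α : Cl x y | S.len α ≤ R}.ncard : ℝ) ≤ C * Real.exp (s * R))
    {X : Type} (F : Finset M) (cell : X → Σ p : M × M, Cl p.1 p.2) (A : Finset X)
    (hinj : Set.InjOn cell A) (hF : ∀ x ∈ A, (cell x).1 ∈ F ×ˢ F) {R : ℝ} (hR : 0 ≤ R)
    (hA : ∀ x ∈ A, S.len (cell x).2 ≤ R) :
    (A.card : ℝ) ≤ ((F.card : ℝ) ^ 2 * C) * Real.exp (s * R) := by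
  classical
  set B : Set (Σ p : M × M, Cl p.1 p.2) := ⋃ p ∈ F ×ˢ F,
    (Sigma.mk p '' {α : Cl p.1 p.2 | S.len α ≤ R}) with hB
  have hBfin : B.Finite := Set.Finite.biUnion (F ×ˢ F).finite_toSet
    fun p _ => (hG p.1 p.2 R hR).1.image _
  have h1 : (A : Set X).ncard ≤ B.ncard := by
    refine Set.ncard_le_ncard_of_injOn cell (fun x hx => ?_) hinj hBfin
    rw [hB]
    simp only [mem_iUnion]
    exact ⟨(cell x).1, hF x hx, (cell x).2, hA x hx, rfl⟩
  rw [Set.ncard_coe_finset] at h1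
  have h2 : B.ncard ≤ ∑ p ∈ F ×ˢ F, (Sigma.mk p '' {α : Cl p.1 p.2 | S.len α ≤ R} :
      Set (Σ p : M × M, Cl p.1 p.2)).ncard := Finset.set_ncard_biUnion_le _ _
  calc (A.card : ℝ) ≤ ∑ p ∈ F ×ˢ F, ((Sigma.mk p '' {α : Cl p.1 p.2 | S.len α ≤ R} :
      Set (Σ p : M × M, Cl p.1 p.2)).ncard : ℝ) := by exact_mod_cast h1.trans h2
    _ ≤ ∑ p ∈ F ×ˢ F, C * Real.exp (s * R) := by
        refine Finset.sum_le_sum fun p _ => ?_
        obtain ⟨h3, h4⟩ := hG p.1 p.2 R hR
        refine le_trans ?_ h4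
        exact_mod_cast Set.ncard_image_le h3
    _ = ((F.card : ℝ) ^ 2 * C) * Real.exp (s * R) := by
        rw [Finset.sum_const, Finset.card_product, nsmul_eq_mul]
        push_cast
        ring

/-- G3. the stretch inequality -/
theorem ksEntropy_le_stretch (hφ : IsGeoFlow g₀ φ) (h₀ : Npc (mt g₀)) (h₁ : Npc (mt g₁))
    {s : ℝ} (hs : 0 ≤ s) (hG : GrowthLE (sys g₁ h₁) s)
    {ν : Measure (UT g₀)} [IsProbabilityMeasure ν] (hν : ∀ t, MeasurePreserving (φ t) ν ν) :
    ksEntropy ν (φ 1) ≤ ENNReal.ofReal (s * ∫ p, nrm g₀ g₁ p ∂ν) := by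
  classical
  have := compactSpace_UT g₀
  have := t2Space_UT g₀
  have := metrizableSpace_UT g₀
  let : MetricSpace (UT g₀) := TopologicalSpace.metrizableSpaceMetric (UT g₀)
  set S₀ := sys g₀ h₀ with hS₀
  set S₁ := sys g₁ h₁ with hS₁
  have hcn : Continuous (nrm g₀ g₁) := continuous_nrm g₀ g₁
  have hcont1 : Continuous (φ 1) :=
    hφ.continuous.comp (by fun_prop : Continuous fun p : UT g₀ => ((1 : ℝ), p))
  obtain ⟨C, hC⟩ := hG
  obtain ⟨C', hC'0, hC'⟩ : ∃ C' : ℝ, 0 ≤ C' ∧ ∀ (x y : M) (R : ℝ), 0 ≤ R →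
      {α : Cl x y | S₁.len α ≤ R}.Finite ∧
      ({α : Cl x y | S₁.len α ≤ R}.ncard : ℝ) ≤ C' * Real.exp (s * R) := by
    refine ⟨|C|, abs_nonneg C, fun x y R hR => ⟨(hC x y R hR).1, (hC x y R hR).2.trans ?_⟩⟩
    exact mul_le_mul_of_nonneg_right (le_abs_self C) (Real.exp_pos _).le
  obtain ⟨K, hK0, hK⟩ := exists_len_le_mul hφ h₀ h₁
  -- the estimate for larger rates
  have main : ∀ s' : ℝ, s < s' → ksEntropy ν (φ 1) ≤
      ENNReal.ofReal (s' * ∫ p, nrm g₀ g₁ p ∂ν) := by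
    intro s' hss'
    have hs' : 0 ≤ s' := hs.trans hss'.le
    have hF : Continuous fun p : UT g₀ => s' * ∫ t in (0 : ℝ)..1, nrm g₀ g₁ (φ t p) :=
      continuous_const.mul (continuous_avg hφ.continuous hcn)
    have hint : ∫ p, (s' * ∫ t in (0 : ℝ)..1, nrm g₀ g₁ (φ t p)) ∂ν =
        s' * ∫ p, nrm g₀ g₁ p ∂ν := by
      rw [integral_const_mul, integral_avg hφ.continuous hν hcn]
    rw [← hint]
    apply ksEntropy_le_of_sum hcont1 (hν 1) hF
    intro ε hε
    obtain ⟨κ, hκ, hnear⟩ := exists_dist_lt S₀ (f := fun t (p : UT g₀) => (φ t p).pt)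
      (fun t => (continuous_pt g₀).comp (hφ.continuous.comp
        (by fun_prop : Continuous fun p : UT g₀ => (t, p))))
      (fun p q h => eq_of_pt_eq hφ h₀ h) hε
    obtain ⟨Fc, hFc⟩ := C1.exists_centers S₀ (half_pos hκ)
    choose c hc τ hτ using hFc
    refine ⟨Real.exp (s' * (K * κ)) * (((Fc.card : ℝ) ^ 2 * C') * Real.exp s *
      (1 - Real.exp (-(s' - s)))⁻¹), fun N E hE => ?_⟩
    set cell : UT g₀ → Σ p : M × M, Cl p.1 p.2 := fun x =>
      ⟨(c x.pt, c (φ N x).pt), ((τ x.pt).trans (seg hφ h₀ x N)).trans (τ (φ N x).pt).symm⟩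
      with hcell
    -- the cells are injective on `E`
    have hinj : Set.InjOn cell E := by
      intro x hx y hy hxy
      by_contra hne
      obtain ⟨i, hi, hdist⟩ := hE x hx y hy hne
      obtain ⟨α, β, hα, hβ, hαβ⟩ := cell_eq S₀ hxy
      have hα' : S₀.len α ≤ κ := by
        have h1 := hτ x.pt; have h2 := hτ y.pt; linarith
      have hβ' : S₀.len β ≤ κ := by
        have h1 := hτ (φ N x).pt; have h2 := hτ (φ N y).pt; linarith
      have h3 : dist (φ i x) (φ i y) < ε := by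
        apply hnear
        intro t ht
        have h4 := dist_le_of_endpoints hφ h₀ (Nat.cast_nonneg N) α β hα' hβ'
          (seg hφ h₀ x N) (seg hφ h₀ y N) (vec_seg hφ h₀ x N) (vec_seg hφ h₀ y N) hαβ
          (t := t + i) (by have := ht.1; positivity) (by
            have h5 : (i : ℝ) + 1 ≤ N := by exact_mod_cast hi
            have := ht.2
            linarith)
        rw [hφ.add, hφ.add] at h4
        exact h4
      rw [hφ.iterate_one, hφ.iterate_one] at hdist
      linarith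
    -- the weight of a point
    have hwt : ∀ x ∈ E, -∑ i ∈ Finset.range N, (s' * ∫ t in (0 : ℝ)..1,
        nrm g₀ g₁ (φ t ((φ 1)^[i] x))) ≤ s' * (K * κ) + -(s' * S₁.len (cell x).2) := by
      intro x _
      have h1 : ∑ i ∈ Finset.range N, (s' * ∫ t in (0 : ℝ)..1, nrm g₀ g₁ (φ t ((φ 1)^[i] x))) =
          s' * ∫ t in (0 : ℝ)..N, nrm g₀ g₁ (φ t x) := by
        rw [← Finset.mul_sum, ← sum_avg hφ.continuous hφ.add hcn N x]
        simp_rw [hφ.iterate_one]
      rw [h1]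
      have h2 := len_le_integral hφ h₀ h₁ x (Nat.cast_nonneg N) (seg hφ h₀ x N)
        (vec_seg hφ h₀ x N)
      have h3 : S₁.len (cell x).2 ≤ S₁.len (seg hφ h₀ x N) + K * κ := by
        have h4 := S₁.len_trans ((τ x.pt).trans (seg hφ h₀ x N)) (τ (φ N x).pt).symm
        have h5 := S₁.len_trans (τ x.pt) (seg hφ h₀ x N)
        rw [S₁.len_symm] at h4
        have h6 : S₁.len (τ x.pt) ≤ K * (κ / 2) :=
          (hK _ _ _).trans (mul_le_mul_of_nonneg_left (hτ _).le hK0)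
        have h7 : S₁.len (τ (φ N x).pt) ≤ K * (κ / 2) :=
          (hK _ _ _).trans (mul_le_mul_of_nonneg_left (hτ _).le hK0)
        have h8 : S₁.len (cell x).2 = S₁.len (((τ x.pt).trans (seg hφ h₀ x N)).trans
          (τ (φ N x).pt).symm) := rfl
        rw [h8]
        linarith
      nlinarith [mul_le_mul_of_nonneg_left (h3.trans (add_le_add_left h2 _)) hs']
    calc ∑ x ∈ E, Real.exp (-∑ i ∈ Finset.range N, (s' * ∫ t in (0 : ℝ)..1,
          nrm g₀ g₁ (φ t ((φ 1)^[i] x))))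
        ≤ ∑ x ∈ E, Real.exp (s' * (K * κ)) * Real.exp (-(s' * S₁.len (cell x).2)) := by
          refine Finset.sum_le_sum fun x hx => ?_
          rw [← Real.exp_add]
          exact Real.exp_le_exp.2 (hwt x hx)
      _ = Real.exp (s' * (K * κ)) * ∑ x ∈ E, Real.exp (-(s' * S₁.len (cell x).2)) := by
          rw [Finset.mul_sum]
      _ ≤ _ := by
          apply mul_le_mul_of_nonneg_left _ (Real.exp_pos _).le
          apply sum_exp_le E (fun x => S₁.len (cell x).2) (fun x _ => S₁.len_nonneg _)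
            (by positivity) hs' hss'
          intro R hR A hAE hA
          exact card_cells_le hC' Fc cell A (hinj.mono hAE)
            (fun x _ => Finset.mem_product.2 ⟨hc _, hc _⟩) hR hA
  -- the limit
  have hlim : Tendsto (fun s' : ℝ => ENNReal.ofReal (s' * ∫ p, nrm g₀ g₁ p ∂ν)) (𝓝[>] s)
      (𝓝 (ENNReal.ofReal (s * ∫ p, nrm g₀ g₁ p ∂ν))) := by
    apply Tendsto.mono_left _ nhdsWithin_le_nhds
    exact (ENNReal.continuous_ofReal.comp (by fun_prop :
      Continuous fun s' : ℝ => s' * ∫ p, nrm g₀ g₁ p ∂ν)).tendsto s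
  refine ge_of_tendsto hlim ?_
  filter_upwards [self_mem_nhdsWithin] with s' hs'
  exact main s' hs'

end Vale.Agent.P207
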