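import Vale.Agent.P207.BlkF
import Vale.Agent.P207.BlkV0

/-!
# P207, block K1: invariance of the Liouville measure under `J`
-/

open scoped Manifold ContDiff ENNReal Topology
open Bundle MeasureTheory Set Filter

noncomputable section

set_option maxSynthPendingDepth 3
set_option linter.unusedSectionVars false

namespace Vale.Agent.P207

open Vale.Agent.P255 (RMetric coefIn Gam Riem IsGeo Metric Npc ExpSys toMetric geo expg trans coefL)

variable {n : ℕ} {M : Type} [TopologicalSpace M] [ChartedSpace (EV n) M]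
  [IsManifold 𝓘(ℝ, EV n) ∞ M]

/-- `J` at `x` as an endomorphism of `EV n` -/
def Jat (J : EndField n M) (x : M) : EV n →L[ℝ] EV n := J x

/-- the derivative of the chart at `a` -/
theorem mfderiv_chart_eq (a : M) {x : M} (hx : x ∈ (chartAt (EV n) a).source) :
    (mfderiv 𝓘(ℝ, EV n) 𝓘(ℝ, EV n) (chartAt (EV n) a) x : EV n →L[ℝ] EV n) =
      fderiv ℝ (trans (EV n) x a) (chartAt (EV n) x x) := by
  ext1 v
  have h := P255.mfderiv_chart_trans (E := EV n) x a x (mem_chart_source _ x) hx v
  have h1 : (mfderiv 𝓘(ℝ, EV n) 𝓘(ℝ, EV n) (chartAt (EV n) x) x v : EV n) = v := by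
    have h2 := P255.mfderiv_chart_symm_eq (E := EV n) x (mem_chart_target (EV n) x)
    have h3 : MDifferentiableAt 𝓘(ℝ, EV n) 𝓘(ℝ, EV n) (chartAt (EV n) x) x :=
      P255.mdifferentiableAt_chart (E := EV n) x x (mem_chart_source _ x)
    have h4 := P255.mdifferentiableAt_chart_symm (E := EV n) x (chartAt (EV n) x x)
      (mem_chart_target (EV n) x)
    have h7 : ((chartAt (EV n) x).symm ∘ (chartAt (EV n) x) : M → M) =ᶠ[𝓝 x] id := by
      filter_upwards [(chartAt (EV n) x).open_source.mem_nhds (mem_chart_source (EV n) x)] with q hq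
      exact (chartAt (EV n) x).left_inv hq
    have h8 := mfderiv_comp x h4 h3
    rw [h7.mfderiv_eq, mfderiv_id] at h8
    have h9 := congrArg (fun L => L v) h8
    have h10 : (v : EV n) = (mfderiv 𝓘(ℝ, EV n) 𝓘(ℝ, EV n) (chartAt (EV n) x).symm
      (chartAt (EV n) x x) : EV n →L[ℝ] EV n)
      ((mfderiv 𝓘(ℝ, EV n) 𝓘(ℝ, EV n) (chartAt (EV n) x) x : EV n →L[ℝ] EV n) v) := h9
    rw [h2, (chartAt (EV n) x).left_inv (mem_chart_source _ x)] at h10
    have h11 := P255.fderiv_trans_self (E := EV n) x (mem_chart_target (EV n) x)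
      ((mfderiv 𝓘(ℝ, EV n) 𝓘(ℝ, EV n) (chartAt (EV n) x) x : EV n →L[ℝ] EV n) v)
    exact (h10.trans h11).symm
  exact h.trans (congrArg (fderiv ℝ (trans (EV n) x a) (chartAt (EV n) x x)) h1)

/-- `J` in the chart -/
theorem endIn_chT (J : EndField n M) (a : M) {p : TangentBundle 𝓘(ℝ, EV n) M}
    (hp : p.1 ∈ (chartAt (EV n) a).source) :
    chTs a ((chT a p).1, endIn J a (chT a p).1 (chT a p).2) = ⟨p.1, J p.1 p.2⟩ := by
  obtain ⟨x, v⟩ := p
  have hx : x ∈ (chartAt (EV n) a).source := hp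
  have e : (chartAt (EV n) a).symm (chartAt (EV n) a x) = x := (chartAt (EV n) a).left_inv hx
  have h1 : endIn J a (chT a ⟨x, v⟩).1 (chT a ⟨x, v⟩).2 =
      fderiv ℝ (trans (EV n) x a) (chartAt (EV n) x x) (Jat J x v) := by
    change endIn J a (chartAt (EV n) a x)
      (fderiv ℝ (trans (EV n) x a) (chartAt (EV n) x x) v) = _
    have h2 : endIn J a (chartAt (EV n) a x) =
        (mfderiv 𝓘(ℝ, EV n) 𝓘(ℝ, EV n) (chartAt (EV n) a) x : EV n →L[ℝ] EV n) ∘L
          (Jat J x) ∘L (mfderiv 𝓘(ℝ, EV n) 𝓘(ℝ, EV n) (chartAt (EV n) a).symm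
            (chartAt (EV n) a x) : EV n →L[ℝ] EV n) := by
      change (mfderiv 𝓘(ℝ, EV n) 𝓘(ℝ, EV n) (chartAt (EV n) a)
          ((chartAt (EV n) a).symm (chartAt (EV n) a x)) : EV n →L[ℝ] EV n) ∘L
          (Jat J ((chartAt (EV n) a).symm (chartAt (EV n) a x))) ∘L
            (mfderiv 𝓘(ℝ, EV n) 𝓘(ℝ, EV n) (chartAt (EV n) a).symm
            (chartAt (EV n) a x) : EV n →L[ℝ] EV n) = _
      rw [e]
    rw [h2, mfderiv_chart_eq a hx, P255.mfderiv_chart_symm_eq a ((chartAt (EV n) a).map_source hx),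
      e]
    exact congrArg (fun w : EV n => fderiv ℝ (trans (EV n) x a) (chartAt (EV n) x x) (Jat J x w))
      (fderiv_trans_back a hx v)
  rw [h1]
  exact chTs_chT a (p := ⟨x, J x v⟩) hx

variable [CompactSpace M] [T2Space M]

theorem continuous_jmap {g : RMetric (EV n) M} {J : EndField n M} (hJ : IsKaehler g J) :
    Continuous (jmap hJ) := by
  refine Continuous.subtype_mk (f := fun p : UT g => (jmap hJ p).1) ?_ (fun p => (jmap hJ p).2)
  have h1 : Continuous (fun p : TangentBundle 𝓘(ℝ, EV n) M =>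
      (⟨p.1, J p.1 p.2⟩ : TangentBundle 𝓘(ℝ, EV n) M)) := by
    rw [continuous_iff_continuousAt]
    intro p
    set a := p.1 with ha
    have hp : p.1 ∈ (chartAt (EV n) a).source := mem_chart_source _ _
    have hT := continuousAt_chT a hp
    have h3 : ContinuousAt (fun q : TangentBundle 𝓘(ℝ, EV n) M =>
        ((chT a q).1, endIn J a (chT a q).1 (chT a q).2)) p := by
      refine hT.fst.prodMk ?_
      have h4 : ContinuousAt (endIn J a) (chT a p).1 :=
        ((hJ.2.2 a).1.continuousOn).continuousAt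
          ((chartAt (EV n) a).open_target.mem_nhds ((chartAt (EV n) a).map_source hp))
      have h5 : ContinuousAt (fun q => endIn J a (chT a q).1) p :=
        ContinuousAt.comp (g := endIn J a) (f := fun q => (chT a q).1) h4 hT.fst
      exact h5.clm_apply hT.snd
    have h6 : ContinuousAt (chTs a) ((chT a p).1, endIn J a (chT a p).1 (chT a p).2) :=
      continuousAt_chTs a ((chartAt (EV n) a).map_source hp)
    have h7 := ContinuousAt.comp (g := chTs a) (f := fun q : TangentBundle 𝓘(ℝ, EV n) M =>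
        ((chT a q).1, endIn J a (chT a q).1 (chT a q).2)) h6 h3
    refine h7.congr ?_
    filter_upwards [continuous_pt_TB.continuousAt.preimage_mem_nhds
      ((chartAt (EV n) a).open_source.mem_nhds hp)] with q hq
    exact endIn_chT J a hq
  exact h1.comp (continuous_val g)

theorem Jat_injective {g : RMetric (EV n) M} {J : EndField n M} (hJ : IsKaehler g J) (x : M) :
    Function.Injective (Jat J x) := by
  intro v w h
  have h1 : Jat J x (Jat J x v) = Jat J x (Jat J x w) := by rw [h]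
  have h2 : Jat J x (Jat J x v) = -v := hJ.1 x v
  have h3 : Jat J x (Jat J x w) = -w := hJ.1 x w
  rw [h2, h3, neg_inj] at h1
  exact h1

theorem innerB_Jat {g : RMetric (EV n) M} {J : EndField n M} (hJ : IsKaehler g J) (x : M) :
    (innerB g x).bilinearComp (Jat J x) (Jat J x) = innerB g x := by
  ext v w
  exact hJ.2.1 x v w

theorem jmap_unitDir {g : RMetric (EV n) M} {J : EndField n M} (hJ : IsKaehler g J) (x : M)
    (v : TangentSpace 𝓘(ℝ, EV n) x) (h : v ≠ 0) (h' : J x v ≠ 0) :
    jmap hJ (unitDir g x v h) = unitDir g x (J x v) h' := by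
  apply Subtype.ext
  unfold jmap unitDir
  simp only [map_smul, hJ.2.1]

theorem radial_jmap {g : RMetric (EV n) M} {J : EndField n M} (hJ : IsKaehler g J)
    (a : UT g → ℝ) (x : M) (v : TangentSpace 𝓘(ℝ, EV n) x) :
    radial g (fun p => a (jmap hJ p)) x v = radial g a x (J x v) := by
  unfold radial
  by_cases hv : v = 0
  · have h2 : J x v = 0 := by rw [hv, map_zero]
    rw [dif_pos hv, dif_pos h2]
  · have h2 : J x v ≠ 0 := by
      intro h
      apply hv
      have h3 := hJ.1 x v
      rw [h, map_zero] at h3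
      exact (neg_eq_zero.1 h3.symm)
    rw [dif_neg hv, dif_neg h2]
    exact congrArg a (jmap_unitDir hJ x v hv h2)

theorem sphAvg_jmap {g : RMetric (EV n) M} {J : EndField n M} (hJ : IsKaehler g J)
    (a : UT g → ℝ) (x : M) : sphAvg g (fun p => a (jmap hJ p)) x = sphAvg g a x := by
  rw [sphAvg_eq, sphAvg_eq]
  have h1 : (fun v : EV n => radial g (fun p => a (jmap hJ p)) x v) =
      fun v : EV n => (fun w : EV n => radial g a x w) (Jat J x v) := by
    funext v
    exact radial_jmap hJ a x v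
  rw [h1]
  conv_lhs => rw [← innerB_Jat hJ x]
  exact avgB_comp (innerB g x) (Jat_injective hJ x) _

section

variable [MeasurableSpace M] [BorelSpace M] {g₀ g₁ : RMetric (EV n) M}
  {φ : ℝ → UT g₀ → UT g₀} {μ : Measure M} {m : Measure (UT g₀)} {J : EndField n M} {c : ℝ}

/-- K1. invariance of the Liouville measure under `J` -/
theorem IsLiouville.integral_jmap' (hm : IsLiouville g₀ μ m)
    (hJ : IsKaehler g₀ J) {a : UT g₀ → ℝ} (ha : Continuous a) :
    ∫ p, a (jmap hJ p) ∂m = ∫ p, a p ∂m := by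
  rw [hm.2 (fun p => a (jmap hJ p)) (ha.comp (continuous_jmap hJ)), hm.2 a ha]
  congr 1
  refine integral_congr_ae (Eventually.of_forall fun x => ?_)
  exact sphAvg_jmap hJ a x

/-- K1. invariance of the Liouville measure under `J` -/
theorem IsLiouville.integral_jmap (_hn : 1 ≤ n)
    (_hμ : IsRiemVol g₀ μ) (hm : IsLiouville g₀ μ m)
    (hJ : IsKaehler g₀ J) {a : UT g₀ → ℝ} (ha : Continuous a) :
    ∫ p, a (jmap hJ p) ∂m = ∫ p, a p ∂m := hm.integral_jmap' hJ ha

/-- the relation is symmetric -/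
theorem SameClass.symm (hc : SameClass g₀ g₁ J c) (hc0 : c ≠ 0) :
    SameClass g₁ g₀ J c⁻¹ := by
  obtain ⟨η, hη⟩ := hc
  refine ⟨fun x => (-c⁻¹) • η x, fun a => ?_⟩
  have e : formIn (fun x => (-c⁻¹) • η x) a = fun u => (-c⁻¹) • formIn η a u := by
    funext u
    ext v
    rfl
  refine ⟨?_, ?_⟩
  · rw [e]
    exact (hη a).1.const_smul _
  · intro u hu v w
    have h := (hη a).2 u hu v w
    have hd : DifferentiableAt ℝ (formIn η a) u :=
      ((hη a).1.contDiffAt ((chartAt (EV n) a).open_target.mem_nhds hu)).differentiableAt (by simp)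
    rw [e, fderiv_fun_const_smul hd]
    simp only [smul_apply, smul_eq_mul]
    have h2 : c * c⁻¹ = 1 := mul_inv_cancel₀ hc0
    linear_combination (-c⁻¹) * h - coefIn g₀ a u (endIn J a u v) w * h2

end

end Vale.Agent.P207
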