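import Vale.Agent.P207.BlkL4

/-!
# P207, block L: Liouville's theorem

`Vale.Agent.P207.IsLiouville.measurePreserving` (proved in `BlkL4`): the geodesic flow preserves
the Liouville measure.
-/
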