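import Vale.Agent.P207.BlkF
import Vale.Agent.P207.BlkL
import Vale.Agent.P207.BlkK1

/-!
# P207, block K2: the Kähler identity `∫ |v|²_{g₁} dm_L = c`

Chart calculus on the unit tangent bundle (namespace `K2`): `pv` (the vector in the model space),
`co a p` (its components in the chart at `a`), `back`, `mfderiv_chart_eq`, `formIn_apply`,
`endIn_apply`, `coefIn_co`, `coefIn_self`, `endIn_self`, `continuousOn_co`, `continuous_pt`,
`isOpen_dom`, `co_flow` (components of the velocity along the flow), `continuous_of_chart`,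
`continuous_inner`.
-/

open scoped Manifold ContDiff ENNReal Topology
open Bundle MeasureTheory Set Filter

noncomputable section

set_option maxSynthPendingDepth 3

namespace Vale.Agent.P207

open Vale.Agent.P255 (RMetric coefIn Gam Riem IsGeo Metric Npc ExpSys toMetric geo expg cc trans
  coefL chris chrisB IsMetricOn)

namespace K2

variable {n : ℕ} {M : Type} [TopologicalSpace M] [ChartedSpace (EV n) M]
  [IsManifold 𝓘(ℝ, EV n) ∞ M]

/-! ### chart calculus -/

/-- the vector, as an element of the model space -/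
def pv {g : RMetric (EV n) M} (p : UT g) : EV n := p.1.2

/-- the components of the vector in the chart at `a` -/
def co {g : RMetric (EV n) M} (a : M) (p : UT g) : EV n :=
  fderiv ℝ (trans (EV n) p.pt a) (chartAt (EV n) p.pt p.pt) (pv p)

omit [IsManifold 𝓘(ℝ, EV n) ∞ M] in
theorem trans_self_pt (x a : M) : trans (EV n) x a (chartAt (EV n) x x) = chartAt (EV n) a x := by
  unfold P255.trans
  rw [(chartAt (EV n) x).left_inv (mem_chart_source (EV n) x)]

theorem co_pt {g : RMetric (EV n) M} (p : UT g) : co p.pt p = pv p :=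
  P255.fderiv_trans_self p.pt (mem_chart_target (EV n) p.pt) (pv p)

/-- coordinate change of components -/
theorem back {x a : M} (hx : x ∈ (chartAt (EV n) a).source) (v : EV n) :
    fderiv ℝ (trans (EV n) a x) (chartAt (EV n) a x)
      (fderiv ℝ (trans (EV n) x a) (chartAt (EV n) x x) v) = v := by
  have h := P255.fderiv_trans_comp x a x (mem_chart_target (EV n) x)
    (by rw [(chartAt (EV n) x).left_inv (mem_chart_source (EV n) x)]; exact hx)
    (by rw [(chartAt (EV n) x).left_inv (mem_chart_source (EV n) x)]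
        exact mem_chart_source (EV n) x) v
  rw [trans_self_pt] at h
  rw [h, P255.fderiv_trans_self x (mem_chart_target (EV n) x)]

theorem mfderiv_chart_eq (a : M) {x : M} (hx : x ∈ (chartAt (EV n) a).source) :
    (mfderiv 𝓘(ℝ, EV n) 𝓘(ℝ, EV n) (chartAt (EV n) a) x : EV n →L[ℝ] EV n) =
      fderiv ℝ (trans (EV n) x a) (chartAt (EV n) x x) := by
  have h : MDifferentiableAt 𝓘(ℝ, EV n) 𝓘(ℝ, EV n) (chartAt (EV n) a) x :=
    P255.mdifferentiableAt_chart a x hx
  have h2 : fderivWithin ℝ (writtenInExtChartAt 𝓘(ℝ, EV n) 𝓘(ℝ, EV n) x (chartAt (EV n) a))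
      (range 𝓘(ℝ, EV n)) (extChartAt 𝓘(ℝ, EV n) x x) =
      fderiv ℝ (trans (EV n) x a) (chartAt (EV n) x x) := by
    simp only [modelWithCornersSelf_coe, range_id, fderivWithin_univ]
    rfl
  exact h.mfderiv.trans h2

theorem formIn_apply (η : Form1 n M) (a : M) {u : EV n} (hu : u ∈ (chartAt (EV n) a).target)
    (x : M) (hx : x = (chartAt (EV n) a).symm u) (w : EV n) :
    formIn η a u w = η x (fderiv ℝ (trans (EV n) a x) u w : EV n) := by
  subst hx
  unfold formIn
  simp only [P255.mfderiv_chart_symm_eq a hu]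
  rfl

theorem endIn_apply (J : EndField n M) (a : M) {u : EV n} (hu : u ∈ (chartAt (EV n) a).target)
    (x : M) (hx : x = (chartAt (EV n) a).symm u) (w : EV n) :
    endIn J a u w = fderiv ℝ (trans (EV n) x a) (chartAt (EV n) x x)
      (J x (fderiv ℝ (trans (EV n) a x) u w : EV n) : EV n) := by
  subst hx
  unfold endIn
  have h1 := mfderiv_chart_eq a ((chartAt (EV n) a).map_target hu)
  simp only [P255.mfderiv_chart_symm_eq a hu, h1]
  rfl

theorem coefIn_co {g g' : RMetric (EV n) M} {a : M} {p : UT g}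
    (ha : p.pt ∈ (chartAt (EV n) a).source) :
    coefIn g' a (chartAt (EV n) a p.pt) (co a p) (co a p) =
      g'.inner p.pt p.vec p.vec := by
  have hu := (chartAt (EV n) a).map_source ha
  have hx := ((chartAt (EV n) a).left_inv ha).symm
  have h := P255.coefL_apply g' a hu p.pt hx (co a p) (co a p)
  refine h.trans ?_
  unfold co
  rw [back ha]
  rfl

theorem coefIn_self (g' : RMetric (EV n) M) (x : M) (v w : EV n) :
    coefIn g' x (chartAt (EV n) x x) v w =
      g'.inner x (v : TangentSpace 𝓘(ℝ, EV n) x) (w : TangentSpace 𝓘(ℝ, EV n) x) := by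
  have hu := mem_chart_target (EV n) x
  have hx := ((chartAt (EV n) x).left_inv (mem_chart_source (EV n) x)).symm
  have h := P255.coefL_apply g' x hu x hx v w
  refine h.trans ?_
  exact congrArg₂ (fun a b : EV n => g'.inner x (a : TangentSpace 𝓘(ℝ, EV n) x)
    (b : TangentSpace 𝓘(ℝ, EV n) x)) (P255.fderiv_trans_self x hu v)
    (P255.fderiv_trans_self x hu w)

theorem endIn_self (J : EndField n M) (x : M) (w : EV n) :
    endIn J x (chartAt (EV n) x x) w = (J x (w : TangentSpace 𝓘(ℝ, EV n) x) : EV n) := by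
  have hu := mem_chart_target (EV n) x
  have hx := ((chartAt (EV n) x).left_inv (mem_chart_source (EV n) x)).symm
  exact (endIn_apply J x hu x hx w).trans ((P255.fderiv_trans_self x hu _).trans
    (congrArg (fun b : EV n => (J x (b : TangentSpace 𝓘(ℝ, EV n) x) : EV n))
      (P255.fderiv_trans_self x hu w)))

/-- the function `η (J v)` on the unit tangent bundle -/
def FF {g : RMetric (EV n) M} (η : Form1 n M) (J : EndField n M) (p : UT g) : ℝ :=
  η p.pt (J p.pt p.vec)

theorem FF_chart {g : RMetric (EV n) M} (η : Form1 n M) (J : EndField n M) {a : M} {p : UT g}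
    (ha : p.pt ∈ (chartAt (EV n) a).source) :
    FF η J p = formIn η a (chartAt (EV n) a p.pt)
      (endIn J a (chartAt (EV n) a p.pt) (co a p)) := by
  have hu := (chartAt (EV n) a).map_source ha
  have hx := ((chartAt (EV n) a).left_inv ha).symm
  have h1 : fderiv ℝ (trans (EV n) a p.pt) (chartAt (EV n) a p.pt)
      (endIn J a (chartAt (EV n) a p.pt) (co a p)) = (J p.pt p.vec : EV n) :=
    (congrArg _ (endIn_apply J a hu p.pt hx (co a p))).trans ((back ha _).trans
      (congrArg (fun b : EV n => (J p.pt (b : TangentSpace 𝓘(ℝ, EV n) p.pt) : EV n))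
        (back ha (pv p))))
  exact ((formIn_apply η a hu p.pt hx _).trans
    (congrArg (fun b : EV n => η p.pt (b : TangentSpace 𝓘(ℝ, EV n) p.pt)) h1)).symm

theorem continuousOn_co {g : RMetric (EV n) M} (a : M) :
    ContinuousOn (fun p : UT g => co a p) {p | p.pt ∈ (chartAt (EV n) a).source} := by
  have h1 := (trivializationAt (EV n) (TangentSpace 𝓘(ℝ, EV n) : M → Type) a).continuousOn_toFun
  have h2 : Continuous (fun p : UT g => (p.1 : TangentBundle 𝓘(ℝ, EV n) M)) :=
    continuous_subtype_val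
  have h3 := continuous_snd.comp_continuousOn (h1.comp h2.continuousOn (s := {p : UT g | p.pt ∈
    (chartAt (EV n) a).source}) (fun p hp => by
      rw [Trivialization.mem_source]
      exact hp))
  refine h3.congr fun p hp => ?_
  change co a p = (trivializationAt (EV n) (TangentSpace 𝓘(ℝ, EV n) : M → Type) a p.1).2
  rw [TangentBundle.trivializationAt_apply]
  simp only [modelWithCornersSelf_coe, range_id, fderivWithin_univ]
  rfl

theorem continuous_pt {g : RMetric (EV n) M} : Continuous (fun p : UT g => p.pt) :=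
  (FiberBundle.continuous_proj (EV n) (TangentSpace 𝓘(ℝ, EV n) : M → Type)).comp
    continuous_subtype_val

theorem isOpen_dom {g : RMetric (EV n) M} (a : M) :
    IsOpen {p : UT g | p.pt ∈ (chartAt (EV n) a).source} :=
  (chartAt (EV n) a).open_source.preimage continuous_pt

theorem continuousOn_chart_pt {g : RMetric (EV n) M} (a : M) :
    ContinuousOn (fun p : UT g => chartAt (EV n) a p.pt)
      {p | p.pt ∈ (chartAt (EV n) a).source} :=
  (chartAt (EV n) a).continuousOn.comp continuous_pt.continuousOn fun _ hp => hp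

/-! ### the derivative of `η (J γ')` along a geodesic -/

/-- `(∇_v η)(J v)` in the chart at `a` -/
def GC (g : RMetric (EV n) M) (η : Form1 n M) (J : EndField n M) (a : M) (u v : EV n) : ℝ :=
  fderiv ℝ (formIn η a) u v (endIn J a u v)
    - formIn η a u (Gam (coefIn g a) u v (endIn J a u v))

/-- `(∇_v η)(J v)` as a function on the unit tangent bundle -/
def GF {g : RMetric (EV n) M} (η : Form1 n M) (J : EndField n M) (p : UT g) : ℝ :=
  GC g η J p.pt (chartAt (EV n) p.pt p.pt) (pv p)

theorem gam_coefIn (g : RMetric (EV n) M) (a : M) {u : EV n}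
    (hu : u ∈ (chartAt (EV n) a).target) (v w : EV n) :
    Gam (coefIn g a) u v w = chris (coefL g a) u v w :=
  P255.gam_eq ((mt g).isMetricOn a) (fun _ _ _ _ => rfl) hu v w

section Flow

variable [CompactSpace M] [T2Space M] {g : RMetric (EV n) M} {φ : ℝ → UT g → UT g}

omit [CompactSpace M] [T2Space M] in
theorem vel_aux {γ : ℝ → M} (hγ : P255.IsGeodesic (mt g) γ) {a x : M} {t : ℝ} (hx : x = γ t)
    (ha : x ∈ (chartAt (EV n) a).source) :
    fderiv ℝ (trans (EV n) x a) (chartAt (EV n) x x) (deriv (cc (E := EV n) γ x) t) =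
      deriv (cc (E := EV n) γ a) t := by
  subst hx
  exact (hγ.vel_compat (γ t) a t (mem_chart_source (EV n) _) ha).symm

theorem co_flow (hφ : IsGeoFlow g φ) (p : UT g) {a : M} {t : ℝ}
    (ha : (φ t p).pt ∈ (chartAt (EV n) a).source) :
    co a (φ t p) = deriv (cc (E := EV n) (geo (mt g) p.pt (pv p)) a) t := by
  have h1 := hφ.pt_eq t p
  have h2 : pv (φ t p) = deriv (cc (E := EV n) (geo (mt g) p.pt (pv p)) (φ t p).pt) t :=
    hφ.vec_eq t p
  unfold co
  rw [h2]
  exact vel_aux (P255.isGeodesic_geo (mt g) p.pt (pv p)) h1 ha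

theorem hasDerivAt_FF (hφ : IsGeoFlow g φ) {J : EndField n M} (hJ : IsKaehler g J)
    {η : Form1 n M} (hη : ∀ a : M, ContDiffOn ℝ ∞ (formIn η a) (chartAt (EV n) a).target)
    (p : UT g) {a : M} {t : ℝ} (ha : (φ t p).pt ∈ (chartAt (EV n) a).source) :
    HasDerivAt (fun s => FF η J (φ s p))
      (GC g η J a (chartAt (EV n) a (φ t p).pt) (co a (φ t p))) t := by
  set γ := geo (mt g) p.pt (pv p) with hγdef
  have hγ : P255.IsGeodesic (mt g) γ := P255.isGeodesic_geo (mt g) p.pt (pv p)
  have hpt : ∀ s, (φ s p).pt = γ s := fun s => hφ.pt_eq s p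
  have ha' : γ t ∈ (chartAt (EV n) a).source := by rw [← hpt]; exact ha
  have hu : cc (E := EV n) γ a t ∈ (chartAt (EV n) a).target := P255.cc_mem ha'
  obtain ⟨d1, d2, d3⟩ := hγ.eqn a t (mem_univ _) ha'
  set c := cc (E := EV n) γ a with hc
  have hev : ∀ᶠ s in 𝓝 t, γ s ∈ (chartAt (EV n) a).source :=
    P255.eventually_mem_source hγ.continuous.continuousAt ha'
  have hEq : (fun s => FF η J (φ s p)) =ᶠ[𝓝 t]
      fun s => formIn η a (c s) (endIn J a (c s) (deriv c s)) := by
    filter_upwards [hev] with s hs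
    have hs' : (φ s p).pt ∈ (chartAt (EV n) a).source := by rw [hpt]; exact hs
    rw [FF_chart η J hs', co_flow hφ p hs', hpt]
    rfl
  have hnhds := (chartAt (EV n) a).open_target.mem_nhds hu
  have hA : HasDerivAt (fun s => formIn η a (c s)) (fderiv ℝ (formIn η a) (c t) (deriv c t)) t :=
    (((hη a).contDiffAt hnhds).differentiableAt (by simp)).hasFDerivAt.comp_hasDerivAt t
      d1.hasDerivAt
  have hB : HasDerivAt (fun s => endIn J a (c s)) (fderiv ℝ (endIn J a) (c t) (deriv c t)) t :=
    (((hJ.2.2 a).1.contDiffAt hnhds).differentiableAt (by simp)).hasFDerivAt.comp_hasDerivAt t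
      d1.hasDerivAt
  have hW := hB.clm_apply d2.hasDerivAt
  have hR := hA.clm_apply hW
  refine (hR.congr_of_eventuallyEq hEq).congr_deriv ?_
  have hpar := (hJ.2.2 a).2 (c t) hu (deriv c t) (deriv c t)
  have e1 : chartAt (EV n) a (φ t p).pt = c t := by rw [hpt]; rfl
  have e2 : co a (φ t p) = deriv c t := co_flow hφ p ha
  have d3' : deriv (deriv c) t = - Gam (coefIn g a) (c t) (deriv c t) (deriv c t) := by
    rw [gam_coefIn g a hu]; exact d3
  rw [e1, e2, GC, d3']
  have e3 : fderiv ℝ (endIn J a) (c t) (deriv c t) (deriv c t)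
      + endIn J a (c t) (-Gam (coefIn g a) (c t) (deriv c t) (deriv c t)) =
      - Gam (coefIn g a) (c t) (deriv c t) (endIn J a (c t) (deriv c t)) := by
    rw [map_neg]
    apply eq_neg_of_add_eq_zero_left
    rw [← hpar]
    abel
  rw [e3, map_neg]
  ring

theorem GF_eq (hφ : IsGeoFlow g φ) {J : EndField n M} (hJ : IsKaehler g J)
    {η : Form1 n M} (hη : ∀ a : M, ContDiffOn ℝ ∞ (formIn η a) (chartAt (EV n) a).target)
    (p : UT g) {a : M} (ha : p.pt ∈ (chartAt (EV n) a).source) :
    GF η J p = GC g η J a (chartAt (EV n) a p.pt) (co a p) := by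
  have h0 := (hφ p).1
  have h1 := hasDerivAt_FF hφ hJ hη p (a := a) (t := 0) (by rw [h0]; exact ha)
  have h2 := hasDerivAt_FF hφ hJ hη p (a := p.pt) (t := 0)
    (by rw [h0]; exact mem_chart_source (EV n) p.pt)
  have h3 := h2.unique h1
  simp only [h0] at h3
  rw [co_pt] at h3
  exact h3

theorem hasDerivAt_FF' (hφ : IsGeoFlow g φ) {J : EndField n M} (hJ : IsKaehler g J)
    {η : Form1 n M} (hη : ∀ a : M, ContDiffOn ℝ ∞ (formIn η a) (chartAt (EV n) a).target)
    (p : UT g) (t : ℝ) : HasDerivAt (fun s => FF η J (φ s p)) (GF η J (φ t p)) t := by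
  rw [GF_eq hφ hJ hη (φ t p) (mem_chart_source (EV n) (φ t p).pt)]
  exact hasDerivAt_FF hφ hJ hη p (mem_chart_source (EV n) (φ t p).pt)

omit [CompactSpace M] [T2Space M] in
theorem continuousOn_gam (g : RMetric (EV n) M) (a : M) :
    ContinuousOn (fun q : EV n × EV n × EV n => Gam (coefIn g a) q.1 q.2.1 q.2.2)
      ((chartAt (EV n) a).target ×ˢ univ) := by
  have h : ContinuousOn (fun q : EV n × EV n × EV n => chrisB (coefL g a) q.1 q.2.1 q.2.2)
      ((chartAt (EV n) a).target ×ˢ univ) := by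
    rintro ⟨u, v, w⟩ hq
    have h1 : ContinuousAt (chrisB (coefL g a)) u :=
      (((mt g).isMetricOn a).contDiffAt_chrisB hq.1).continuousAt
    have h2 : ContinuousAt (fun q : EV n × EV n × EV n => chrisB (coefL g a) q.1) (u, v, w) := by
      have h3 : Tendsto (fun q : EV n × EV n × EV n => q.1) (𝓝 (u, v, w)) (𝓝 u) :=
        continuousAt_fst
      exact h1.tendsto.comp h3
    exact ((h2.clm_apply (by fun_prop)).clm_apply (by fun_prop)).continuousWithinAt
  refine h.congr fun q hq => ?_
  rw [gam_coefIn g a hq.1]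
  rfl

omit [CompactSpace M] [T2Space M] in
theorem continuousOn_GC {J : EndField n M} (hJ : IsKaehler g J)
    {η : Form1 n M} (hη : ∀ a : M, ContDiffOn ℝ ∞ (formIn η a) (chartAt (EV n) a).target)
    (a : M) : ContinuousOn (fun q : EV n × EV n => GC g η J a q.1 q.2)
      ((chartAt (EV n) a).target ×ˢ univ) := by
  have hop := (chartAt (EV n) a).open_target
  have h1 : ContinuousOn (fun q : EV n × EV n => fderiv ℝ (formIn η a) q.1)
      ((chartAt (EV n) a).target ×ˢ univ) :=
    ((hη a).continuousOn_fderiv_of_isOpen hop (by simp)).comp continuousOn_fst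
      (fun q hq => hq.1)
  have h2 : ContinuousOn (fun q : EV n × EV n => endIn J a q.1)
      ((chartAt (EV n) a).target ×ˢ univ) :=
    ((hJ.2.2 a).1.continuousOn).comp continuousOn_fst (fun q hq => hq.1)
  have h3 : ContinuousOn (fun q : EV n × EV n => formIn η a q.1)
      ((chartAt (EV n) a).target ×ˢ univ) :=
    ((hη a).continuousOn).comp continuousOn_fst (fun q hq => hq.1)
  have h4 : ContinuousOn (fun q : EV n × EV n => endIn J a q.1 q.2)
      ((chartAt (EV n) a).target ×ˢ univ) := h2.clm_apply continuousOn_snd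
  have h6 : ContinuousOn (fun q : EV n × EV n => (q.1, q.2, endIn J a q.1 q.2))
      ((chartAt (EV n) a).target ×ˢ univ) :=
    continuousOn_fst.prodMk (continuousOn_snd.prodMk h4)
  have h5 : ContinuousOn (fun q : EV n × EV n => Gam (coefIn g a) q.1 q.2 (endIn J a q.1 q.2))
      ((chartAt (EV n) a).target ×ˢ univ) :=
    ContinuousOn.comp (t := (chartAt (EV n) a).target ×ˢ univ)
      (g := fun q : EV n × EV n × EV n => Gam (coefIn g a) q.1 q.2.1 q.2.2)
      (f := fun q : EV n × EV n => (q.1, q.2, endIn J a q.1 q.2))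
      (continuousOn_gam g a) h6 (fun q hq => ⟨hq.1, mem_univ _⟩)
  have h7 : ContinuousOn (fun q : EV n × EV n => fderiv ℝ (formIn η a) q.1 q.2
      (endIn J a q.1 q.2)) ((chartAt (EV n) a).target ×ˢ univ) :=
    (h1.clm_apply continuousOn_snd).clm_apply h4
  have h8 : ContinuousOn (fun q : EV n × EV n => formIn η a q.1
      (Gam (coefIn g a) q.1 q.2 (endIn J a q.1 q.2))) ((chartAt (EV n) a).target ×ˢ univ) :=
    h3.clm_apply h5
  exact h7.sub h8

omit [CompactSpace M] [T2Space M] in
theorem continuous_of_chart {f : UT g → ℝ} (F : M → EV n × EV n → ℝ)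
    (hF : ∀ a, ContinuousOn (F a) ((chartAt (EV n) a).target ×ˢ univ))
    (h : ∀ (a : M) (p : UT g), p.pt ∈ (chartAt (EV n) a).source →
      f p = F a (chartAt (EV n) a p.pt, co a p)) : Continuous f := by
  rw [continuous_iff_continuousAt]
  intro p
  have hp := mem_chart_source (EV n) p.pt
  have h1 : ContinuousOn (fun q : UT g => F p.pt (chartAt (EV n) p.pt q.pt, co p.pt q))
      {q | q.pt ∈ (chartAt (EV n) p.pt).source} :=
    (hF p.pt).comp ((continuousOn_chart_pt p.pt).prodMk (continuousOn_co p.pt))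
      (fun q hq => ⟨(chartAt (EV n) p.pt).map_source hq, mem_univ _⟩)
  have h2 := h1.congr (fun q hq => h p.pt q hq)
  exact h2.continuousAt ((isOpen_dom p.pt).mem_nhds hp)

theorem continuous_GF (hφ : IsGeoFlow g φ) {J : EndField n M} (hJ : IsKaehler g J)
    {η : Form1 n M} (hη : ∀ a : M, ContDiffOn ℝ ∞ (formIn η a) (chartAt (EV n) a).target) :
    Continuous (GF (g := g) η J) :=
  continuous_of_chart _ (continuousOn_GC hJ hη) fun _ p ha => GF_eq hφ hJ hη p ha

omit [CompactSpace M] [T2Space M] in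
theorem continuous_FF {J : EndField n M} (hJ : IsKaehler g J)
    {η : Form1 n M} (hη : ∀ a : M, ContDiffOn ℝ ∞ (formIn η a) (chartAt (EV n) a).target) :
    Continuous (FF (g := g) η J) := by
  refine continuous_of_chart (fun a q => formIn η a q.1 (endIn J a q.1 q.2)) (fun a => ?_)
    fun _ p ha => FF_chart η J ha
  have h2 : ContinuousOn (fun q : EV n × EV n => endIn J a q.1)
      ((chartAt (EV n) a).target ×ˢ univ) :=
    ((hJ.2.2 a).1.continuousOn).comp continuousOn_fst (fun q hq => hq.1)
  have h3 : ContinuousOn (fun q : EV n × EV n => formIn η a q.1)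
      ((chartAt (EV n) a).target ×ˢ univ) :=
    ((hη a).continuousOn).comp continuousOn_fst (fun q hq => hq.1)
  exact h3.clm_apply (h2.clm_apply continuousOn_snd)

omit [CompactSpace M] [T2Space M] in
theorem continuous_inner (g₁ : RMetric (EV n) M) :
    Continuous (fun p : UT g => g₁.inner p.pt p.vec p.vec) := by
  refine continuous_of_chart (fun a q => coefIn g₁ a q.1 q.2 q.2) (fun a => ?_)
    fun _ p ha => (coefIn_co ha).symm
  have h2 : ContinuousOn (fun q : EV n × EV n => coefL g₁ a q.1)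
      ((chartAt (EV n) a).target ×ˢ univ) :=
    ((P255.contDiffOn_coefL g₁ a).continuousOn).comp continuousOn_fst (fun q hq => hq.1)
  exact (h2.clm_apply continuousOn_snd).clm_apply continuousOn_snd

/-! ### the mean of a derivative along the flow -/

theorem integral_GF (hφ : IsGeoFlow g φ) {J : EndField n M} (hJ : IsKaehler g J)
    {η : Form1 n M} (hη : ∀ a : M, ContDiffOn ℝ ∞ (formIn η a) (chartAt (EV n) a).target)
    {m : Measure (UT g)} [IsProbabilityMeasure m]
    (hm : ∀ t, MeasurePreserving (φ t) m m) : ∫ p, GF η J p ∂m = 0 := by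
  have : CompactSpace (UT g) := compactSpace_UT g
  have hF := continuous_FF (g := g) hJ hη
  have hG := continuous_GF hφ hJ hη
  obtain ⟨C, hC⟩ : ∃ C : ℝ, ∀ p : UT g, ‖GF η J p‖ ≤ C := by
    obtain ⟨C, hC⟩ := isCompact_univ.exists_bound_of_continuousOn (hG.continuousOn (s := univ))
    exact ⟨C, fun p => hC p (mem_univ p)⟩
  have hFi : Integrable (fun p : UT g => FF η J p) m := by
    obtain ⟨C', hC'⟩ := isCompact_univ.exists_bound_of_continuousOn (hF.continuousOn (s := univ))
    exact Integrable.of_bound hF.aestronglyMeasurable C'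
      (Eventually.of_forall fun p => hC' p (mem_univ p))
  have hFit : ∀ t, Integrable (fun p : UT g => FF η J (φ t p)) m := fun t =>
    (hm t).integrable_comp_of_integrable hFi
  -- the difference quotients have mean `0`
  have hz : ∀ t : ℝ, ∫ p, t⁻¹ * (FF η J (φ t p) - FF η J p) ∂m = 0 := by
    intro t
    rw [integral_const_mul, integral_sub (hFit t) hFi]
    have h1 : ∫ p, FF η J (φ t p) ∂m = ∫ p, FF η J p ∂m := by
      have h2 := integral_map (μ := m) (hm t).measurable.aemeasurable
        (f := fun p : UT g => FF η J p) hF.aestronglyMeasurable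
      rw [(hm t).map_eq] at h2
      exact h2.symm
    rw [h1, sub_self, mul_zero]
  -- dominated convergence
  have hb : ∀ (t : ℝ) (p : UT g), ‖FF η J (φ t p) - FF η J p‖ ≤ C * ‖t‖ := by
    intro t p
    have h1 := convex_univ.norm_image_sub_le_of_norm_hasDerivWithin_le
      (f := fun s => FF η J (φ s p)) (f' := fun s => GF η J (φ s p)) (C := C) (x := 0) (y := t)
      (fun s _ => (hasDerivAt_FF' hφ hJ hη p s).hasDerivWithinAt) (fun s _ => hC _)
      (mem_univ _) (mem_univ _)
    simp only [(hφ p).1, sub_zero] at h1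
    exact h1
  have hlim : Tendsto (fun t : ℝ => ∫ p, t⁻¹ * (FF η J (φ t p) - FF η J p) ∂m) (𝓝[≠] 0)
      (𝓝 (∫ p, GF η J p ∂m)) := by
    refine tendsto_integral_filter_of_dominated_convergence (fun _ => C) ?_ ?_
      (integrable_const C) ?_
    · exact Eventually.of_forall fun t =>
        (((hFit t).sub hFi).const_mul t⁻¹).aestronglyMeasurable
    · filter_upwards [self_mem_nhdsWithin] with t ht
      refine Eventually.of_forall fun p => ?_
      have ht0 : 0 < ‖t‖ := norm_pos_iff.2 ht
      rw [norm_mul, norm_inv, inv_mul_le_iff₀ ht0, mul_comm]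
      exact hb t p
    · refine Eventually.of_forall fun p => ?_
      have h1 := (hasDerivAt_FF' hφ hJ hη p 0).tendsto_slope
      simp only [(hφ p).1] at h1
      refine h1.congr fun t => ?_
      rw [slope_def_field, (hφ p).1, sub_zero, div_eq_inv_mul]
  have hlim0 : Tendsto (fun t : ℝ => ∫ p, t⁻¹ * (FF η J (φ t p) - FF η J p) ∂m) (𝓝[≠] 0)
      (𝓝 0) := by
    simp only [hz]
    exact tendsto_const_nhds
  exact tendsto_nhds_unique hlim hlim0

end Flow

end K2

variable {n : ℕ} {M : Type} [TopologicalSpace M] [ChartedSpace (EV n) M]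
  [IsManifold 𝓘(ℝ, EV n) ∞ M] [CompactSpace M] [T2Space M]
variable [MeasurableSpace M] [BorelSpace M] {g₀ g₁ : RMetric (EV n) M}
  {φ : ℝ → UT g₀ → UT g₀} {μ : Measure M} {m : Measure (UT g₀)} {J : EndField n M} {c : ℝ}

omit [CompactSpace M] [T2Space M] [MeasurableSpace M] [BorelSpace M] in
open K2 in
/-- the pointwise identity -/
theorem K2.inner_eq (h₀ : IsKaehler g₀ J) (h₁ : IsKaehler g₁ J)
    {η : Form1 n M} (hη : ∀ a : M, ContDiffOn ℝ ∞ (formIn η a) (chartAt (EV n) a).target ∧
    ∀ u ∈ (chartAt (EV n) a).target, ∀ v w : EV n,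
      coefIn g₁ a u (endIn J a u v) w - c * coefIn g₀ a u (endIn J a u v) w
        = fderiv ℝ (formIn η a) u v w - fderiv ℝ (formIn η a) u w v) (p : UT g₀) :
    g₁.inner p.pt p.vec p.vec - c = GF η J p + GF η J (jmap h₀ p) := by
  have hu := mem_chart_target (EV n) p.pt
  obtain ⟨w, hw⟩ : ∃ w : EV n, w = (J p.pt p.vec : EV n) := ⟨_, rfl⟩
  have e1 := (hη p.pt).2 _ hu (pv p) (endIn J p.pt (chartAt (EV n) p.pt p.pt) (pv p))
  have e2 : endIn J p.pt (chartAt (EV n) p.pt p.pt) (pv p) = w :=
    (endIn_self J p.pt (pv p)).trans hw.symm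
  rw [e2] at e1
  have e3 : coefIn g₁ p.pt (chartAt (EV n) p.pt p.pt) w w = g₁.inner p.pt p.vec p.vec := by
    rw [hw]
    exact (coefIn_self g₁ p.pt _ _).trans (h₁.2.1 p.pt p.vec p.vec)
  have e4 : coefIn g₀ p.pt (chartAt (EV n) p.pt p.pt) w w = 1 := by
    rw [hw]
    exact (coefIn_self g₀ p.pt _ _).trans ((h₀.2.1 p.pt p.vec p.vec).trans p.2)
  have e5 : endIn J p.pt (chartAt (EV n) p.pt p.pt) w = - pv p := by
    rw [hw]
    exact (endIn_self J p.pt _).trans (h₀.1 p.pt p.vec)
  have e6 : GF η J p = fderiv ℝ (formIn η p.pt) (chartAt (EV n) p.pt p.pt) (pv p) w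
      - formIn η p.pt (chartAt (EV n) p.pt p.pt)
        (chris (coefL g₀ p.pt) (chartAt (EV n) p.pt p.pt) (pv p) w) := by
    unfold GF GC
    rw [e2, gam_coefIn g₀ p.pt hu]
  have e7 : GF η J (jmap h₀ p) = GC g₀ η J p.pt (chartAt (EV n) p.pt p.pt) w := by
    rw [hw]
    rfl
  have e8 : GC g₀ η J p.pt (chartAt (EV n) p.pt p.pt) w =
      - fderiv ℝ (formIn η p.pt) (chartAt (EV n) p.pt p.pt) w (pv p)
      + formIn η p.pt (chartAt (EV n) p.pt p.pt)
        (chris (coefL g₀ p.pt) (chartAt (EV n) p.pt p.pt) (pv p) w) := by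
    unfold GC
    have e10 : chris (coefL g₀ p.pt) (chartAt (EV n) p.pt p.pt) w (-pv p) =
        chris (coefL g₀ p.pt) (chartAt (EV n) p.pt p.pt) (-pv p) w :=
      ((mt g₀).isMetricOn p.pt).chris_symm hu w (-pv p)
    rw [e5, gam_coefIn g₀ p.pt hu, e10]
    have e9 : chris (coefL g₀ p.pt) (chartAt (EV n) p.pt p.pt) (-pv p) w =
        - chris (coefL g₀ p.pt) (chartAt (EV n) p.pt p.pt) (pv p) w := by
      rw [← P255.chrisB_apply, ← P255.chrisB_apply, map_neg]
      rfl
    rw [e9]
    simp only [map_neg]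
    ring
  rw [e3, e4] at e1
  rw [e6, e7, e8]
  linarith

/-- K2. the Kähler identity (uses L and K1) -/
theorem integral_nrm_sq (hn : 1 ≤ n) (hφ : IsGeoFlow g₀ φ) (hμ : IsRiemVol g₀ μ)
    (hm : IsLiouville g₀ μ m) (h₀ : IsKaehler g₀ J) (h₁ : IsKaehler g₁ J)
    (hc : SameClass g₀ g₁ J c) : ∫ p, nrm g₀ g₁ p ^ 2 ∂m = c := by
  obtain ⟨η, hη⟩ := hc
  have hη' : ∀ a : M, ContDiffOn ℝ ∞ (formIn η a) (chartAt (EV n) a).target := fun a => (hη a).1
  have : CompactSpace (UT g₀) := compactSpace_UT g₀
  have : IsProbabilityMeasure m := hm.1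
  have hint : ∀ {f : UT g₀ → ℝ}, Continuous f → Integrable f m := fun {f} hf => by
    obtain ⟨C', hC'⟩ := isCompact_univ.exists_bound_of_continuousOn (hf.continuousOn (s := univ))
    exact Integrable.of_bound hf.aestronglyMeasurable C'
      (Eventually.of_forall fun p => hC' p (mem_univ p))
  have hG : Continuous (K2.GF (g := g₀) η J) := K2.continuous_GF hφ h₀ hη'
  have hI : Continuous (fun p : UT g₀ => g₁.inner p.pt p.vec p.vec) := K2.continuous_inner g₁
  have h1 : ∫ p, K2.GF η J p ∂m = 0 :=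
    K2.integral_GF hφ h₀ hη' fun t => hm.measurePreserving hn hφ hμ t
  have h2 : ∫ p, K2.GF η J (jmap h₀ p) ∂m = 0 := (hm.integral_jmap hn hμ h₀ hG).trans h1
  have h3 : ∀ p : UT g₀, K2.GF η J (jmap h₀ p) = g₁.inner p.pt p.vec p.vec - c - K2.GF η J p :=
    fun p => by
      have := K2.inner_eq h₀ h₁ hη p
      linarith
  have h4 : ∀ p : UT g₀, nrm g₀ g₁ p ^ 2 = g₁.inner p.pt p.vec p.vec := fun p => by
    unfold nrm
    refine Real.sq_sqrt ?_
    rcases eq_or_ne p.vec 0 with h | h
    · rw [h]; simp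
    · exact (g₁.pos p.pt p.vec h).le
  simp only [h4]
  rw [integral_congr_ae (Eventually.of_forall h3)] at h2
  have h5 : Integrable (fun p : UT g₀ => g₁.inner p.pt p.vec p.vec - c) m :=
    (hint hI).sub (integrable_const c)
  rw [integral_sub h5 (hint hG), h1, integral_sub (hint hI) (integrable_const c),
    integral_const] at h2
  simp only [probReal_univ, smul_eq_mul, one_mul] at h2
  linarith

end Vale.Agent.P207
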