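import Vale.Agent.P207.Base

/-!
# P207, block L (0): determinants, traces and the reparametrised geodesic field in a chart

`uField G = geoField G / |w|` is the generator of the flow `(x, w) ↦ |w| φ_t (w / |w|)`; its
divergence with respect to the density `det G_u` vanishes.
-/

open scoped Manifold ContDiff ENNReal Topology
open Bundle MeasureTheory Set Filter

set_option maxSynthPendingDepth 3
set_option linter.unusedSectionVars false

noncomputable section

namespace Vale.Agent.P207

open Vale.Agent.P255 (IsMetricOn chris chrisB chrisB_apply geoField)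

/-! ### the derivative of the determinant -/

section MatDet

variable {ι : Type} [Fintype ι] [DecidableEq ι]

theorem differentiable_matDet :
    Differentiable ℝ fun X : ι → ι → ℝ => (Matrix.of X).det := by
  have h : (fun X : ι → ι → ℝ => (Matrix.of X).det)
      = fun X => ∑ σ : Equiv.Perm ι, ((Equiv.Perm.sign σ : ℤ) : ℝ) * ∏ i, X (σ i) i := by
    funext X
    rw [Matrix.det_apply']
    rfl
  rw [h]
  intro X
  refine DifferentiableAt.fun_sum fun σ _ => DifferentiableAt.const_mul ?_ _
  have : ∀ i, DifferentiableAt ℝ (fun Y : ι → ι → ℝ => Y (σ i) i) X := by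
    intro i
    fun_prop
  exact (HasFDerivAt.finsetProd (u := Finset.univ) fun i _ =>
    (this i).hasFDerivAt).differentiableAt

/-- the derivative of `det` in the direction `B A` -/
theorem hasDerivAt_matDet_line (A B : Matrix ι ι ℝ) :
    HasDerivAt (fun r : ℝ => (A + r • (B * A)).det) (B.trace * A.det) 0 := by
  have h5 : ∀ r : ℝ, (A + r • (B * A)).det = (1 + r • B).det * A.det := by
    intro r
    rw [← Matrix.det_mul, add_mul, one_mul, smul_mul_assoc]
  have h6 : (fun r : ℝ => (A + r • (B * A)).det) = fun r =>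
      (1 + B.trace * r + ((Matrix.det (1 +
        (Polynomial.X : Polynomial ℝ) • B.map Polynomial.C)).divX.divX.eval r)
          * r ^ 2) * A.det := by
    funext r
    rw [h5, Matrix.det_one_add_smul]
  rw [h6]
  set q : Polynomial ℝ := (Matrix.det (1 +
        (Polynomial.X : Polynomial ℝ) • B.map Polynomial.C)).divX.divX
  have h7 : HasDerivAt (fun r : ℝ => q.eval r * r ^ 2) 0 0 := by
    have := (q.hasDerivAt (0:ℝ)).fun_mul (hasDerivAt_pow 2 (0:ℝ))
    simpa using this
  have h8 : HasDerivAt (fun r : ℝ => 1 + B.trace * r) B.trace 0 := by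
    simpa using ((hasDerivAt_id (0:ℝ)).const_mul B.trace).const_add 1
  simpa using (h8.add h7).mul_const A.det

/-- the derivative of `det` in the direction `A B` -/
theorem hasDerivAt_matDet_line' (A B : Matrix ι ι ℝ) :
    HasDerivAt (fun r : ℝ => (A + r • (A * B)).det) (B.trace * A.det) 0 := by
  have h := hasDerivAt_matDet_line A.transpose B.transpose
  rw [Matrix.trace_transpose, Matrix.det_transpose] at h
  refine h.congr_of_eventuallyEq (Eventually.of_forall fun r => ?_)
  have : A + r • (A * B) = (A.transpose + r • (B.transpose * A.transpose)).transpose := by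
    rw [Matrix.transpose_add, Matrix.transpose_smul, Matrix.transpose_mul,
      Matrix.transpose_transpose, Matrix.transpose_transpose]
  show (A + r • (A * B)).det = (A.transpose + r • (B.transpose * A.transpose)).det
  rw [this, Matrix.det_transpose]

theorem fderiv_matDet_left (A B : Matrix ι ι ℝ) :
    fderiv ℝ (fun X : ι → ι → ℝ => (Matrix.of X).det) A (B * A : Matrix ι ι ℝ) =
      B.trace * A.det := by
  have h1 : HasDerivAt (fun r : ℝ => ((fun i j => A i j + r * (B * A) i j) : ι → ι → ℝ))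
      (fun i j => (B * A) i j : ι → ι → ℝ) 0 := by
    refine hasDerivAt_pi.2 fun i => hasDerivAt_pi.2 fun j => ?_
    simpa using ((hasDerivAt_id (0:ℝ)).mul_const ((B * A) i j)).const_add (A i j)
  have h2 : HasFDerivAt (fun X : ι → ι → ℝ => (Matrix.of X).det)
      (fderiv ℝ (fun X : ι → ι → ℝ => (Matrix.of X).det) A)
      ((fun i j => A i j + (0:ℝ) * (B * A) i j) : ι → ι → ℝ) := by
    have e : ((fun i j => A i j + (0:ℝ) * (B * A) i j) : ι → ι → ℝ) = A := by
      funext i j; simp
    rw [e]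
    exact (differentiable_matDet A).hasFDerivAt
  exact (h2.comp_hasDerivAt (0:ℝ) h1).unique (hasDerivAt_matDet_line A B)

theorem fderiv_matDet_right (A B : Matrix ι ι ℝ) :
    fderiv ℝ (fun X : ι → ι → ℝ => (Matrix.of X).det) A (A * B : Matrix ι ι ℝ) =
      B.trace * A.det := by
  have h1 : HasDerivAt (fun r : ℝ => ((fun i j => A i j + r * (A * B) i j) : ι → ι → ℝ))
      (fun i j => (A * B) i j : ι → ι → ℝ) 0 := by
    refine hasDerivAt_pi.2 fun i => hasDerivAt_pi.2 fun j => ?_
    simpa using ((hasDerivAt_id (0:ℝ)).mul_const ((A * B) i j)).const_add (A i j)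
  have h2 : HasFDerivAt (fun X : ι → ι → ℝ => (Matrix.of X).det)
      (fderiv ℝ (fun X : ι → ι → ℝ => (Matrix.of X).det) A)
      ((fun i j => A i j + (0:ℝ) * (A * B) i j) : ι → ι → ℝ) := by
    have e : ((fun i j => A i j + (0:ℝ) * (A * B) i j) : ι → ι → ℝ) = A := by
      funext i j; simp
    rw [e]
    exact (differentiable_matDet A).hasFDerivAt
  exact (h2.comp_hasDerivAt (0:ℝ) h1).unique (hasDerivAt_matDet_line' A B)

/-- Jacobi's formula for a solution of `A' = B A`. -/
theorem hasDerivAt_matDet_left {A : ℝ → Matrix ι ι ℝ} {B : Matrix ι ι ℝ} {t : ℝ}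
    (hA : ∀ i j, HasDerivAt (fun s => A s i j) ((B * A t) i j) t) :
    HasDerivAt (fun s => (A s).det) (B.trace * (A t).det) t := by
  have h1 : HasDerivAt (fun s => (fun i j => A s i j : ι → ι → ℝ))
      (fun i j => (B * A t) i j : ι → ι → ℝ) t :=
    hasDerivAt_pi.2 fun i => hasDerivAt_pi.2 fun j => hA i j
  have h2 := (differentiable_matDet (A t)).hasFDerivAt.comp_hasDerivAt t h1
  exact h2.congr_deriv (fderiv_matDet_left (A t) B)

/-- Jacobi's formula for a solution of `A' = Cᵀ A + A C`. -/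
theorem hasDerivAt_matDet_sym {A : ℝ → Matrix ι ι ℝ} {C : Matrix ι ι ℝ} {t : ℝ}
    (hA : ∀ i j, HasDerivAt (fun s => A s i j) ((C.transpose * A t + A t * C) i j) t) :
    HasDerivAt (fun s => (A s).det) (2 * C.trace * (A t).det) t := by
  have h1 : HasDerivAt (fun s => (fun i j => A s i j : ι → ι → ℝ))
      (fun i j => (C.transpose * A t + A t * C) i j : ι → ι → ℝ) t :=
    hasDerivAt_pi.2 fun i => hasDerivAt_pi.2 fun j => hA i j
  have h2 := (differentiable_matDet (A t)).hasFDerivAt.comp_hasDerivAt t h1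
  refine h2.congr_deriv ?_
  have h3 := (fderiv ℝ (fun X : ι → ι → ℝ => (Matrix.of X).det) (A t)).map_add
    (C.transpose * A t : Matrix ι ι ℝ) (A t * C : Matrix ι ι ℝ)
  rw [fderiv_matDet_left, fderiv_matDet_right, Matrix.trace_transpose] at h3
  refine Eq.trans h3 ?_
  ring

end MatDet

section ClmDet

variable {F : Type} [NormedAddCommGroup F] [NormedSpace ℝ F] [FiniteDimensional ℝ F]

/-- Jacobi's formula: if `A' = B A` then `(det A)' = tr B det A`. -/
theorem hasDerivAt_clm_det {A : ℝ → F →L[ℝ] F} {B : F →L[ℝ] F} {t : ℝ}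
    (hA : ∀ w, HasDerivAt (fun s => A s w) (B (A t w)) t) :
    HasDerivAt (fun s => (A s).det) (LinearMap.trace ℝ F (B : F →ₗ[ℝ] F) * (A t).det) t := by
  classical
  set b := Module.finBasis ℝ F with hb
  have hdet : ∀ L : F →L[ℝ] F, L.det = (LinearMap.toMatrix b b (L : F →ₗ[ℝ] F)).det := by
    intro L
    rw [LinearMap.det_toMatrix]
  simp only [hdet]
  rw [LinearMap.trace_eq_matrix_trace ℝ b]
  apply hasDerivAt_matDet_left
  intro i j
  have h1 : ((LinearMap.toMatrix b b (B : F →ₗ[ℝ] F)) * (LinearMap.toMatrix b b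
      (A t : F →ₗ[ℝ] F))) i j = b.coord i (B (A t (b j))) := by
    rw [← LinearMap.toMatrix_comp, LinearMap.toMatrix_apply]
    rfl
  rw [h1]
  have h2 : (fun s => (LinearMap.toMatrix b b (A s : F →ₗ[ℝ] F)) i j) =
      fun s => (b.coord i).toContinuousLinearMap (A s (b j)) := by
    funext s
    rw [LinearMap.toMatrix_apply]
    rfl
  rw [h2]
  exact (b.coord i).toContinuousLinearMap.hasFDerivAt.comp_hasDerivAt t (hA (b j))

/-- the trace of a block matrix -/
theorem trace_prod_eq {E : Type} [NormedAddCommGroup E] [NormedSpace ℝ E] [FiniteDimensional ℝ E]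
    (L : E × E →ₗ[ℝ] E × E) :
    LinearMap.trace ℝ (E × E) L =
      LinearMap.trace ℝ E (LinearMap.fst ℝ E E ∘ₗ L ∘ₗ LinearMap.inl ℝ E E) +
      LinearMap.trace ℝ E (LinearMap.snd ℝ E E ∘ₗ L ∘ₗ LinearMap.inr ℝ E E) := by
  have h : L = (LinearMap.inl ℝ E E) ∘ₗ (LinearMap.fst ℝ E E ∘ₗ L) +
      (LinearMap.inr ℝ E E) ∘ₗ (LinearMap.snd ℝ E E ∘ₗ L) := by
    apply LinearMap.ext
    intro z
    apply Prod.ext <;> simp
  conv_lhs => rw [h]
  rw [map_add, LinearMap.trace_comp_comm' (LinearMap.fst ℝ E E ∘ₗ L) (LinearMap.inl ℝ E E),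
    LinearMap.trace_comp_comm' (LinearMap.snd ℝ E E ∘ₗ L) (LinearMap.inr ℝ E E)]
  rfl

end ClmDet

/-! ### the Gram determinant and the reparametrised geodesic field -/

section Field

/-- the Gram determinant of the metric coefficients, in the standard basis of `EV n` -/
def grd {n : ℕ} (G : EV n → EV n →L[ℝ] EV n →L[ℝ] ℝ) (u : EV n) : ℝ :=
  (Matrix.of fun i j : Fin n =>
    G u (EuclideanSpace.single i 1) (EuclideanSpace.single j 1)).det

variable {E : Type} [NormedAddCommGroup E] [NormedSpace ℝ E]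

/-- the speed of the vector `z.2` at the point `z.1` -/
def spd (G : E → E →L[ℝ] E →L[ℝ] ℝ) (z : E × E) : ℝ := Real.sqrt (G z.1 z.2 z.2)

/-- the generator of the flow `(x,w) ↦ |w| φ_t(w/|w|)` -/
def uField (G : E → E →L[ℝ] E →L[ℝ] ℝ) (z : E × E) : E × E := (spd G z)⁻¹ • geoField G z

variable [FiniteDimensional ℝ E] {G : E → E →L[ℝ] E →L[ℝ] ℝ} {U : Set E}

theorem contDiffAt_sq (h : IsMetricOn G U) {z : E × E} (hz : z.1 ∈ U) :
    ContDiffAt ℝ ∞ (fun z : E × E => G z.1 z.2 z.2) z := by
  have h1 : ContDiffAt ℝ ∞ (fun x : E × E => G x.1) z :=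
    ContDiffAt.comp z (h.contDiffAt hz) contDiffAt_fst
  exact (h1.clm_apply contDiffAt_snd).clm_apply contDiffAt_snd

theorem contDiffAt_spdInv (h : IsMetricOn G U) {z : E × E} (hz : z.1 ∈ U) (hz2 : z.2 ≠ 0) :
    ContDiffAt ℝ ∞ (fun z : E × E => (spd G z)⁻¹) z := by
  have h0 := h.pos z.1 hz z.2 hz2
  exact ((contDiffAt_sq h hz).sqrt h0.ne').inv (Real.sqrt_pos.2 h0).ne'

theorem contDiffAt_uField (h : IsMetricOn G U) {z : E × E} (hz : z.1 ∈ U) (hz2 : z.2 ≠ 0) :
    ContDiffAt ℝ ∞ (uField G) z :=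
  (contDiffAt_spdInv h hz hz2).smul (h.contDiffAt_geoField hz)

theorem contDiffOn_uField (h : IsMetricOn G U) :
    ContDiffOn ℝ ∞ (uField G) (U ×ˢ ({0}ᶜ : Set E)) :=
  fun _ hz => (contDiffAt_uField h hz.1 hz.2).contDiffWithinAt

/-- the speed is a first integral of the geodesic field -/
theorem fderiv_sq_geoField (h : IsMetricOn G U) {z : E × E} (hz : z.1 ∈ U) :
    fderiv ℝ (fun z : E × E => G z.1 z.2 z.2) z (geoField G z) = 0 := by
  have h1 : HasFDerivAt (fun x : E × E => G x.1) ((fderiv ℝ G z.1).comp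
      (ContinuousLinearMap.fst ℝ E E)) z :=
    HasFDerivAt.comp (f := Prod.fst) (g := G) z (h.differentiableAt hz).hasFDerivAt
      (hasFDerivAt_fst (𝕜 := ℝ) (E := E) (F := E) (p := z))
  have h2 := (h1.clm_apply (hasFDerivAt_snd (𝕜 := ℝ) (E := E) (F := E) (p := z))).clm_apply
    (hasFDerivAt_snd (𝕜 := ℝ) (E := E) (F := E) (p := z))
  rw [h2.fderiv]
  simp only [geoField, add_apply, ContinuousLinearMap.flip_apply,
    ContinuousLinearMap.comp_apply, ContinuousLinearMap.coe_fst', ContinuousLinearMap.coe_snd',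
    map_neg, neg_apply, ContinuousLinearMap.flip_add]
  rw [h.chris_compat hz]
  ring

/-- the trace of the derivative of the geodesic field -/
theorem trace_fderiv_geoField (h : IsMetricOn G U) {z : E × E} (hz : z.1 ∈ U) :
    LinearMap.trace ℝ (E × E) (fderiv ℝ (geoField G) z : E × E →ₗ[ℝ] E × E) =
      -2 * LinearMap.trace ℝ E (chrisB G z.1 z.2 : E →ₗ[ℝ] E) := by
  obtain ⟨u, w⟩ := z
  rw [trace_prod_eq]
  have e1 : LinearMap.fst ℝ E E ∘ₗ (fderiv ℝ (geoField G) (u, w) : E × E →ₗ[ℝ] E × E) ∘ₗ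
      LinearMap.inl ℝ E E = 0 := by
    apply LinearMap.ext
    intro x
    have := h.fderiv_geoField (v := w) hz x 0
    show (fderiv ℝ (geoField G) (u, w) (x, 0)).1 = 0
    rw [this]
  have e2 : LinearMap.snd ℝ E E ∘ₗ (fderiv ℝ (geoField G) (u, w) : E × E →ₗ[ℝ] E × E) ∘ₗ
      LinearMap.inr ℝ E E = (-2 : ℝ) • (chrisB G u w : E →ₗ[ℝ] E) := by
    apply LinearMap.ext
    intro y
    have := h.fderiv_geoField (v := w) hz 0 y
    show (fderiv ℝ (geoField G) (u, w) (0, y)).2 = (-2 : ℝ) • chrisB G u w y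
    rw [this, map_zero, zero_add, chrisB_apply]
    module
  rw [e1, e2, map_zero, zero_add, map_smul, smul_eq_mul]

/-- the trace of a rank one map -/
theorem trace_smulRight_eq {V : Type} [NormedAddCommGroup V] [NormedSpace ℝ V]
    [FiniteDimensional ℝ V] (f : V →L[ℝ] ℝ) (x : V) :
    LinearMap.trace ℝ V ((f.smulRight x : V →L[ℝ] V) : V →ₗ[ℝ] V) = f x := by
  have h := LinearMap.trace_comp_comm' (R := ℝ) (f : V →ₗ[ℝ] ℝ) (LinearMap.toSpanSingleton ℝ V x)
  have e1 : (LinearMap.toSpanSingleton ℝ V x) ∘ₗ (f : V →ₗ[ℝ] ℝ) =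
      ((f.smulRight x : V →L[ℝ] V) : V →ₗ[ℝ] V) := by
    apply LinearMap.ext
    intro v
    simp
  have e2 : (f : V →ₗ[ℝ] ℝ) ∘ₗ (LinearMap.toSpanSingleton ℝ V x) =
      (f x) • (LinearMap.id : ℝ →ₗ[ℝ] ℝ) := by
    apply LinearMap.ext
    intro v
    simp [mul_comm]
  rw [e1, e2] at h
  rw [h, map_smul, LinearMap.trace_id]
  simp

/-- the trace of the derivative of the reparametrised geodesic field -/
theorem trace_fderiv_uField (h : IsMetricOn G U) {z : E × E} (hz : z.1 ∈ U) (hz2 : z.2 ≠ 0) :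
    LinearMap.trace ℝ (E × E) (fderiv ℝ (uField G) z : E × E →ₗ[ℝ] E × E) =
      -2 * LinearMap.trace ℝ E (chrisB G z.1 ((spd G z)⁻¹ • z.2) : E →ₗ[ℝ] E) := by
  have h0 := h.pos z.1 hz z.2 hz2
  have d1 := ((contDiffAt_spdInv h hz hz2).differentiableAt (by simp)).hasFDerivAt
  have d2 := ((h.contDiffAt_geoField hz).differentiableAt (by simp)).hasFDerivAt
  have d3 : HasFDerivAt (uField G) ((spd G z)⁻¹ • fderiv ℝ (geoField G) z +
      (fderiv ℝ (fun z : E × E => (spd G z)⁻¹) z).smulRight (geoField G z)) z := d1.smul d2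
  rw [d3.fderiv]
  have e1 : (((spd G z)⁻¹ • fderiv ℝ (geoField G) z +
      (fderiv ℝ (fun z : E × E => (spd G z)⁻¹) z).smulRight (geoField G z) :
        E × E →L[ℝ] E × E) : E × E →ₗ[ℝ] E × E) =
      (spd G z)⁻¹ • (fderiv ℝ (geoField G) z : E × E →ₗ[ℝ] E × E) +
      (((fderiv ℝ (fun z : E × E => (spd G z)⁻¹) z).smulRight (geoField G z) :
        E × E →L[ℝ] E × E) : E × E →ₗ[ℝ] E × E) := rfl
  rw [e1, map_add, map_smul, trace_fderiv_geoField h hz, trace_smulRight_eq]
  have e2 : fderiv ℝ (fun z : E × E => (spd G z)⁻¹) z (geoField G z) = 0 := by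
    have f1 := ((contDiffAt_sq h hz).differentiableAt (by simp)).hasFDerivAt
    have f2 := ((Real.hasDerivAt_sqrt h0.ne').comp_hasFDerivAt z f1)
    have f3 := (hasDerivAt_inv (Real.sqrt_pos.2 h0).ne').comp_hasFDerivAt z f2
    have f4 : fderiv ℝ (fun z : E × E => (spd G z)⁻¹) z = _ := f3.fderiv
    rw [f4]
    simp only [smul_apply, fderiv_sq_geoField h hz, smul_zero]
  rw [e2, add_zero, map_smul]
  have e3 : (((spd G z)⁻¹ • chrisB G z.1 z.2 : E →L[ℝ] E) : E →ₗ[ℝ] E) =
      (spd G z)⁻¹ • (chrisB G z.1 z.2 : E →ₗ[ℝ] E) := rfl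
  rw [e3, map_smul]
  simp only [smul_eq_mul]
  ring

end Field

section Gram

variable {n : ℕ} {G : EV n → EV n →L[ℝ] EV n →L[ℝ] ℝ} {U : Set (EV n)}

theorem grd_pos (h : IsMetricOn G U) {u : EV n} (hu : u ∈ U) : 0 < grd G u := by
  have h1 : (Matrix.of fun i j : Fin n =>
      G u (EuclideanSpace.single i 1) (EuclideanSpace.single j 1)).PosDef := by
    refine Matrix.PosDef.of_dotProduct_mulVec_pos ?_ ?_
    · ext i j
      simp only [Matrix.conjTranspose_apply, Matrix.of_apply, star_trivial]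
      exact h.symm u hu _ _
    · intro x hx
      set v : EV n := WithLp.toLp 2 x with hv
      have hv0 : v ≠ 0 := by
        intro h0
        apply hx
        have := congrArg WithLp.ofLp h0
        simpa [hv] using this
      have h2 := h.pos u hu v hv0
      have h3 : v = ∑ i, x i • EuclideanSpace.single i (1 : ℝ) := by
        ext j
        simp [hv, Finset.sum_apply, Pi.single_apply]
      have h4 : G u v v = dotProduct (star x) (Matrix.mulVec (Matrix.of fun i j : Fin n =>
          G u (EuclideanSpace.single i 1) (EuclideanSpace.single j 1)) x) := by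
        conv_lhs => rw [h3]
        simp only [map_sum, map_smul, sum_apply, smul_apply,
          smul_eq_mul, dotProduct, Matrix.mulVec, Matrix.of_apply, star_trivial, Pi.star_apply]
        refine Finset.sum_congr rfl fun i _ => ?_
        congr 1
        refine Finset.sum_congr rfl fun j _ => ?_
        rw [h.symm u hu (EuclideanSpace.single i 1)]
        ring
      rw [h4] at h2
      exact h2
  exact h1.det_pos

/-- the derivative of the Gram determinant along a curve -/
theorem hasDerivAt_grd (h : IsMetricOn G U) {c : ℝ → EV n} {c' : EV n} {t : ℝ} (ht : c t ∈ U)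
    (hc : HasDerivAt c c' t) :
    HasDerivAt (fun s => grd G (c s))
      (2 * LinearMap.trace ℝ (EV n) (chrisB G (c t) c' : EV n →ₗ[ℝ] EV n) * grd G (c t)) t := by
  classical
  set b := (EuclideanSpace.basisFun (Fin n) ℝ).toBasis with hb
  have hbi : ∀ i, b i = EuclideanSpace.single i (1 : ℝ) := by
    intro i
    rw [hb, OrthonormalBasis.coe_toBasis, EuclideanSpace.basisFun_apply]
  rw [LinearMap.trace_eq_matrix_trace ℝ b]
  apply hasDerivAt_matDet_sym
  intro i j
  have h1 : HasDerivAt (fun s => G (c s)) (fderiv ℝ G (c t) c') t :=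
    (h.differentiableAt ht).hasFDerivAt.comp_hasDerivAt t hc
  have h2 := (h1.clm_apply (hasDerivAt_const t (EuclideanSpace.single i (1:ℝ)))).clm_apply
    (hasDerivAt_const t (EuclideanSpace.single j (1:ℝ)))
  have h3 : HasDerivAt (fun s => G (c s) (EuclideanSpace.single i (1:ℝ))
      (EuclideanSpace.single j (1:ℝ))) _ t := h2
  refine h3.congr_deriv ?_
  simp only [map_zero, add_zero]
  rw [h.chris_compat ht]
  -- expand the Christoffel symbols in the basis
  have hexp : ∀ v : EV n, v = ∑ k, b.repr v k • EuclideanSpace.single k (1:ℝ) := by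
    intro v
    have := (b.sum_repr v).symm
    simp only [hbi] at this
    exact this
  have hm : ∀ k l, (LinearMap.toMatrix b b (chrisB G (c t) c' : EV n →ₗ[ℝ] EV n)) k l =
      b.repr (chris G (c t) c' (EuclideanSpace.single l 1)) k := by
    intro k l
    rw [LinearMap.toMatrix_apply, hbi, ← chrisB_apply]
    rfl
  rw [Matrix.add_apply, Matrix.mul_apply, Matrix.mul_apply]
  simp only [Matrix.transpose_apply, hm, Matrix.of_apply]
  congr 1
  · conv_lhs => rw [hexp (chris G (c t) c' (EuclideanSpace.single i 1))]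
    simp only [map_sum, map_smul, sum_apply, smul_apply, smul_eq_mul]
  · conv_lhs => rw [hexp (chris G (c t) c' (EuclideanSpace.single j 1))]
    simp only [map_sum, map_smul, smul_eq_mul]
    refine Finset.sum_congr rfl fun k _ => ?_
    ring

end Gram

end Vale.Agent.P207
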