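import Vale.Agent.P207.BlkL0

/-!
# P207, block L (1): the local flow of the reparametrised geodesic field preserves `det G du dw`
-/

open scoped Manifold ContDiff ENNReal Topology
open Bundle MeasureTheory Set Filter

set_option maxSynthPendingDepth 3
set_option linter.unusedSectionVars false

noncomputable section

namespace Vale.Agent.P207

open Vale.Agent.P255 (IsMetricOn chris chrisB chrisB_apply geoField)

instance isAddHaar_prodEV (n : ℕ) : (volume : Measure (EV n × EV n)).IsAddHaarMeasure :=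
  inferInstanceAs ((volume : Measure (EV n)).prod (volume : Measure (EV n))).IsAddHaarMeasure

variable {n : ℕ} {G : EV n → EV n →L[ℝ] EV n →L[ℝ] ℝ} {U : Set (EV n)}

/-- the data of a local flow of `uField G` -/
structure LocFlow (G : EV n → EV n →L[ℝ] EV n →L[ℝ] ℝ) (U : Set (EV n)) (ε : ℝ)
    (W : Set (EV n × EV n)) (Φ : ℝ → EV n × EV n → EV n × EV n) : Prop where
  isOpen : IsOpen W
  zero : ∀ x ∈ W, Φ 0 x = x
  ode : ∀ x ∈ W, ∀ t ∈ Ioo (-ε) ε, Φ t x ∈ U ×ˢ ({0}ᶜ : Set (EV n)) ∧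
    HasDerivAt (fun s => Φ s x) (uField G (Φ t x)) t
  smooth : ContDiffOn ℝ 1 (fun p : ℝ × (EV n × EV n) => Φ p.1 p.2) (Ioo (-ε) ε ×ˢ W)
  var : ∀ x ∈ W, ∀ w, ∀ t ∈ Ioo (-ε) ε, HasDerivAt (fun s => fderiv ℝ (Φ s) x w)
    (fderiv ℝ (uField G) (Φ t x) (fderiv ℝ (Φ t) x w)) t

theorem exists_locFlow (h : IsMetricOn G U) {z : EV n × EV n} (hz : z.1 ∈ U) (hz2 : z.2 ≠ 0) :
    ∃ ε > 0, ∃ W, z ∈ W ∧ ∃ Φ, LocFlow G U ε W Φ := by
  obtain ⟨ε, hε, W, hW, hzW, Φ, h0, h1, h2, h3⟩ :=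
    P255.exists_flow (uField G) (U ×ˢ ({0}ᶜ : Set (EV n)))
      (h.isOpen.prod isOpen_compl_singleton) (contDiffOn_uField h) z ⟨hz, hz2⟩
  exact ⟨ε, hε, W, hzW, Φ, ⟨hW, h0, h1, h2, h3⟩⟩

namespace LocFlow

variable {ε : ℝ} {W : Set (EV n × EV n)} {Φ : ℝ → EV n × EV n → EV n × EV n}

theorem differentiableAt (F : LocFlow G U ε W Φ) {z : EV n × EV n} (hz : z ∈ W) {t : ℝ}
    (ht : t ∈ Ioo (-ε) ε) : DifferentiableAt ℝ (Φ t) z := by
  have hO : IsOpen (Ioo (-ε) ε ×ˢ W) := isOpen_Ioo.prod F.isOpen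
  have h1 : DifferentiableAt ℝ (fun p : ℝ × (EV n × EV n) => Φ p.1 p.2) (t, z) :=
    (F.smooth.contDiffAt (hO.mem_nhds ⟨ht, hz⟩)).differentiableAt (by simp)
  have h2 : DifferentiableAt ℝ (fun y : EV n × EV n => ((t, y) : ℝ × (EV n × EV n))) z := by
    fun_prop
  exact DifferentiableAt.comp (g := fun p : ℝ × (EV n × EV n) => Φ p.1 p.2) z h1 h2

/-- the speed is constant along the flow -/
theorem spd_const (h : IsMetricOn G U) (F : LocFlow G U ε W Φ) {z : EV n × EV n} (hz : z ∈ W)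
    {t : ℝ} (ht : t ∈ Ioo (-ε) ε) : spd G (Φ t z) = spd G z := by
  have hε : 0 < ε := by
    have h1 := ht.1; have h2 := ht.2; linarith
  have h0 : (0 : ℝ) ∈ Ioo (-ε) ε := ⟨by linarith, hε⟩
  have key : ∀ s ∈ Ioo (-ε) ε, HasDerivAt (fun s => G (Φ s z).1 (Φ s z).2 (Φ s z).2) 0 s := by
    intro s hs
    obtain ⟨h1, h2⟩ := F.ode z hz s hs
    have h3 := ((contDiffAt_sq h h1.1).differentiableAt (by simp)).hasFDerivAt
    have h4 := h3.comp_hasDerivAt s h2
    refine h4.congr_deriv ?_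
    rw [uField, map_smul, fderiv_sq_geoField h h1.1, smul_zero]
  have h5 := isOpen_Ioo.is_const_of_deriv_eq_zero isPreconnected_Ioo
    (fun s hs => (key s hs).differentiableAt.differentiableWithinAt)
    (fun s hs => (key s hs).deriv) ht h0
  simp only [F.zero z hz] at h5
  unfold spd
  rw [h5]

/-- the Jacobian of the flow -/
theorem jac (h : IsMetricOn G U) (F : LocFlow G U ε W Φ) {z : EV n × EV n} (hz : z ∈ W)
    {t : ℝ} (ht : t ∈ Ioo (-ε) ε) :
    grd G (Φ t z).1 * (fderiv ℝ (Φ t) z).det = grd G z.1 := by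
  have hε : 0 < ε := by
    have h1 := ht.1; have h2 := ht.2; linarith
  have h0 : (0 : ℝ) ∈ Ioo (-ε) ε := ⟨by linarith, hε⟩
  have key : ∀ s ∈ Ioo (-ε) ε,
      HasDerivAt (fun s => grd G (Φ s z).1 * (fderiv ℝ (Φ s) z).det) 0 s := by
    intro s hs
    obtain ⟨h1, h2⟩ := F.ode z hz s hs
    have h3 : HasDerivAt (fun s => (Φ s z).1) (uField G (Φ s z)).1 s :=
      (hasFDerivAt_fst (𝕜 := ℝ) (E := EV n) (F := EV n) (p := Φ s z)).comp_hasDerivAt
        (f := fun s => Φ s z) s h2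
    have h4 := hasDerivAt_grd h h1.1 h3
    have h5 := hasDerivAt_clm_det (A := fun s => fderiv ℝ (Φ s) z)
      (B := fderiv ℝ (uField G) (Φ s z)) (t := s) (fun w => F.var z hz w s hs)
    refine (h4.mul h5).congr_deriv ?_
    rw [trace_fderiv_uField h h1.1 h1.2]
    have e1 : (uField G (Φ s z)).1 = (spd G (Φ s z))⁻¹ • (Φ s z).2 := rfl
    rw [e1]
    ring
  have h5 := isOpen_Ioo.is_const_of_deriv_eq_zero isPreconnected_Ioo
    (fun s hs => (key s hs).differentiableAt.differentiableWithinAt)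
    (fun s hs => (key s hs).deriv) ht h0
  rw [h5, F.zero z hz]
  have h6 : Φ 0 =ᶠ[𝓝 z] id := by
    filter_upwards [F.isOpen.mem_nhds hz] with y hy using F.zero y hy
  rw [h6.fderiv_eq, fderiv_id]
  simp [ContinuousLinearMap.det]

theorem measurableSet_image (F : LocFlow G U ε W Φ) {t : ℝ} (ht : t ∈ Ioo (-ε) ε)
    {C : Set (EV n × EV n)} (hC : MeasurableSet C) (hCW : C ⊆ W) (hinj : InjOn (Φ t) C) :
    MeasurableSet (Φ t '' C) :=
  measurable_image_of_fderivWithin hC (fun _ hz =>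
    (F.differentiableAt (hCW hz) ht).hasFDerivAt.hasFDerivWithinAt) hinj

/-- the flow preserves the measure `det G du dw` -/
theorem lintegral_image (h : IsMetricOn G U) (F : LocFlow G U ε W Φ) {t : ℝ}
    (ht : t ∈ Ioo (-ε) ε) {C : Set (EV n × EV n)} (hC : MeasurableSet C) (hCW : C ⊆ W)
    (hinj : InjOn (Φ t) C) (f : EV n × EV n → ℝ≥0∞) :
    ∫⁻ z in Φ t '' C, f z * ENNReal.ofReal (grd G z.1) =
      ∫⁻ z in C, f (Φ t z) * ENNReal.ofReal (grd G z.1) := by
  rw [lintegral_image_eq_lintegral_abs_det_fderiv_mul volume hC (f' := fun z => fderiv ℝ (Φ t) z)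
    (fun _ hz => (F.differentiableAt (hCW hz) ht).hasFDerivAt.hasFDerivWithinAt) hinj]
  refine setLIntegral_congr_fun hC fun z hz => ?_
  have h1 := F.jac h (hCW hz) ht
  have hU := (F.ode z (hCW hz) t ht).1.1
  have h2 := grd_pos h hU
  have h3 : z.1 ∈ U := by
    have hε : 0 < ε := by
      have h1 := ht.1; have h2 := ht.2; linarith
    have := (F.ode z (hCW hz) 0 ⟨by linarith, hε⟩).1.1
    rwa [F.zero z (hCW hz)] at this
  have h4 := grd_pos h h3
  have h5 : 0 < (fderiv ℝ (Φ t) z).det := by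
    by_contra hcon
    have := mul_nonpos_of_nonneg_of_nonpos h2.le (not_lt.1 hcon)
    rw [h1] at this
    linarith
  show ENNReal.ofReal |(fderiv ℝ (Φ t) z).det| * (f (Φ t z) * ENNReal.ofReal (grd G (Φ t z).1)) = _
  rw [abs_of_pos h5, mul_left_comm, ← ENNReal.ofReal_mul h5.le, mul_comm (fderiv ℝ (Φ t) z).det, h1]

end LocFlow

end Vale.Agent.P207
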