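import Vale.Agent.P207.BlkF
import Vale.Agent.P207.BlkV0
import Vale.Agent.P207.BlkL1

/-!
# P207, block L (2): cones over sets of unit vectors, the flow in a chart
-/

open scoped Manifold ContDiff ENNReal Topology
open Bundle MeasureTheory Set Filter

set_option maxSynthPendingDepth 3
set_option linter.unusedSectionVars false

noncomputable section

namespace Vale.Agent.P207

open Vale.Agent.P255 (RMetric coefIn Gam Riem IsGeo Metric Npc ExpSys toMetric geo expg cc trans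
  IsGeodesic coefL IsMetricOn chris chrisB chrisB_apply geoField)

variable {n : ℕ} {M : Type} [TopologicalSpace M] [ChartedSpace (EV n) M]
  [IsManifold 𝓘(ℝ, EV n) ∞ M]

/-- the state in the chart at `a` of `r` times the unit vector `p` -/
def cs (g : RMetric (EV n) M) (a : M) (r : ℝ) (p : UT g) : EV n × EV n :=
  ((chT a p.1).1, r • (chT a p.1).2)

theorem isMetricOn_coefL (g : RMetric (EV n) M) (a : M) :
    IsMetricOn (coefL g a) (chartAt (EV n) a).target := (mt g).isMetricOn a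

theorem cs_mem (g : RMetric (EV n) M) {a : M} {r : ℝ} {p : UT g}
    (hp : p.pt ∈ (chartAt (EV n) a).source) : (cs g a r p).1 ∈ (chartAt (EV n) a).target :=
  (chartAt (EV n) a).map_source hp

theorem sq_chT (g : RMetric (EV n) M) {a : M} {p : UT g}
    (hp : p.pt ∈ (chartAt (EV n) a).source) :
    coefL g a (chT a p.1).1 (chT a p.1).2 (chT a p.1).2 = 1 :=
  (inner_chT g a hp).trans p.2

theorem spd_cs (g : RMetric (EV n) M) {a : M} {r : ℝ} (hr : 0 ≤ r) {p : UT g}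
    (hp : p.pt ∈ (chartAt (EV n) a).source) : spd (coefL g a) (cs g a r p) = r := by
  unfold spd cs
  simp only [map_smul, smul_apply, smul_eq_mul, sq_chT g hp, mul_one]
  exact Real.sqrt_mul_self hr

theorem cs_ne_zero (g : RMetric (EV n) M) {a : M} {r : ℝ} (hr : 0 < r) {p : UT g}
    (hp : p.pt ∈ (chartAt (EV n) a).source) : (cs g a r p).2 ≠ 0 := by
  intro h
  have h1 := spd_cs g hr.le hp
  unfold spd at h1
  rw [h] at h1
  simp at h1
  exact hr.ne h1

/-- the unit vector over a state of the chart at `a` -/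
def ut (g : RMetric (EV n) M) (a : M) (z : EV n × EV n) (h1 : z.1 ∈ (chartAt (EV n) a).target)
    (h2 : z.2 ≠ 0) : UT g :=
  ⟨chTs a (z.1, (spd (coefL g a) z)⁻¹ • z.2), by
    rw [inner_chTs g a (y := (z.1, (spd (coefL g a) z)⁻¹ • z.2)) h1]
    simp only [map_smul, smul_apply, smul_eq_mul]
    have h3 : 0 < coefL g a z.1 z.2 z.2 := coefL_pos g a h1 h2
    unfold spd
    rw [← mul_assoc, ← mul_inv, Real.mul_self_sqrt h3.le, inv_mul_cancel₀ h3.ne']⟩

theorem ut_pt (g : RMetric (EV n) M) (a : M) (z : EV n × EV n)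
    (h1 : z.1 ∈ (chartAt (EV n) a).target) (h2 : z.2 ≠ 0) :
    (ut g a z h1 h2).pt ∈ (chartAt (EV n) a).source := (chartAt (EV n) a).map_target h1

theorem cs_ut (g : RMetric (EV n) M) (a : M) (z : EV n × EV n)
    (h1 : z.1 ∈ (chartAt (EV n) a).target) (h2 : z.2 ≠ 0) :
    cs g a (spd (coefL g a) z) (ut g a z h1 h2) = z := by
  have h3 : 0 < coefL g a z.1 z.2 z.2 := coefL_pos g a h1 h2
  have h4 : spd (coefL g a) z ≠ 0 := (Real.sqrt_pos.2 h3).ne'
  unfold cs ut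
  rw [chT_chTs a (y := (z.1, (spd (coefL g a) z)⁻¹ • z.2)) h1]
  simp only [smul_smul, mul_inv_cancel₀ h4, one_smul]

theorem ut_cs (g : RMetric (EV n) M) {a : M} {r : ℝ} (hr : 0 < r) {p : UT g}
    (hp : p.pt ∈ (chartAt (EV n) a).source) :
    ut g a (cs g a r p) (cs_mem g hp) (cs_ne_zero g hr hp) = p := by
  apply Subtype.ext
  have h1 := spd_cs g hr.le hp
  show chTs a ((cs g a r p).1, (spd (coefL g a) (cs g a r p))⁻¹ • (cs g a r p).2) = p.1
  rw [h1]
  unfold cs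
  simp only [smul_smul, inv_mul_cancel₀ hr.ne', one_smul]
  exact chTs_chT a hp

/-- the cone over the set `S` of unit vectors, with speeds in `I`, in the chart at `a` -/
def cone (g : RMetric (EV n) M) (a : M) (I : Set ℝ) (S : Set (UT g)) : Set (EV n × EV n) :=
  {z | ∃ p ∈ S, p.pt ∈ (chartAt (EV n) a).source ∧ ∃ r ∈ I, z = cs g a r p}

/-- continuity of the projection to the unit tangent bundle -/
theorem continuous_ut (g : RMetric (EV n) M) (a : M) :
    Continuous (fun z : {z : EV n × EV n // z.1 ∈ (chartAt (EV n) a).target ∧ z.2 ≠ 0} =>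
      ut g a z.1 z.2.1 z.2.2) := by
  refine Continuous.subtype_mk (f := fun z : {z : EV n × EV n //
    z.1 ∈ (chartAt (EV n) a).target ∧ z.2 ≠ 0} => (ut g a z.1 z.2.1 z.2.2).1) ?_
      (fun z => (ut g a z.1 z.2.1 z.2.2).2)
  rw [continuous_iff_continuousAt]
  rintro ⟨z, hz1, hz2⟩
  have h1 : ContinuousAt (fun z : EV n × EV n => (z.1, (spd (coefL g a) z)⁻¹ • z.2)) z :=
    continuousAt_fst.prodMk ((contDiffAt_spdInv (isMetricOn_coefL g a) hz1 hz2).continuousAt.smul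
      continuousAt_snd)
  have h2 : ContinuousAt (fun z : EV n × EV n => chTs a (z.1, (spd (coefL g a) z)⁻¹ • z.2)) z :=
    ContinuousAt.comp (g := chTs a) (continuousAt_chTs a hz1) h1
  exact ContinuousAt.comp (f := (Subtype.val : {z : EV n × EV n //
    z.1 ∈ (chartAt (EV n) a).target ∧ z.2 ≠ 0} → EV n × EV n))
    (g := fun z : EV n × EV n => chTs a (z.1, (spd (coefL g a) z)⁻¹ • z.2)) (x := ⟨z, hz1, hz2⟩)
    h2 continuousAt_subtype_val

theorem isOpen_D (a : M) :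
    IsOpen {z : EV n × EV n | z.1 ∈ (chartAt (EV n) a).target ∧ z.2 ≠ 0} :=
  ((chartAt (EV n) a).open_target.preimage continuous_fst).inter
    (isOpen_compl_singleton.preimage continuous_snd)

theorem cone_eq (g : RMetric (EV n) M) (a : M) {I : Set ℝ} (hI : I ⊆ Ioi 0) (S : Set (UT g)) :
    cone g a I S = Subtype.val '' {z : {z : EV n × EV n //
      z.1 ∈ (chartAt (EV n) a).target ∧ z.2 ≠ 0} | ut g a z.1 z.2.1 z.2.2 ∈ S ∧
        spd (coefL g a) z.1 ∈ I} := by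
  ext z
  constructor
  · rintro ⟨p, hp, hps, r, hr, rfl⟩
    have hr0 : 0 < r := hI hr
    refine ⟨⟨cs g a r p, cs_mem g hps, cs_ne_zero g hr0 hps⟩, ⟨?_, ?_⟩, rfl⟩
    · show ut g a (cs g a r p) _ _ ∈ S
      rw [ut_cs g hr0 hps]
      exact hp
    · show spd (coefL g a) (cs g a r p) ∈ I
      rw [spd_cs g hr0.le hps]
      exact hr
  · rintro ⟨⟨z, h1, h2⟩, ⟨h3, h4⟩, rfl⟩
    exact ⟨ut g a z h1 h2, h3, ut_pt g a z h1 h2, spd (coefL g a) z, h4, (cs_ut g a z h1 h2).symm⟩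

theorem measurable_spd_D (g : RMetric (EV n) M) (a : M) :
    Measurable (fun z : {z : EV n × EV n // z.1 ∈ (chartAt (EV n) a).target ∧ z.2 ≠ 0} =>
      spd (coefL g a) z.1) := by
  refine Continuous.measurable ?_
  rw [continuous_iff_continuousAt]
  rintro ⟨z, hz1, hz2⟩
  have h2 : ContinuousAt (spd (coefL g a)) z :=
    Real.continuous_sqrt.continuousAt.comp
      (contDiffAt_sq (isMetricOn_coefL g a) hz1).continuousAt
  exact ContinuousAt.comp (f := (Subtype.val : {z : EV n × EV n //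
    z.1 ∈ (chartAt (EV n) a).target ∧ z.2 ≠ 0} → EV n × EV n))
    (g := spd (coefL g a)) (x := ⟨z, hz1, hz2⟩) h2 continuousAt_subtype_val

theorem measurableSet_cone (g : RMetric (EV n) M) (a : M) {I : Set ℝ} (hI : I ⊆ Ioi 0)
    (hIm : MeasurableSet I) {S : Set (UT g)} (hS : MeasurableSet S) :
    MeasurableSet (cone g a I S) := by
  rw [cone_eq g a hI]
  refine (isOpen_D a).measurableSet.subtype_image ?_
  exact ((continuous_ut g a).measurable hS).inter ((measurable_spd_D g a) hIm)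

section Flow

variable [CompactSpace M] [T2Space M] {g : RMetric (EV n) M} {φ : ℝ → UT g → UT g}

/-- the flow in the chart at `a`, on vectors of length `r` -/
theorem IsGeoFlow.locFlow_eq (hφ : IsGeoFlow g φ) {a : M} {ε : ℝ} {W : Set (EV n × EV n)}
    {Φ : ℝ → EV n × EV n → EV n × EV n} (F : LocFlow (coefL g a) (chartAt (EV n) a).target ε W Φ)
    {p : UT g} (hp : p.pt ∈ (chartAt (EV n) a).source) {r : ℝ} (hr : 0 < r)
    (hW : cs g a r p ∈ W) {t : ℝ} (ht : t ∈ Ioo (-ε) ε) :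
    (φ t p).pt ∈ (chartAt (EV n) a).source ∧ Φ t (cs g a r p) = cs g a r (φ t p) := by
  have hε : 0 < ε := by
    have h1 := ht.1; have h2 := ht.2; linarith
  set G := coefL g a with hG
  have hm := isMetricOn_coefL g a
  set W' : Set (EV n × EV n) := {x | (x.1, r • x.2) ∈ W ∧ G x.1 x.2 x.2 = 1} with hW'
  set Φ' : ℝ → EV n × EV n → EV n × EV n := fun t x =>
    ((Φ t (x.1, r • x.2)).1, r⁻¹ • (Φ t (x.1, r • x.2)).2) with hΦ'
  have hΦ0 : ∀ x ∈ W', Φ' 0 x = x := by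
    intro x hx
    simp only [hΦ', F.zero _ hx.1, smul_smul, inv_mul_cancel₀ hr.ne', one_smul]
  have hode : ∀ x ∈ W', ∀ t ∈ Ioo (-ε) ε,
      Φ' t x ∈ (chartAt (EV n) a).target ×ˢ (univ : Set (EV n)) ∧
      HasDerivAt (fun s => Φ' s x) (geoField ((mt g).coef a) (Φ' t x)) t := by
    intro x hx t ht
    obtain ⟨h1, h2⟩ := F.ode _ hx.1 t ht
    refine ⟨⟨h1.1, mem_univ _⟩, ?_⟩
    have hs : spd G (Φ t (x.1, r • x.2)) = r := by
      rw [F.spd_const hm hx.1 ht]
      have hx2 : coefL g a x.1 x.2 x.2 = 1 := hx.2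
      unfold spd
      simp only [map_smul, smul_apply, smul_eq_mul]
      rw [hx2, mul_one]
      exact Real.sqrt_mul_self hr.le
    have h3 : HasDerivAt (fun s => (Φ s (x.1, r • x.2)).1)
        (uField G (Φ t (x.1, r • x.2))).1 t :=
      (hasFDerivAt_fst (𝕜 := ℝ) (E := EV n) (F := EV n) (p := Φ t (x.1, r • x.2))).comp_hasDerivAt
        (f := fun s => Φ s (x.1, r • x.2)) t h2
    have h4 : HasDerivAt (fun s => (Φ s (x.1, r • x.2)).2)
        (uField G (Φ t (x.1, r • x.2))).2 t :=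
      (hasFDerivAt_snd (𝕜 := ℝ) (E := EV n) (F := EV n) (p := Φ t (x.1, r • x.2))).comp_hasDerivAt
        (f := fun s => Φ s (x.1, r • x.2)) t h2
    have h5 := h3.prodMk (h4.const_smul r⁻¹)
    refine h5.congr_deriv ?_
    simp only [uField, hs, geoField, hΦ', Prod.smul_mk, P255.chris_smul_left,
      P255.chris_smul_right, smul_neg]
    rfl
  have hgeo := P255.isGeodesic_geo (mt g) p.1.1 (p.1.2 : EV n)
  have h0 : chT a p.1 = (cc (geo (mt g) p.1.1 (p.1.2 : EV n)) a 0,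
      deriv (cc (E := EV n) (geo (mt g) p.1.1 (p.1.2 : EV n)) a) 0) := by
    have h1 := hφ.chT_eq (t := 0) (p := p) (a := a) (by rw [hφ.zero]; exact hp)
    rw [hφ.zero] at h1
    exact h1
  have hz : geo (mt g) p.1.1 (p.1.2 : EV n) 0 = p.1.1 := P255.geo_zero (mt g) _ _
  have hp0 : geo (mt g) p.1.1 (p.1.2 : EV n) 0 ∈ (chartAt (EV n) a).source :=
    (congrArg (fun x => x ∈ (chartAt (EV n) a).source) hz).mpr hp
  have h2 := hgeo.flow hε hΦ0 hode (t₀ := 0) (a := a) hp0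
    (by rw [← h0]; exact ⟨hW, sq_chT g hp⟩) ht
  rw [zero_add, ← h0] at h2
  have h3 : (φ t p).pt ∈ (chartAt (EV n) a).source := by
    rw [hφ.pt_eq]; exact h2.1
  refine ⟨h3, ?_⟩
  have h4 := (hφ.chT_eq h3).trans h2.2
  unfold cs
  rw [h4]
  simp only [hΦ', smul_smul, mul_inv_cancel₀ hr.ne', one_smul]

/-- the local flow maps the cone over `S` to the cone over `φ t '' S` -/
theorem image_cone (hφ : IsGeoFlow g φ) {a : M} {ε : ℝ} {W : Set (EV n × EV n)}
    {Φ : ℝ → EV n × EV n → EV n × EV n} (F : LocFlow (coefL g a) (chartAt (EV n) a).target ε W Φ)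
    {I : Set ℝ} (hI : I ⊆ Ioi 0) {S : Set (UT g)} (hS : ∀ p ∈ S, p.pt ∈ (chartAt (EV n) a).source)
    (hW : ∀ p ∈ S, ∀ r ∈ I, cs g a r p ∈ W) {t : ℝ} (ht : t ∈ Ioo (-ε) ε) :
    Φ t '' cone g a I S = cone g a I (φ t '' S) := by
  ext z
  constructor
  · rintro ⟨_, ⟨p, hp, hps, r, hr, rfl⟩, rfl⟩
    obtain ⟨h1, h2⟩ := hφ.locFlow_eq F hps (hI hr) (hW p hp r hr) ht
    exact ⟨φ t p, ⟨p, hp, rfl⟩, h1, r, hr, h2⟩
  · rintro ⟨_, ⟨p, hp, rfl⟩, h1, r, hr, rfl⟩
    obtain ⟨h1, h2⟩ := hφ.locFlow_eq F (hS p hp) (hI hr) (hW p hp r hr) ht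
    exact ⟨cs g a r p, ⟨p, hp, hS p hp, r, hr, rfl⟩, h2⟩

theorem IsGeoFlow.injective (hφ : IsGeoFlow g φ) (t : ℝ) : Function.Injective (φ t) := by
  intro p q h
  have h1 := congrArg (φ (-t)) h
  rw [← hφ.add, ← hφ.add, neg_add_cancel, hφ.zero, hφ.zero] at h1
  exact h1

theorem IsGeoFlow.image_eq_preimage (hφ : IsGeoFlow g φ) (t : ℝ) (S : Set (UT g)) :
    φ t '' S = φ (-t) ⁻¹' S := by
  ext q
  constructor
  · rintro ⟨p, hp, rfl⟩
    rw [mem_preimage, ← hφ.add, neg_add_cancel, hφ.zero]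
    exact hp
  · intro hq
    refine ⟨φ (-t) q, hq, ?_⟩
    rw [← hφ.add, add_neg_cancel, hφ.zero]

theorem injOn_cone (hφ : IsGeoFlow g φ) {a : M} {ε : ℝ} {W : Set (EV n × EV n)}
    {Φ : ℝ → EV n × EV n → EV n × EV n} (F : LocFlow (coefL g a) (chartAt (EV n) a).target ε W Φ)
    {I : Set ℝ} (hI : I ⊆ Ioi 0) {S : Set (UT g)}
    (hW : ∀ p ∈ S, ∀ r ∈ I, cs g a r p ∈ W) {t : ℝ} (ht : t ∈ Ioo (-ε) ε) :
    InjOn (Φ t) (cone g a I S) := by
  rintro _ ⟨p, hp, hps, r, hr, rfl⟩ _ ⟨q, hq, hqs, r', hr', rfl⟩ h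
  obtain ⟨h1, h2⟩ := hφ.locFlow_eq F hps (hI hr) (hW p hp r hr) ht
  obtain ⟨h3, h4⟩ := hφ.locFlow_eq F hqs (hI hr') (hW q hq r' hr') ht
  rw [h2, h4] at h
  have h5 : r = r' := by
    rw [← spd_cs g (le_of_lt (hI hr)) h1, ← spd_cs g (le_of_lt (hI hr')) h3, h]
  subst h5
  have h6 : φ t p = φ t q := by
    rw [← ut_cs g (hI hr) h1, ← ut_cs g (hI hr) h3]
    congr 1
  rw [hφ.injective t h6]

end Flow

end Vale.Agent.P207
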