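import Vale.Agent.P207.BlkL2

/-!
# P207, block L (3): from the chart formula to the invariance of the Liouville measure
-/

open scoped Manifold ContDiff ENNReal Topology
open Bundle MeasureTheory Set Filter

set_option maxSynthPendingDepth 3
set_option linter.unusedSectionVars false

noncomputable section

namespace Vale.Agent.P207

open Vale.Agent.P255 (RMetric coefIn Gam Riem IsGeo Metric Npc ExpSys toMetric geo expg cc trans
  IsGeodesic coefL IsMetricOn chris chrisB chrisB_apply geoField)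

variable {n : ℕ} {M : Type} [TopologicalSpace M] [ChartedSpace (EV n) M]
  [IsManifold 𝓘(ℝ, EV n) ∞ M]

/-- the mass of the cone over `S`, with speeds in `I`, for the density `det G_u du dw` -/
def coneMass (g : RMetric (EV n) M) (a : M) (I : Set ℝ) (S : Set (UT g)) : ℝ≥0∞ :=
  ∫⁻ z in cone g a I S, ENNReal.ofReal (grd (coefL g a) z.1)

/-- scaling of the velocities -/
def scl (n : ℕ) (s : ℝ) : EV n × EV n →L[ℝ] EV n × EV n :=
  (ContinuousLinearMap.id ℝ (EV n)).prodMap (s • ContinuousLinearMap.id ℝ (EV n))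

theorem scl_apply (s : ℝ) (z : EV n × EV n) : scl n s z = (z.1, s • z.2) := rfl

theorem det_scl (s : ℝ) : (scl n s).det = s ^ n := by
  have h : ((scl n s : EV n × EV n →L[ℝ] EV n × EV n) : EV n × EV n →ₗ[ℝ] EV n × EV n) =
      LinearMap.prodMap LinearMap.id (s • LinearMap.id) := rfl
  unfold ContinuousLinearMap.det
  rw [h, LinearMap.det_prodMap, LinearMap.det_id, LinearMap.det_smul, LinearMap.det_id,
    finrank_euclideanSpace_fin]
  ring

theorem cone_scale (g : RMetric (EV n) M) (a : M) {s : ℝ} (hs : 0 < s) (S : Set (UT g)) :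
    cone g a (Ioo 0 s) S = scl n s '' cone g a (Ioo 0 1) S := by
  ext z
  constructor
  · rintro ⟨p, hp, hps, r, hr, rfl⟩
    refine ⟨cs g a (r / s) p, ⟨p, hp, hps, r / s, ⟨div_pos hr.1 hs, (div_lt_one hs).2 hr.2⟩, rfl⟩, ?_⟩
    rw [scl_apply]
    unfold cs
    simp only [smul_smul, mul_div_cancel₀ _ hs.ne']
  · rintro ⟨_, ⟨p, hp, hps, r, hr, rfl⟩, rfl⟩
    refine ⟨p, hp, hps, s * r, ⟨mul_pos hs hr.1, by nlinarith [hr.2]⟩, ?_⟩
    rw [scl_apply]
    unfold cs
    simp only [smul_smul]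

theorem coneMass_scale (g : RMetric (EV n) M) (a : M) {s : ℝ} (hs : 0 < s) {S : Set (UT g)}
    (hS : MeasurableSet S) :
    coneMass g a (Ioo 0 s) S = ENNReal.ofReal (s ^ n) * coneMass g a (Ioo 0 1) S := by
  unfold coneMass
  have hC : MeasurableSet (cone g a (Ioo 0 1) S) :=
    measurableSet_cone g a (fun r hr => hr.1) measurableSet_Ioo hS
  have hinj : InjOn (scl n s) (cone g a (Ioo 0 1) S) := by
    rintro ⟨x, v⟩ - ⟨y, w⟩ - h
    rw [scl_apply, scl_apply] at h
    have h1 := congrArg Prod.fst h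
    have h2 := congrArg Prod.snd h
    simp only at h1 h2
    rw [h1, (smul_right_injective (EV n) hs.ne') h2]
  rw [cone_scale g a hs, lintegral_image_eq_lintegral_abs_det_fderiv_mul volume hC
    (f' := fun _ => scl n s) (fun z _ => (scl n s).hasFDerivAt.hasFDerivWithinAt) hinj]
  simp only [det_scl, scl_apply, abs_of_pos (pow_pos hs n)]
  rw [lintegral_const_mul' _ _ ENNReal.ofReal_ne_top]

theorem coneMass_union (g : RMetric (EV n) M) (a : M) {s₁ s₂ : ℝ} (h0 : 0 < s₁) (h1 : s₁ < s₂)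
    {S : Set (UT g)} (hS : MeasurableSet S) :
    coneMass g a (Ioo 0 s₂) S = coneMass g a (Ioo 0 s₁) S + coneMass g a (Ico s₁ s₂) S := by
  unfold coneMass
  have e : cone g a (Ioo 0 s₂) S = cone g a (Ioo 0 s₁) S ∪ cone g a (Ico s₁ s₂) S := by
    ext z
    constructor
    · rintro ⟨p, hp, hps, r, hr, rfl⟩
      rcases lt_or_ge r s₁ with h | h
      · exact Or.inl ⟨p, hp, hps, r, ⟨hr.1, h⟩, rfl⟩
      · exact Or.inr ⟨p, hp, hps, r, ⟨h, hr.2⟩, rfl⟩
    · rintro (⟨p, hp, hps, r, hr, rfl⟩ | ⟨p, hp, hps, r, hr, rfl⟩)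
      · exact ⟨p, hp, hps, r, ⟨hr.1, hr.2.trans h1⟩, rfl⟩
      · exact ⟨p, hp, hps, r, ⟨h0.trans_le hr.1, hr.2⟩, rfl⟩
  rw [e, lintegral_union (measurableSet_cone g a (fun r hr => h0.trans_le hr.1)
    measurableSet_Ico hS)]
  rw [Set.disjoint_left]
  rintro _ ⟨p, hp, hps, r, hr, rfl⟩ ⟨q, hq, hqs, r', hr', h⟩
  have h2 := congrArg (spd (coefL g a)) h
  rw [spd_cs g hr.1.le hps, spd_cs g (h0.le.trans hr'.1) hqs] at h2
  have h3 := hr.2
  have h4 := hr'.1
  linarith

section Inv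

variable [CompactSpace M] [T2Space M] {g : RMetric (EV n) M} {φ : ℝ → UT g → UT g}

/-- the chart formula for the Liouville measure, up to a constant -/
def ChartFormula (g : RMetric (EV n) M) (m : Measure (UT g)) (c : ℝ≥0∞) : Prop :=
  ∀ (a : M) (S : Set (UT g)), MeasurableSet S → (∀ p ∈ S, p.pt ∈ (chartAt (EV n) a).source) →
    m S = c * coneMass g a (Ioo 0 1) S

theorem continuousAt_cs (g : RMetric (EV n) M) {a : M} {p : UT g}
    (hp : p.pt ∈ (chartAt (EV n) a).source) (r : ℝ) :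
    ContinuousAt (fun q : ℝ × UT g => cs g a q.1 q.2) (r, p) := by
  have h1 : ContinuousAt (fun q : ℝ × UT g => chT a q.2.1) (r, p) :=
    ContinuousAt.comp (g := chT a) (f := fun q : ℝ × UT g => q.2.1)
      (continuousAt_chT a hp) ((continuous_val g).comp continuous_snd).continuousAt
  exact (continuousAt_fst.comp h1).prodMk (continuousAt_fst.smul (continuousAt_snd.comp h1))

theorem coneMass_flow (hφ : IsGeoFlow g φ) {a : M} {ε : ℝ} {W : Set (EV n × EV n)}
    {Φ : ℝ → EV n × EV n → EV n × EV n} (F : LocFlow (coefL g a) (chartAt (EV n) a).target ε W Φ)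
    {I : Set ℝ} (hI : I ⊆ Ioi 0) (hIm : MeasurableSet I) {S : Set (UT g)} (hSm : MeasurableSet S)
    (hS : ∀ p ∈ S, p.pt ∈ (chartAt (EV n) a).source)
    (hW : ∀ p ∈ S, ∀ r ∈ I, cs g a r p ∈ W) {t : ℝ} (ht : t ∈ Ioo (-ε) ε) :
    coneMass g a I (φ t '' S) = coneMass g a I S := by
  unfold coneMass
  rw [← image_cone hφ F hI hS hW ht]
  have h := F.lintegral_image (isMetricOn_coefL g a) ht (measurableSet_cone g a hI hIm hSm)
    (by rintro _ ⟨p, hp, -, r, hr, rfl⟩; exact hW p hp r hr) (injOn_cone hφ F hI hW ht)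
    (fun _ => 1)
  simpa only [one_mul] using h

theorem local_inv (hn : 1 ≤ n) (hφ : IsGeoFlow g φ) {m : Measure (UT g)} [IsFiniteMeasure m]
    {c : ℝ≥0∞} (hc0 : c ≠ 0) (hm : ChartFormula g m c) (p₀ : UT g) :
    ∃ N : Set (UT g), IsOpen N ∧ p₀ ∈ N ∧ ∃ ε > 0, ∀ t ∈ Ioo (-ε) ε, ∀ S ⊆ N, MeasurableSet S →
      m (φ t '' S) = m S := by
  set a := p₀.pt with ha
  have hp₀ : p₀.pt ∈ (chartAt (EV n) a).source := mem_chart_source _ _
  obtain ⟨ε, hε, W, hzW, Φ, F⟩ := exists_locFlow (isMetricOn_coefL g a)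
    (z := cs g a 1 p₀) (cs_mem g hp₀) (cs_ne_zero g one_pos hp₀)
  have h1 : (fun q : ℝ × UT g => cs g a q.1 q.2) ⁻¹' W ∈ 𝓝 ((1 : ℝ), p₀) :=
    (continuousAt_cs g hp₀ 1).preimage_mem_nhds (F.isOpen.mem_nhds hzW)
  rw [mem_nhds_prod_iff] at h1
  obtain ⟨A, hA, V, hV, hAV⟩ := h1
  obtain ⟨δ, hδ, hδA⟩ := Metric.mem_nhds_iff.1 hA
  set η : ℝ := min (δ / 2) (1 / 2) with hη
  have hη0 : 0 < η := lt_min (by positivity) (by norm_num)
  have hη1 : η < δ := lt_of_le_of_lt (min_le_left _ _) (by linarith)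
  have hη2 : η ≤ 1 / 2 := min_le_right _ _
  set I : Set ℝ := Ico (1 - η) (1 + η) with hI
  have hIA : I ⊆ A := by
    intro r hr
    apply hδA
    rw [Metric.mem_ball, Real.dist_eq, abs_lt]
    constructor
    · linarith [hr.1]
    · linarith [hr.2]
  have hI0 : I ⊆ Ioi 0 := by
    intro r hr
    have := hr.1
    show 0 < r
    linarith
  refine ⟨interior V ∩ (fun p : UT g => p.pt) ⁻¹' (chartAt (EV n) a).source,
    isOpen_interior.inter ((chartAt (EV n) a).open_source.preimage (continuous_pt g)),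
    ⟨mem_interior_iff_mem_nhds.2 hV, hp₀⟩, ε, hε, ?_⟩
  intro t ht S hSN hS
  have hSs : ∀ p ∈ S, p.pt ∈ (chartAt (EV n) a).source := fun p hp => (hSN hp).2
  have hSW : ∀ p ∈ S, ∀ r ∈ I, cs g a r p ∈ W := fun p hp r hr =>
    hAV (mk_mem_prod (hIA hr) (interior_subset (hSN hp).1))
  have hS' : MeasurableSet (φ t '' S) := by
    rw [hφ.image_eq_preimage]
    exact (hφ.continuous_right (-t)).measurable hS
  have hSs' : ∀ p ∈ φ t '' S, p.pt ∈ (chartAt (EV n) a).source := by
    rintro _ ⟨p, hp, rfl⟩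
    have h2 : (1 : ℝ) ∈ I := ⟨by linarith, by linarith⟩
    exact (hφ.locFlow_eq F (hSs p hp) one_pos (hSW p hp 1 h2) ht).1
  have hsh := coneMass_flow hφ F hI0 measurableSet_Ico hS hSs hSW ht
  have key : ∀ T : Set (UT g), MeasurableSet T → (∀ p ∈ T, p.pt ∈ (chartAt (EV n) a).source) →
      coneMass g a (Ioo 0 1) T ≠ ⊤ ∧
      ENNReal.ofReal ((1 + η) ^ n - (1 - η) ^ n) * coneMass g a (Ioo 0 1) T =
        coneMass g a I T := by
    intro T hT hTs
    have hfin : coneMass g a (Ioo 0 1) T ≠ ⊤ := by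
      intro h
      have h2 := hm a T hT hTs
      rw [h, ENNReal.mul_top hc0] at h2
      exact measure_ne_top m T h2
    refine ⟨hfin, ?_⟩
    have h2 := coneMass_union g a (s₁ := 1 - η) (s₂ := 1 + η) (by linarith) (by linarith) hT
    rw [coneMass_scale g a (s := 1 + η) (by linarith) hT,
      coneMass_scale g a (s := 1 - η) (by linarith) hT] at h2
    rw [ENNReal.ofReal_sub _ (by have : 0 ≤ 1 - η := by linarith
                                 positivity), ENNReal.sub_mul (fun _ _ => hfin), h2]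
    exact ENNReal.add_sub_cancel_left (ENNReal.mul_ne_top ENNReal.ofReal_ne_top hfin)
  have hpow : 0 < (1 + η) ^ n - (1 - η) ^ n := by
    have : (1 - η) ^ n < (1 + η) ^ n :=
      pow_lt_pow_left₀ (by linarith) (by linarith) (by omega)
    linarith
  have k1 := (key S hS hSs).2
  have k2 := (key (φ t '' S) hS' hSs').2
  rw [hm a S hS hSs, hm a (φ t '' S) hS' hSs']
  congr 1
  rw [hsh, ← k1] at k2
  exact (ENNReal.mul_right_inj (by simpa using hpow) ENNReal.ofReal_ne_top).1 k2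

theorem measurePreserving_of_chartFormula (hn : 1 ≤ n) (hφ : IsGeoFlow g φ) {m : Measure (UT g)}
    [IsFiniteMeasure m] {c : ℝ≥0∞} (hc0 : c ≠ 0) (hm : ChartFormula g m c) (t : ℝ) :
    MeasurePreserving (φ t) m m := by
  have hcomp := compactSpace_UT g
  choose N hNo hN ε hε h using local_inv hn hφ hc0 hm
  obtain ⟨s, hs⟩ := isCompact_univ.elim_nhds_subcover (X := UT g) N
    (fun p _ => (hNo p).mem_nhds (hN p))
  obtain ⟨ε₀, hε₀, hε₁⟩ : ∃ ε₀ > 0, ∀ p ∈ s, ε₀ ≤ ε p := by
    classical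
    clear hs
    induction s using Finset.induction_on with
    | empty => exact ⟨1, one_pos, fun p hp => by simp at hp⟩
    | insert q s' _ ih =>
      obtain ⟨ε₀, h1, h2⟩ := ih
      refine ⟨min ε₀ (ε q), lt_min h1 (hε q), ?_⟩
      intro p hp
      rcases Finset.mem_insert.1 hp with rfl | hp
      · exact min_le_right _ _
      · exact (min_le_left _ _).trans (h2 p hp)
  -- small times
  have small : ∀ t : ℝ, |t| < ε₀ → MeasurePreserving (φ t) m m := by
    intro t ht
    refine ⟨(hφ.continuous_right t).measurable, ?_⟩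
    have hcov : (⋃ p ∈ (s : Set (UT g)), N p) = univ := by
      apply eq_univ_of_univ_subset
      intro q hq
      have := hs.2 hq
      simpa using this
    rw [Measure.ext_iff_of_biUnion_eq_univ s.countable_toSet hcov]
    intro p hp
    ext S hS
    rw [Measure.restrict_apply hS, Measure.restrict_apply hS,
      Measure.map_apply (hφ.continuous_right t).measurable (hS.inter (hNo p).measurableSet)]
    have h1 : φ t ⁻¹' (S ∩ N p) = φ (-t) '' (S ∩ N p) := by
      rw [hφ.image_eq_preimage, neg_neg]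
    rw [h1]
    refine h p (-t) ?_ _ inter_subset_right (hS.inter (hNo p).measurableSet)
    have h2 := hε₁ p hp
    rw [abs_lt] at ht
    constructor <;> linarith [ht.1, ht.2]
  -- all times
  obtain ⟨k, hk⟩ := exists_nat_gt (|t| / ε₀)
  have hk0 : (0 : ℝ) < k := lt_of_le_of_lt (by positivity) hk
  have h1 : |t / k| < ε₀ := by
    rw [abs_div, abs_of_pos hk0, div_lt_iff₀ hk0]
    rw [div_lt_iff₀ hε₀] at hk
    linarith
  have h2 := (small (t / k) h1).iterate k
  have h3 : (φ (t / k))^[k] = φ t := by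
    funext p
    rw [hφ.iterate, mul_div_cancel₀ _ hk0.ne']
  rwa [h3] at h2

end Inv

end Vale.Agent.P207
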