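import Vale.Agent.P207.BlkL3
import Vale.Agent.P207.BlkV

/-!
# P207, block L (4): the chart formula for the Liouville measure
-/

open scoped Manifold ContDiff ENNReal Topology NNReal BoundedContinuousFunction
open Bundle MeasureTheory Set Filter

set_option maxSynthPendingDepth 3
set_option linter.unusedSectionVars false

noncomputable section

namespace Vale.Agent.P207

open Vale.Agent.P255 (RMetric coefIn Gam Riem IsGeo Metric Npc ExpSys toMetric geo expg cc trans
  IsGeodesic coefL IsMetricOn chris chrisB chrisB_apply geoField)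

variable {n : ℕ} {M : Type} [TopologicalSpace M] [ChartedSpace (EV n) M]
  [IsManifold 𝓘(ℝ, EV n) ∞ M]

/-- the nonzero tangent vectors, in the chart at `a` -/
def Ds (n : ℕ) {M : Type} [TopologicalSpace M] [ChartedSpace (EV n) M] (a : M) :
    Set (EV n × EV n) :=
  {z : EV n × EV n | z.1 ∈ (chartAt (EV n) a).target ∧ z.2 ≠ 0}

theorem isOpen_Ds (a : M) : IsOpen (Ds n a) := isOpen_D a

/-- the projection to the unit tangent bundle -/
def utD (g : RMetric (EV n) M) (a : M) (z : Ds n a) : UT g := ut g a z.1 z.2.1 z.2.2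

theorem continuous_utD (g : RMetric (EV n) M) (a : M) : Continuous (utD g a) := continuous_ut g a

/-- the density on `Ds` -/
def rhoD (g : RMetric (EV n) M) (a : M) (z : EV n × EV n) : ℝ≥0∞ :=
  {z : EV n × EV n | spd (coefL g a) z < 1}.indicator
    (fun z => ENNReal.ofReal (grd (coefL g a) z.1)) z

/-- the measure on the unit tangent bundle given by the chart at `a` -/
def nuD (g : RMetric (EV n) M) (a : M) : Measure (UT g) :=
  ((volume.comap (Subtype.val : Ds n a → EV n × EV n)).withDensity
    (fun z => rhoD g a z.1)).map (utD g a)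

theorem grd_eq_dens (g : RMetric (EV n) M) (a : M) {u : EV n}
    (hu : u ∈ (chartAt (EV n) a).target) : grd (coefL g a) u = dens g a u * dens g a u := by
  have h : 0 ≤ (gramE (coefL g a u)).det :=
    (gramE_det_pos (coefL_symm g a hu) (fun _ hv => coefL_pos g a hu hv)).le
  exact (Real.mul_self_sqrt h).symm

theorem continuousOn_grd (g : RMetric (EV n) M) (a : M) :
    ContinuousOn (grd (coefL g a)) (chartAt (EV n) a).target := by
  have h := (continuousOn_dens g a).mul (continuousOn_dens g a)
  exact h.congr fun u hu => grd_eq_dens g a hu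

theorem spd_lt_one (g : RMetric (EV n) M) {a : M} {z : EV n × EV n} :
    spd (coefL g a) z < 1 ↔ z.2 ∈ ballB (coefL g a z.1) := by
  unfold spd ballB
  rw [mem_ofPred_eq, Real.sqrt_lt' one_pos, one_pow]

theorem mem_D1 (g : RMetric (EV n) M) {a : M} {z : EV n × EV n} :
    z ∈ (Ds n a ∩ {z | spd (coefL g a) z < 1}) ↔
      (z.1 ∈ (chartAt (EV n) a).target ∧ z.2 ≠ 0) ∧ z.2 ∈ ballB (coefL g a z.1) := by
  rw [mem_inter_iff, mem_ofPred_eq, spd_lt_one g]
  exact Iff.rfl

theorem spd_pos (g : RMetric (EV n) M) {a : M} {z : EV n × EV n} (hz : z ∈ Ds n a) :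
    0 < spd (coefL g a) z := Real.sqrt_pos.2 (coefL_pos g a hz.1 hz.2)

theorem continuousOn_spd (g : RMetric (EV n) M) (a : M) :
    ContinuousOn (spd (coefL g a)) (Ds n a) := fun _ hz =>
  (Real.continuous_sqrt.continuousAt.comp
      (contDiffAt_sq (isMetricOn_coefL g a) hz.1).continuousAt).continuousWithinAt

theorem isOpen_D1 (g : RMetric (EV n) M) (a : M) :
    IsOpen (Ds n a ∩ {z | spd (coefL g a) z < 1}) :=
  (continuousOn_spd g a).isOpen_inter_preimage (isOpen_Ds a) isOpen_Iio

theorem measurable_rhoD (g : RMetric (EV n) M) (a : M) :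
    Measurable (fun z : Ds n a => rhoD g a z.1) := by
  have h1 : Measurable (fun z : Ds n a => ENNReal.ofReal (grd (coefL g a) z.1.1)) := by
    refine ENNReal.measurable_ofReal.comp (Continuous.measurable ?_)
    have h2 : ContinuousOn (fun z : EV n × EV n => grd (coefL g a) z.1) (Ds n a) :=
      (continuousOn_grd g a).comp continuousOn_fst (fun z hz => hz.1)
    exact continuousOn_iff_continuous_domRestrict.1 h2
  have h3 : MeasurableSet {z : Ds n a | spd (coefL g a) z.1 < 1} :=
    measurable_spd_D g a measurableSet_Iio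
  exact h1.indicator h3

/-- `nuD` of a set is the mass of the cone over it -/
theorem nuD_apply (g : RMetric (EV n) M) (a : M) {S : Set (UT g)} (hS : MeasurableSet S) :
    nuD g a S = coneMass g a (Ioo 0 1) S := by
  unfold nuD coneMass
  have hSm : MeasurableSet (utD g a ⁻¹' S) := (continuous_utD g a).measurable hS
  rw [Measure.map_apply (continuous_utD g a).measurable hS, withDensity_apply _ hSm,
    cone_eq g a (fun r hr => hr.1)]
  have hD : MeasurableSet (Ds n a) := (isOpen_Ds a).measurableSet
  have hT : MeasurableSet {z : Ds n a | utD g a z ∈ S ∧ spd (coefL g a) z.1 ∈ Ioo (0 : ℝ) 1} :=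
    hSm.inter (measurable_spd_D g a measurableSet_Ioo)
  have h1 : ∫⁻ z in Subtype.val '' {z : Ds n a | utD g a z ∈ S ∧
      spd (coefL g a) z.1 ∈ Ioo (0 : ℝ) 1}, ENNReal.ofReal (grd (coefL g a) z.1) =
      ∫⁻ z in {z : Ds n a | utD g a z ∈ S ∧ spd (coefL g a) z.1 ∈ Ioo (0 : ℝ) 1},
        ENNReal.ofReal (grd (coefL g a) z.1.1) ∂(volume.comap Subtype.val) := by
    have h2 := (MeasurableEmbedding.subtype_coe hD).restrict_map
      (volume.comap (Subtype.val : Ds n a → EV n × EV n))
      (Subtype.val '' {z : Ds n a | utD g a z ∈ S ∧ spd (coefL g a) z.1 ∈ Ioo (0 : ℝ) 1})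
    rw [preimage_image_eq _ Subtype.val_injective, map_comap_subtype_coe hD,
      Measure.restrict_restrict (hD.subtype_image hT)] at h2
    rw [← (MeasurableEmbedding.subtype_coe hD).lintegral_map
      (fun z : EV n × EV n => ENNReal.ofReal (grd (coefL g a) z.1)), ← h2]
    congr 2
    refine (inter_eq_self_of_subset_left ?_).symm
    rintro _ ⟨z, -, rfl⟩
    exact z.2
  refine Eq.trans ?_ h1.symm
  have h4 : (fun z : Ds n a => rhoD g a z.1) =
      {z : Ds n a | spd (coefL g a) z.1 < 1}.indicator
        (fun z => ENNReal.ofReal (grd (coefL g a) z.1.1)) := by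
    funext z
    rfl
  have h5 : MeasurableSet {z : Ds n a | spd (coefL g a) z.1 < 1} :=
    measurable_spd_D g a measurableSet_Iio
  rw [h4, lintegral_indicator h5, Measure.restrict_restrict h5]
  congr 2
  ext z
  constructor
  · rintro ⟨h5, h6⟩
    exact ⟨h6, spd_pos g z.2, h5⟩
  · rintro ⟨h5, h6, h7⟩
    exact ⟨h7, h5⟩

section Formula

variable [CompactSpace M] [T2Space M] [MeasurableSpace M] [BorelSpace M] {g : RMetric (EV n) M}
  {μ : Measure M} {m : Measure (UT g)}

/-- integrals of functions over a chart domain -/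
theorem IsRiemVol.lintegral_source (hμ : IsRiemVol g μ) (a : M) {h : M → ℝ≥0∞}
    (hh : Measurable h) :
    ∫⁻ x in (chartAt (EV n) a).source, h x ∂μ = ∫⁻ u in (chartAt (EV n) a).target,
      h ((chartAt (EV n) a).symm u) * ENNReal.ofReal (dens g a u) := by
  set e := chartAt (EV n) a with he
  have hT : MeasurableSet e.target := e.open_target.measurableSet
  have hS : MeasurableSet e.source := e.open_source.measurableSet
  have hd : AEMeasurable (fun u => ENNReal.ofReal (dens g a u)) (volume.restrict e.target) :=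
    ((continuousOn_dens g a).aemeasurable hT).ennreal_ofReal
  have hs : AEMeasurable e.symm (volume.restrict e.target) := e.continuousOn_symm.aemeasurable hT
  set ν : Measure (EV n) := (volume.restrict e.target).withDensity
    (fun u => ENNReal.ofReal (dens g a u)) with hν
  have hs' : AEMeasurable e.symm ν := hs.mono_ac (withDensity_absolutelyContinuous _ _)
  have h1 : μ.restrict e.source = ν.map e.symm := by
    ext s hsm
    rw [Measure.restrict_apply hsm, Measure.map_apply_of_aemeasurable hs' hsm, hν,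
      withDensity_apply', Measure.restrict_restrict' hT,
      isRiemVol_iff.1 hμ a _ (hsm.inter hS) inter_subset_right]
    congr 2
    rw [inter_comm s, ← he, e.image_source_inter_eq', inter_comm]
  rw [h1, lintegral_map' hh.aemeasurable hs', hν]
  refine (lintegral_withDensity_eq_lintegral_mul₀ hd (hh.comp_aemeasurable hs)).trans ?_
  refine lintegral_congr fun u => ?_
  simp only [Pi.mul_apply, Function.comp]
  rw [mul_comm]

/-- the spherical average in a chart, as a lower integral -/
theorem ofReal_sphAvg {Q : UT g → ℝ} (hQ : Continuous Q) (hQ0 : ∀ p, 0 ≤ Q p) (a : M)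
    {u : EV n} (hu : u ∈ (chartAt (EV n) a).target) :
    ENNReal.ofReal (sphAvg g Q ((chartAt (EV n) a).symm u)) =
      (ENNReal.ofReal (volume.real (Metric.ball (0 : EV n) 1)))⁻¹ *
      ((∫⁻ w in ballB (coefL g a u), ENNReal.ofReal (radial g Q ((chartAt (EV n) a).symm u)
        (Dc a ((chartAt (EV n) a).symm u) w))) * ENNReal.ofReal (dens g a u)) := by
  have hcomp := compactSpace_UT g
  set x := (chartAt (EV n) a).symm u with hx
  have hxs : x ∈ (chartAt (EV n) a).source := (chartAt (EV n) a).map_target hu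
  have hxu : chartAt (EV n) a x = u := (chartAt (EV n) a).right_inv hu
  obtain ⟨C, hC0, hC⟩ := exists_abs_le hQ
  have hr0 : ∀ w : EV n, 0 ≤ radial g Q x (Dc a x w) := by
    intro w
    unfold radial
    split_ifs
    · exact le_rfl
    · exact hQ0 _
  have hvol : volume.real (ballB (coefL g a u)) =
      volume.real (Metric.ball (0 : EV n) 1) / dens g a u :=
    volume_real_ballB (coefL_symm g a hu) (fun _ hv => coefL_pos g a hu hv)
  have hd : 0 < dens g a u := dens_pos g a hu
  have hω : 0 < volume.real (Metric.ball (0 : EV n) 1) :=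
    ENNReal.toReal_pos (Metric.measure_ball_pos volume _ one_pos).ne' measure_ball_lt_top.ne
  have hfin : volume (ballB (coefL g a u)) ≠ ⊤ := by
    intro h
    have h2 : volume.real (ballB (coefL g a u)) = 0 := by
      rw [Measure.real, h, ENNReal.toReal_top]
    rw [hvol] at h2
    exact (div_pos hω hd).ne' h2
  have hint : IntegrableOn (fun w : EV n => radial g Q x (Dc a x w)) (ballB (coefL g a u)) :=
    Measure.integrableOn_of_bounded (M := C) hfin
      (((measurable_radial g hQ x).comp (Dc a x).continuous.measurable).aestronglyMeasurable)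
      (Eventually.of_forall fun w => abs_radial_le g hC hC0 x (Dc a x w))
  rw [sphAvg_chart g Q a hxs, hxu]
  unfold avgB
  rw [hvol, div_div_eq_mul_div, ENNReal.ofReal_div_of_pos hω,
    ENNReal.ofReal_mul (integral_nonneg hr0),
    ofReal_integral_eq_lintegral_ofReal hint (Eventually.of_forall hr0), ENNReal.div_eq_inv_mul]

theorem radial_eq_utD {Q : UT g → ℝ} (a : M) (z : Ds n a) :
    radial g Q ((chartAt (EV n) a).symm z.1.1) (Dc a ((chartAt (EV n) a).symm z.1.1) z.1.2) =
      Q (utD g a z) := by
  obtain ⟨⟨u, w⟩, hu, hw⟩ := z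
  have hxs : (chartAt (EV n) a).symm u ∈ (chartAt (EV n) a).source :=
    (chartAt (EV n) a).map_target hu
  have hne := Dc_ne_zero a hxs hw
  have h1 : radial g Q ((chartAt (EV n) a).symm u) (Dc a ((chartAt (EV n) a).symm u) w) =
      Q (unitDir g _ (Dc a ((chartAt (EV n) a).symm u) w) hne) := dif_neg hne
  rw [h1]
  congr 1
  apply Subtype.ext
  rw [unitDir_Dc g a hxs hne]
  show tv a ((chartAt (EV n) a).symm u, _) = chTs a (u, _)
  unfold tv chTs Dc spd
  simp only [(chartAt (EV n) a).right_inv hu]

/-- Tonelli for a function on a set fibred over `T` -/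
theorem lintegral_prod_indicator {X Y : Type} [MeasurableSpace X] [MeasurableSpace Y]
    {μ : Measure X} {ν : Measure Y} [SFinite μ] [SFinite ν] {D : Set (X × Y)} {T : Set X}
    {B : X → Set Y} {F : X × Y → ℝ≥0∞} {c : X → ℝ≥0∞} (hT : MeasurableSet T)
    (hB : ∀ x, MeasurableSet (B x)) (hm : Measurable (D.indicator fun z => F z * c z.1))
    (hc : ∀ x, c x ≠ (⊤ : ℝ≥0∞)) (hD : ∀ x ∈ T, ∀ᵐ y ∂ν, (x, y) ∈ D ↔ y ∈ B x)
    (hD' : ∀ x ∉ T, ∀ y, (x, y) ∉ D) :
    ∫⁻ z, D.indicator (fun z => F z * c z.1) z ∂(μ.prod ν) =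
      ∫⁻ x in T, (∫⁻ y in B x, F (x, y) ∂ν) * c x ∂μ := by
  rw [lintegral_prod _ hm.aemeasurable, ← lintegral_indicator hT]
  refine lintegral_congr fun x => ?_
  by_cases hx : x ∈ T
  · rw [indicator_of_mem hx, ← lintegral_mul_const' _ _ (hc x), ← lintegral_indicator (hB x)]
    refine lintegral_congr_ae ?_
    filter_upwards [hD x hx] with y hy
    by_cases hyb : y ∈ B x
    · rw [indicator_of_mem (hy.2 hyb), indicator_of_mem hyb]
    · rw [indicator_of_notMem (fun h => hyb (hy.1 h)), indicator_of_notMem hyb]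
  · rw [indicator_of_notMem hx]
    have h2 : ∀ y, D.indicator (fun z => F z * c z.1) (x, y) = 0 :=
      fun y => indicator_of_notMem (hD' x hx y) _
    simp only [h2, lintegral_zero]

/-- Tonelli in the chart at `a`, for a function of the state -/
theorem tonelli_D1 (hn : 1 ≤ n) (g : RMetric (EV n) M) (a : M) {R : EV n × EV n → ℝ}
    (hRc : ContinuousOn R (Ds n a)) (hR0 : ∀ z, 0 ≤ R z) :
    ∫⁻ z, (Ds n a ∩ {z | spd (coefL g a) z < 1}).indicator
        (fun z => ENNReal.ofReal (R z) * ENNReal.ofReal (grd (coefL g a) z.1)) z =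
      ∫⁻ u in (chartAt (EV n) a).target, (∫⁻ w in ballB (coefL g a u),
        ENNReal.ofReal (R (u, w))) * ENNReal.ofReal (grd (coefL g a) u) := by
  have hD1m : MeasurableSet (Ds n a ∩ {z | spd (coefL g a) z < 1}) :=
    (isOpen_D1 g a).measurableSet
  have hgc : ContinuousOn (fun z : EV n × EV n => grd (coefL g a) z.1) (Ds n a) :=
    (continuousOn_grd g a).comp continuousOn_fst (fun z hz => hz.1)
  have hmeas : Measurable ((Ds n a ∩ {z | spd (coefL g a) z < 1}).indicator
      (fun z => ENNReal.ofReal (R z) * ENNReal.ofReal (grd (coefL g a) z.1))) := by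
    classical
    have h2 : ContinuousOn (fun z => ENNReal.ofReal (R z * grd (coefL g a) z.1))
        (Ds n a ∩ {z | spd (coefL g a) z < 1}) :=
      ENNReal.continuous_ofReal.comp_continuousOn
        ((hRc.mul hgc).mono inter_subset_left)
    have h3 := h2.measurable_piecewise (g := fun _ => (0 : ℝ≥0∞)) continuousOn_const hD1m
    convert h3 using 1
    rw [← piecewise_eq_indicator]
    congr 1
    funext z
    exact (ENNReal.ofReal_mul (hR0 z)).symm
  have hT : MeasurableSet (chartAt (EV n) a).target :=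
    (chartAt (EV n) a).open_target.measurableSet
  refine lintegral_prod_indicator (F := fun z => ENNReal.ofReal (R z))
    (c := fun u => ENNReal.ofReal (grd (coefL g a) u)) hT
    (fun u => measurableSet_ballB (coefL g a u)) hmeas (fun u => ENNReal.ofReal_ne_top) ?_ ?_
  · intro u hu
    filter_upwards [ae_ne_zero hn] with w hw
    rw [mem_D1 g]
    exact ⟨fun h => h.2, fun h => ⟨⟨hu, hw⟩, h⟩⟩
  · intro u hu w h
    rw [mem_D1 g] at h
    exact hu h.1.1

/-- Tonelli in the chart at `a` -/
theorem lintegral_nuD (hn : 1 ≤ n) {Q : UT g → ℝ} (hQ : Continuous Q) (hQ0 : ∀ p, 0 ≤ Q p)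
    (a : M) :
    ∫⁻ p, ENNReal.ofReal (Q p) ∂(nuD g a) = ∫⁻ u in (chartAt (EV n) a).target,
      (∫⁻ w in ballB (coefL g a u), ENNReal.ofReal (radial g Q ((chartAt (EV n) a).symm u)
        (Dc a ((chartAt (EV n) a).symm u) w))) * ENNReal.ofReal (grd (coefL g a) u) := by
  have hD : MeasurableSet (Ds n a) := (isOpen_Ds a).measurableSet
  have hD1m : MeasurableSet (Ds n a ∩ {z | spd (coefL g a) z < 1}) :=
    (isOpen_D1 g a).measurableSet
  obtain ⟨R, hR⟩ : ∃ R : EV n × EV n → ℝ, R = fun z => radial g Q ((chartAt (EV n) a).symm z.1)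
    (Dc a ((chartAt (EV n) a).symm z.1) z.2) := ⟨_, rfl⟩
  have hRc : ContinuousOn R (Ds n a) := by
    rw [hR]
    have h1 := continuousOn_radial g hQ a
    refine h1.comp (f := fun z : EV n × EV n => ((chartAt (EV n) a).symm z.1, z.2)) ?_ ?_
    · exact ((chartAt (EV n) a).continuousOn_symm.comp continuousOn_fst
        (fun z hz => hz.1)).prodMk continuousOn_snd
    · intro z hz
      exact ⟨(chartAt (EV n) a).map_target hz.1, hz.2⟩
  have hR0 : ∀ z, 0 ≤ R z := by
    intro z
    rw [hR]
    simp only
    unfold radial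
    split_ifs
    · exact le_rfl
    · exact hQ0 _
  have hRD : ∀ z : Ds n a, R z.1 = Q (utD g a z) := by
    intro z
    rw [hR]
    exact radial_eq_utD a z
  have h0 := tonelli_D1 hn g a hRc hR0
  have h3 : ∀ u w, radial g Q ((chartAt (EV n) a).symm u)
        (Dc a ((chartAt (EV n) a).symm u) w) = R (u, w) := by
    intro u w
    rw [hR]
  simp only [h3]
  rw [← h0]
  unfold nuD
  rw [lintegral_map hQ.measurable.ennreal_ofReal (continuous_utD g a).measurable]
  refine (lintegral_withDensity_eq_lintegral_mul _ (measurable_rhoD g a)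
      (hQ.measurable.ennreal_ofReal.comp (continuous_utD g a).measurable)).trans ?_
  have h2 : ∀ z : Ds n a, ((fun z : Ds n a => rhoD g a z.1) *
      fun z => ENNReal.ofReal (Q (utD g a z))) z =
      (Ds n a ∩ {z | spd (coefL g a) z < 1}).indicator
        (fun z => ENNReal.ofReal (R z) * ENNReal.ofReal (grd (coefL g a) z.1)) z.1 := by
    intro z
    simp only [Pi.mul_apply, ← hRD]
    unfold rhoD
    by_cases hz : spd (coefL g a) z.1 < 1
    · rw [indicator_of_mem (show z.1 ∈ {z | spd (coefL g a) z < 1} from hz),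
        indicator_of_mem (show z.1 ∈ Ds n a ∩ {z | spd (coefL g a) z < 1} from ⟨z.2, hz⟩),
        mul_comm]
    · rw [indicator_of_notMem (show z.1 ∉ {z | spd (coefL g a) z < 1} from hz),
        indicator_of_notMem (fun h : z.1 ∈ Ds n a ∩ {z | spd (coefL g a) z < 1} => hz h.2),
        zero_mul]
  refine (lintegral_congr h2).trans ?_
  rw [lintegral_subtype_comap hD
    (fun z => (Ds n a ∩ {z | spd (coefL g a) z < 1}).indicator
      (fun z => ENNReal.ofReal (R z) * ENNReal.ofReal (grd (coefL g a) z.1)) z),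
    lintegral_indicator hD1m, lintegral_indicator hD1m, Measure.restrict_restrict hD1m,
    inter_eq_self_of_subset_left inter_subset_left]

theorem ball_pos (n : ℕ) : 0 < volume.real (Metric.ball (0 : EV n) 1) :=
  ENNReal.toReal_pos (Metric.measure_ball_pos volume _ one_pos).ne' measure_ball_lt_top.ne

/-- the constant of the chart formula -/
def lc (n : ℕ) (μ : Measure M) : ℝ≥0∞ :=
  (ENNReal.ofReal (μ.real univ))⁻¹ * (ENNReal.ofReal (volume.real (Metric.ball (0 : EV n) 1)))⁻¹

theorem lc_ne_zero (μ : Measure M) : lc n μ ≠ 0 :=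
  mul_ne_zero (ENNReal.inv_ne_zero.2 ENNReal.ofReal_ne_top)
    (ENNReal.inv_ne_zero.2 ENNReal.ofReal_ne_top)

theorem IsLiouville.vol_pos (hm : IsLiouville g μ m) : 0 < μ.real univ := by
  have := hm.1
  have h := hm.2 (fun _ => 1) continuous_const
  rcases (measureReal_nonneg (μ := μ) (s := univ)).eq_or_lt with h0 | h0
  · rw [← h0, div_zero] at h
    simp at h
  · exact h0

/-- the Liouville integral of a function supported over a chart domain -/
theorem IsLiouville.lintegral_eq (hn : 1 ≤ n) (hμ : IsRiemVol g μ) (hm : IsLiouville g μ m)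
    (a : M) {Q : UT g → ℝ} (hQ : Continuous Q) (hQ0 : ∀ p, 0 ≤ Q p)
    (hQs : ∀ p : UT g, p.pt ∉ (chartAt (EV n) a).source → Q p = 0) :
    ∫⁻ p, ENNReal.ofReal (Q p) ∂m = lc n μ * ∫⁻ p, ENNReal.ofReal (Q p) ∂(nuD g a) := by
  have hprob := hm.1
  have hfin := hμ.isFiniteMeasure
  have hcomp := compactSpace_UT g
  have hV := hm.vol_pos
  have hω := ball_pos n
  have hsc := continuous_sphAvg hn hQ
  have hs0 : ∀ x, 0 ≤ sphAvg g Q x := sphAvg_nonneg hQ0
  have hint : Integrable Q m := hQ.integrable_of_hasCompactSupport (HasCompactSupport.of_compactSpace Q)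
  have hint2 : Integrable (sphAvg g Q) μ :=
    hsc.integrable_of_hasCompactSupport (HasCompactSupport.of_compactSpace _)
  have e1 : ∫⁻ p, ENNReal.ofReal (Q p) ∂m =
      (ENNReal.ofReal (μ.real univ))⁻¹ * ∫⁻ x, ENNReal.ofReal (sphAvg g Q x) ∂μ := by
    rw [← ofReal_integral_eq_lintegral_ofReal hint (Eventually.of_forall hQ0), hm.2 Q hQ,
      ENNReal.ofReal_div_of_pos hV,
      ofReal_integral_eq_lintegral_ofReal hint2 (Eventually.of_forall hs0),
      ENNReal.div_eq_inv_mul]
  have e2 : ∫⁻ x, ENNReal.ofReal (sphAvg g Q x) ∂μ =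
      ∫⁻ x in (chartAt (EV n) a).source, ENNReal.ofReal (sphAvg g Q x) ∂μ := by
    rw [← lintegral_indicator (chartAt (EV n) a).open_source.measurableSet]
    refine lintegral_congr fun x => ?_
    by_cases hx : x ∈ (chartAt (EV n) a).source
    · rw [indicator_of_mem hx]
    · rw [indicator_of_notMem hx]
      have h1 : sphAvg g Q x = 0 := by
        unfold sphAvg
        have h2 : ∀ v : EV n, radial g Q x v = 0 := by
          intro v
          unfold radial
          split_ifs with h3
          · rfl
          · exact hQs _ hx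
        simp only [h2, integral_zero, zero_div]
      rw [h1, ENNReal.ofReal_zero]
  have e3 := hμ.lintegral_source a (h := fun x => ENNReal.ofReal (sphAvg g Q x))
    hsc.measurable.ennreal_ofReal
  have e4 : ∫⁻ u in (chartAt (EV n) a).target,
      ENNReal.ofReal (sphAvg g Q ((chartAt (EV n) a).symm u)) * ENNReal.ofReal (dens g a u) =
      (ENNReal.ofReal (volume.real (Metric.ball (0 : EV n) 1)))⁻¹ *
        ∫⁻ p, ENNReal.ofReal (Q p) ∂(nuD g a) := by
    rw [lintegral_nuD hn hQ hQ0 a, ← lintegral_const_mul' _ _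
      (ENNReal.inv_ne_top.2 (by simpa using hω))]
    refine setLIntegral_congr_fun (chartAt (EV n) a).open_target.measurableSet fun u hu => ?_
    have h1 := ofReal_sphAvg hQ hQ0 a hu
    have hd : 0 ≤ dens g a u := (dens_pos g a hu).le
    rw [h1, grd_eq_dens g a hu, ENNReal.ofReal_mul hd]
    ring
  rw [e1, e2, e3, e4, lc, mul_assoc]

/-- an open set of a compact manifold is a cozero set -/
theorem exists_cozero (n : ℕ) {M : Type} [TopologicalSpace M] [ChartedSpace (EV n) M]
    [CompactSpace M] [T2Space M] {U : Set M} (hU : IsOpen U) :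
    ∃ f : M → ℝ, Continuous f ∧ (∀ x, 0 ≤ f x) ∧ ∀ x, f x = 0 ↔ x ∉ U := by
  have hM : SecondCountableTopology M := ChartedSpace.secondCountable_of_sigmaCompact (EV n) M
  let _ : MetricSpace M := TopologicalSpace.metrizableSpaceMetric M
  refine ⟨fun x => (min 1 (Metric.infEDist x Uᶜ)).toReal, ?_, fun x => ENNReal.toReal_nonneg, ?_⟩
  · refine ENNReal.continuousOn_toReal.comp_continuous
      (continuous_const.min Metric.continuous_infEDist) fun x => ?_
    exact (lt_of_le_of_lt (min_le_left _ _) ENNReal.one_lt_top).ne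
  · intro x
    have h1 : min 1 (Metric.infEDist x Uᶜ) ≠ ⊤ :=
      (lt_of_le_of_lt (min_le_left _ _) ENNReal.one_lt_top).ne
    rw [ENNReal.toReal_eq_zero_iff, or_iff_left h1]
    have h2 : Metric.infEDist x Uᶜ = 0 ↔ x ∈ Uᶜ := by
      rw [← Metric.mem_closure_iff_infEDist_zero, hU.isClosed_compl.closure_eq]
    rcases min_choice (1 : ℝ≥0∞) (Metric.infEDist x Uᶜ) with h3 | h3
    · rw [h3]
      constructor
      · intro h; exact absurd h one_ne_zero
      · intro h
        have h4 := h2.2 h
        rw [h4] at h3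
        simp at h3
    · rw [h3, h2]
      exact Iff.rfl

theorem measure_eq_setLIntegral_withDensity {X : Type} [MeasurableSpace X] (m' : Measure X)
    {F : X → ℝ≥0∞} (hF : Measurable F) {S : Set X} (hS : MeasurableSet S)
    (h0 : ∀ x ∈ S, F x ≠ 0) (h1 : ∀ x ∈ S, F x ≠ ⊤) :
    m' S = ∫⁻ x in S, (F x)⁻¹ ∂(m'.withDensity F) := by
  have h3 := setLIntegral_withDensity_eq_setLIntegral_mul m' hF hF.inv hS
  simp only [Pi.inv_apply] at h3
  rw [h3]
  have h2 : ∫⁻ x in S, (F * F⁻¹) x ∂m' = ∫⁻ x in S, 1 ∂m' := by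
    refine setLIntegral_congr_fun hS fun x hx => ?_
    simp only [Pi.mul_apply, Pi.inv_apply]
    exact ENNReal.mul_inv_cancel (h0 x hx) (h1 x hx)
  rw [h2, setLIntegral_one]

/-- the chart formula for the Liouville measure -/
theorem IsLiouville.chartFormula (hn : 1 ≤ n) (hμ : IsRiemVol g μ) (hm : IsLiouville g μ m) :
    ChartFormula g m (lc n μ) := by
  intro a S hS hSs
  have hprob := hm.1
  have hcomp := compactSpace_UT g
  have hmet := metrizableSpace_UT g
  obtain ⟨f, hf, hf0, hfU⟩ := exists_cozero n (M := M) (chartAt (EV n) a).open_source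
  set F : UT g → ℝ≥0∞ := fun p => ENNReal.ofReal (f p.pt) with hF
  have hFm : Measurable F := (hf.comp (continuous_pt g)).measurable.ennreal_ofReal
  have key : m.withDensity F = (lc n μ • nuD g a).withDensity F := by
    have hfin : IsFiniteMeasure (m.withDensity F) := by
      refine isFiniteMeasure_withDensity_ofReal ?_
      have h1 : Integrable (fun p : UT g => f p.pt) m :=
        (hf.comp (continuous_pt g)).integrable_of_hasCompactSupport
          (HasCompactSupport.of_compactSpace _)
      exact h1.2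
    refine ext_of_forall_lintegral_eq_of_IsFiniteMeasure fun h => ?_
    have hh : Continuous fun p => ((h p : ℝ≥0) : ℝ) := NNReal.continuous_coe.comp h.continuous
    have hhm : Measurable fun p => ((h p : ℝ≥0) : ℝ≥0∞) :=
      h.continuous.measurable.coe_nnreal_ennreal
    rw [lintegral_withDensity_eq_lintegral_mul _ hFm hhm,
      lintegral_withDensity_eq_lintegral_mul _ hFm hhm, lintegral_smul_measure, smul_eq_mul]
    have e : ∀ p : UT g, (F * fun p => ((h p : ℝ≥0) : ℝ≥0∞)) p =
        ENNReal.ofReal (f p.pt * (h p : ℝ)) := by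
      intro p
      rw [ENNReal.ofReal_mul (hf0 _)]
      simp only [Pi.mul_apply, hF, ENNReal.ofReal_coe_nnreal]
    simp only [e]
    refine hm.lintegral_eq hn hμ a (Q := fun p => f p.pt * (h p : ℝ))
      ((hf.comp (continuous_pt g)).mul hh) (fun p => mul_nonneg (hf0 _) (h p).2) ?_
    intro p hp
    rw [(hfU _).2 hp, zero_mul]
  have h0 : ∀ p ∈ S, F p ≠ 0 := by
    intro p hp h
    rw [hF] at h
    simp only [ENNReal.ofReal_eq_zero] at h
    exact (hfU p.pt).1 (le_antisymm h (hf0 _)) (hSs p hp)
  have h1 : ∀ p ∈ S, F p ≠ ⊤ := fun p _ => ENNReal.ofReal_ne_top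
  rw [measure_eq_setLIntegral_withDensity m hFm hS h0 h1, key,
    ← measure_eq_setLIntegral_withDensity (lc n μ • nuD g a) hFm hS h0 h1,
    Measure.smul_apply, smul_eq_mul, nuD_apply g a hS]

end Formula

/-! ### Liouville's theorem -/

section BlockL

variable [CompactSpace M] [T2Space M] [MeasurableSpace M] [BorelSpace M] {g : RMetric (EV n) M}
  {φ : ℝ → UT g → UT g} {μ : Measure M} {m : Measure (UT g)}

/-- **Liouville's theorem**: the geodesic flow preserves the Liouville measure. -/
theorem IsLiouville.measurePreserving (hn : 1 ≤ n) (hφ : IsGeoFlow g φ) (hμ : IsRiemVol g μ)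
    (hm : IsLiouville g μ m) (t : ℝ) : MeasurePreserving (φ t) m m := by
  have := hm.1
  exact measurePreserving_of_chartFormula hn hφ (lc_ne_zero μ) (hm.chartFormula hn hμ) t

end BlockL

end Vale.Agent.P207
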