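import Vale.Agent.P207.Base

/-!
# P207, block P1: strict Rauch comparison in negative curvature
-/

open scoped Manifold ContDiff ENNReal Topology
open Bundle MeasureTheory Set Filter

noncomputable section

set_option maxSynthPendingDepth 3

namespace Vale.Agent.P207

open Vale.Agent.P255

section General

variable {E : Type} [NormedAddCommGroup E] [NormedSpace ℝ E] [FiniteDimensional ℝ E]
variable {M : Type} [TopologicalSpace M] [ChartedSpace E M] [IsManifold 𝓘(ℝ, E) ∞ M]

/-- Sectional curvature `≤ -k`, in the charts of some family covering `M`. -/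
def CurvLE (g : Metric E M) (k : ℝ) : Prop :=
  ∀ x : M, ∃ b : M, x ∈ (chartAt E b).source ∧ ∀ v w : E,
    g.coef b (chartAt E b x) v w = 0 →
      g.coef b (chartAt E b x) (curv (g.coef b) (chartAt E b x) v w w) v ≤
        -(k * (g.coef b (chartAt E b x) v v * g.coef b (chartAt E b x) w w))

/-- the function `sinh (κ t) / κ` -/
def sk (κ t : ℝ) : ℝ := Real.sinh (κ * t) / κ

/-- its logarithmic derivative -/
def ck (κ t : ℝ) : ℝ := κ * Real.cosh (κ * t) / Real.sinh (κ * t)

theorem sk_pos {κ t : ℝ} (hκ : 0 < κ) (ht : 0 < t) : 0 < sk κ t :=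
  div_pos (Real.sinh_pos_iff.2 (mul_pos hκ ht)) hκ

theorem hasDerivAt_sk {κ : ℝ} (hκ : 0 < κ) (t : ℝ) : HasDerivAt (sk κ) (Real.cosh (κ * t)) t := by
  have h1 : HasDerivAt (fun t => Real.sinh (κ * t)) (Real.cosh (κ * t) * κ) t := by
    simpa using ((hasDerivAt_id t).const_mul κ).sinh
  have h2 := h1.div_const κ
  refine h2.congr_deriv ?_
  field_simp

theorem hasDerivAt_ck {κ t : ℝ} (hκ : 0 < κ) (ht : 0 < t) :
    HasDerivAt (ck κ) (κ ^ 2 - ck κ t ^ 2) t := by
  have hs : 0 < Real.sinh (κ * t) := Real.sinh_pos_iff.2 (mul_pos hκ ht)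
  have h1 : HasDerivAt (fun t => Real.sinh (κ * t)) (Real.cosh (κ * t) * κ) t := by
    simpa using ((hasDerivAt_id t).const_mul κ).sinh
  have h2 : HasDerivAt (fun t => κ * Real.cosh (κ * t)) (κ * (Real.sinh (κ * t) * κ)) t := by
    simpa using (((hasDerivAt_id t).const_mul κ).cosh).const_mul κ
  refine (h2.div h1 hs.ne').congr_deriv ?_
  unfold ck
  field_simp

theorem sk_mul_ck {κ t : ℝ} (hκ : 0 < κ) (ht : 0 < t) : sk κ t * ck κ t = Real.cosh (κ * t) := by
  have hs : 0 < Real.sinh (κ * t) := Real.sinh_pos_iff.2 (mul_pos hκ ht)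
  unfold sk ck
  field_simp

theorem tendsto_sk_div {κ : ℝ} (hκ : 0 < κ) :
    Tendsto (fun t => sk κ t / t) (𝓝[>] 0) (𝓝 1) := by
  have h1 := hasDerivAt_sk hκ 0
  have h2 := (hasDerivAt_iff_tendsto_slope_zero.1 h1).mono_left
    (nhdsWithin_mono _ (fun x (hx : x ∈ Ioi (0 : ℝ)) => ne_of_gt hx))
  have h3 : sk κ 0 = 0 := by simp [sk]
  simp only [zero_add, h3, sub_zero, smul_eq_mul, mul_zero, Real.cosh_zero] at h2
  refine h2.congr (fun t => ?_)
  rw [div_eq_inv_mul]

theorem tendsto_mul_ck {κ : ℝ} (hκ : 0 < κ) :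
    Tendsto (fun t => t * ck κ t) (𝓝[>] 0) (𝓝 1) := by
  have h1 := (tendsto_sk_div hκ).inv₀ one_ne_zero
  have h2 : Tendsto (fun t => Real.cosh (κ * t)) (𝓝[>] 0) (𝓝 1) := by
    have h3 : Continuous fun t => Real.cosh (κ * t) := by fun_prop
    have h4 := (h3.tendsto 0).mono_left (nhdsWithin_le_nhds (s := Ioi (0 : ℝ)))
    simpa using h4
  have h3 := h1.mul h2
  simp only [inv_one, mul_one] at h3
  refine h3.congr' ?_
  filter_upwards [self_mem_nhdsWithin] with t ht
  have ht' : (0 : ℝ) < t := ht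
  have h5 := sk_pos hκ ht'
  rw [← sk_mul_ck hκ ht']
  field_simp

/-- Strict Rauch comparison. -/
theorem rauch_neg {g : Metric E M} {e : M → E → M} (he : IsExp g e) {k : ℝ} (hk : 0 < k)
    (hg : CurvLE g (k ^ 2)) (m : M) (v w : E) (hvw : g.ip m v w = 0) (hv : 0 < g.ip m v v)
    (a : M) (ha : e m v ∈ (chartAt E a).source) :
    g.ip m w w * sk (k * Real.sqrt (g.ip m v v)) 1 ^ 2 ≤
      g.coef a (chartAt E a (e m v)) (fderiv ℝ (fun x => chartAt E a (e m x)) v w)
      (fderiv ℝ (fun x => chartAt E a (e m x)) v w) := by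
  set r := Real.sqrt (g.ip m v v) with hr
  have hr0 : 0 < r := Real.sqrt_pos.2 hv
  have hr2 : r ^ 2 = g.ip m v v := Real.sq_sqrt hv.le
  set κ := k * r with hκd
  have hκ : 0 < κ := mul_pos hk hr0
  set γ : ℝ → M := fun t => e m (t • v) with hγ
  set J : M → ℝ → E := fun a t => fderiv ℝ (fun x => chartAt E a (e m x)) (t • v) (t • w) with hJd
  have hgeo : IsGeodesic g γ := he.geod m v
  have hJ : IsJacobi g γ J := he.jac m v w
  have h0 : γ 0 = m := by simp only [hγ, zero_smul, he.zero]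
  have hm0 : γ 0 ∈ (chartAt E m).source := by rw [h0]; exact mem_chart_source E m
  have hJ0 : J m 0 = 0 := by simp only [hJd, map_smul, zero_smul]
  -- orthogonality
  have horth : ∀ t (b : M), 0 < t → γ t ∈ (chartAt E b).source →
      g.coef b (cc γ b t) (J b t) (vel γ b t) = 0 := by
    intro t b ht hb
    have h1 := he.gauss m (t • v) (t • w) b hb
    have h2 := he.vel_ray m v (a := b) (t := t) hb
    have h3 : vel γ b t = fderiv ℝ (fun x => chartAt E b (e m x)) (t • v) v := h2
    rw [h3, (g.isMetricOn' b).symm _ (cc_mem hb)]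
    have h4 : g.coef b (chartAt E b (e m (t • v)))
        (fderiv ℝ (fun x => chartAt E b (e m x)) (t • v) (t • v))
        (fderiv ℝ (fun x => chartAt E b (e m x)) (t • v) (t • w)) =
        t * g.coef b (cc γ b t) (fderiv ℝ (fun x => chartAt E b (e m x)) (t • v) v) (J b t) := by
      simp only [hJd, hγ, cc, map_smul, smul_apply, smul_eq_mul]
    rw [h4] at h1
    have h5 : g.ip m (t • v) (t • w) = 0 := by
      simp only [map_smul, smul_apply, smul_eq_mul, hvw, mul_zero]
    rw [h5] at h1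
    rcases mul_eq_zero.1 h1 with h6 | h6
    · exact absurd h6 ht.ne'
    · exact h6
  have hspeed : ∀ t (b : M), 0 < t → γ t ∈ (chartAt E b).source →
      g.coef b (cc γ b t) (vel γ b t) (vel γ b t) = r ^ 2 := by
    intro t b ht hb
    have h1 := speed_of_gaussAt (he.gaussAt m) v t b hb ht.ne'
    have h3 : vel γ b t = fderiv ℝ (fun x => chartAt E b (e m x)) (t • v) v :=
      he.vel_ray m v (a := b) (t := t) hb
    rw [h3, hr2]
    exact h1
  set f : ℝ → ℝ := prodF g γ J J with hf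
  have hf1 : ∀ t, HasDerivAt f (deriv f t) t := fun t =>
    (hJ.deriv_sq hgeo (mem_chart_source E (γ t))).1.differentiableAt.hasDerivAt
  -- second derivative
  have hf2 : ∀ t, 0 < t → ∃ f'' : ℝ, HasDerivAt (deriv f) f'' t ∧
      0 ≤ f'' - 2 * deriv f t * ck κ t - 2 * f t * (κ ^ 2 - ck κ t ^ 2) := by
    intro t ht
    obtain ⟨b, hb, hcurv⟩ := hg (γ t)
    obtain ⟨hd1, hd2⟩ := hJ.deriv_sq hgeo hb
    refine ⟨_, hd2, ?_⟩
    have hm := g.isMetricOn' b
    set D := covD (g.coef b) (cc γ b) (J b) t with hD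
    set G := g.coef b (cc γ b t) with hG
    have h4 : 0 ≤ G (D - ck κ t • J b t) (D - ck κ t • J b t) := hm.nonneg (cc_mem hb) _
    have h5 : G (J b t) D = G D (J b t) := hm.symm _ (cc_mem hb) _ _
    simp only [map_sub, map_smul, sub_apply, smul_apply, smul_eq_mul] at h4
    rw [h5] at h4
    have h6 : f t = G (J b t) (J b t) := prodF_eq g hJ.compat' hJ.compat' hb
    rw [← h6] at h4
    have h7 : deriv f t = 2 * G D (J b t) := hd1.deriv
    have h8 := hcurv (J b t) (vel γ b t) (horth t b ht hb)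
    have h9 := hspeed t b ht hb
    have h8' : G (curv (g.coef b) (cc γ b t) (J b t) (deriv (cc γ b) t) (deriv (cc γ b) t)) (J b t)
        ≤ -(k ^ 2 * (G (J b t) (J b t) * r ^ 2)) := by
      have := h8
      change _ ≤ -(k ^ 2 * (g.coef b (cc γ b t) (J b t) (J b t) *
        g.coef b (cc γ b t) (vel γ b t) (vel γ b t))) at this
      rw [h9] at this
      exact this
    rw [← h6] at h8'
    rw [h7, hκd]
    linarith only [h4, h8']
  -- limit of `f t / t^2`
  have hlim : Tendsto (fun t => f t / t ^ 2) (𝓝[>] 0) (𝓝 (g.ip m w w)) := by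
    have h1 : Tendsto (fun t : ℝ => t⁻¹ • J m t) (𝓝[>] 0) (𝓝 w) := by
      have := (hasDerivAt_iff_tendsto_slope_zero.1 (he.jac_init m v w)).mono_left
        (nhdsWithin_mono _ (fun x (hx : x ∈ Ioi (0 : ℝ)) => ne_of_gt hx))
      refine this.congr (fun t => ?_)
      simp [hJd]
    have h2 : Tendsto (fun t => g.coef m (cc γ m t)) (𝓝[>] 0) (𝓝 (g.ip m)) := by
      have h3 : ContinuousAt (fun t => g.coef m (cc γ m t)) 0 := by
        refine ContinuousAt.comp (g := g.coef m) (f := cc γ m) ?_ ?_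
        · exact ((g.isMetricOn' m).contDiffAt (cc_mem hm0)).continuousAt
        · exact (hgeo.eqn m 0 (mem_univ _) hm0).1.continuousAt
      have h4 : g.coef m (cc γ m 0) = g.ip m := by unfold cc Metric.ip; rw [h0]
      rw [← h4]
      exact h3.tendsto.mono_left nhdsWithin_le_nhds
    have h3 : Tendsto (fun t => g.coef m (cc γ m t) (t⁻¹ • J m t) (t⁻¹ • J m t)) (𝓝[>] 0)
        (𝓝 (g.ip m w w)) := by
      have h4 := (isBoundedBilinearMap_apply.continuous.tendsto (g.ip m, w)).comp
        (h2.prodMk_nhds h1)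
      exact (isBoundedBilinearMap_apply.continuous.tendsto (g.ip m w, w)).comp
        (h4.prodMk_nhds h1)
    refine h3.congr' ?_
    filter_upwards [self_mem_nhdsWithin, (eventually_mem_source hgeo.continuous.continuousAt
      hm0).filter_mono nhdsWithin_le_nhds] with t ht hs
    have ht' : t ≠ 0 := ne_of_gt ht
    have h4 : f t = g.coef m (cc γ m t) (J m t) (J m t) := prodF_eq g hJ.compat' hJ.compat' hs
    rw [h4]
    simp only [map_smul, smul_apply, smul_eq_mul]
    field_simp
  have hlim2 : Tendsto (fun t => f t / sk κ t ^ 2) (𝓝[>] 0) (𝓝 (g.ip m w w)) := by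
    have h1 := ((tendsto_sk_div hκ).inv₀ one_ne_zero).pow 2
    have h2 := hlim.mul h1
    simp only [inv_one, one_pow, mul_one] at h2
    refine h2.congr' ?_
    filter_upwards [self_mem_nhdsWithin] with t ht
    have ht' : (0 : ℝ) < t := ht
    have h5 := sk_pos hκ ht'
    field_simp
  have hlim1 : Tendsto (fun t => deriv f t - 2 * (f t * ck κ t)) (𝓝[>] 0) (𝓝 0) := by
    have h1 : Tendsto (deriv f) (𝓝[>] 0) (𝓝 0) := by
      have h2 : ContinuousAt (deriv f) 0 :=
        (hJ.deriv_sq hgeo (mem_chart_source E (γ 0))).2.continuousAt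
      have h3 : deriv f 0 = 0 := by
        have := (hJ.deriv_sq hgeo hm0).1.deriv
        rw [hJ0] at this
        simpa using this
      have h4 : Tendsto (deriv f) (𝓝[>] 0) (𝓝 (deriv f 0)) :=
        h2.tendsto.mono_left nhdsWithin_le_nhds
      rwa [h3] at h4
    have h2 : Tendsto (fun t => t * (f t / t ^ 2) * (t * ck κ t)) (𝓝[>] 0)
        (𝓝 (0 * g.ip m w w * 1)) := by
      refine Tendsto.mul (Tendsto.mul ?_ hlim) (tendsto_mul_ck hκ)
      exact (continuous_id.tendsto 0).mono_left nhdsWithin_le_nhds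
    have h3 := h1.sub (h2.const_mul 2)
    simp only [zero_mul, mul_zero, sub_zero] at h3
    refine h3.congr' ?_
    filter_upwards [self_mem_nhdsWithin] with t ht
    have ht' : t ≠ 0 := ne_of_gt ht
    (clear * - ht'; field_simp)
  -- first monotonicity
  have hmono1 : MonotoneOn (fun t => deriv f t - 2 * (f t * ck κ t)) (Ioi 0) := by
    have key : ∀ t ∈ Ioi (0 : ℝ), ∃ d, 0 ≤ d ∧
        HasDerivAt (fun t => deriv f t - 2 * (f t * ck κ t)) d t := by
      intro t ht
      obtain ⟨f'', h1, h2⟩ := hf2 t ht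
      refine ⟨_, h2, ?_⟩
      have h3 := h1.sub (((hf1 t).mul (hasDerivAt_ck hκ ht)).const_mul 2)
      refine h3.congr_deriv ?_
      ring
    refine monotoneOn_of_deriv_nonneg (convex_Ioi 0) ?_ ?_ ?_
    · intro t ht
      obtain ⟨d, _, hd⟩ := key t ht
      exact hd.continuousAt.continuousWithinAt
    · intro t ht
      rw [interior_Ioi] at ht
      obtain ⟨d, _, hd⟩ := key t ht
      exact hd.differentiableAt.differentiableWithinAt
    · intro t ht
      rw [interior_Ioi] at ht
      obtain ⟨d, hd0, hd⟩ := key t ht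
      rw [hd.deriv]; exact hd0
  have hk0 : ∀ t, 0 < t → 0 ≤ deriv f t - 2 * (f t * ck κ t) := by
    intro t ht
    refine le_of_tendsto hlim1 ?_
    filter_upwards [Ioo_mem_nhdsGT ht] with s hs
    exact hmono1 hs.1 ht hs.2.le
  have hmono2 : MonotoneOn (fun t => f t / sk κ t ^ 2) (Ioi 0) := by
    have key : ∀ t ∈ Ioi (0 : ℝ), ∃ d, 0 ≤ d ∧
        HasDerivAt (fun t => f t / sk κ t ^ 2) d t := by
      intro t ht
      have hs := sk_pos hκ ht
      refine ⟨(deriv f t - 2 * (f t * ck κ t)) / sk κ t ^ 2, div_nonneg (hk0 t ht)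
        (by positivity), ?_⟩
      have h3 := (hf1 t).div ((hasDerivAt_sk hκ t).pow 2) (pow_ne_zero 2 hs.ne')
      refine h3.congr_deriv ?_
      rw [← sk_mul_ck hκ ht]
      simp only [Nat.cast_ofNat, Pi.pow_apply, pow_one, show (2 : ℕ) - 1 = 1 from rfl]
      field_simp
    refine monotoneOn_of_deriv_nonneg (convex_Ioi 0) ?_ ?_ ?_
    · intro t ht
      obtain ⟨d, _, hd⟩ := key t ht
      exact hd.continuousAt.continuousWithinAt
    · intro t ht
      rw [interior_Ioi] at ht
      obtain ⟨d, _, hd⟩ := key t ht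
      exact hd.differentiableAt.differentiableWithinAt
    · intro t ht
      rw [interior_Ioi] at ht
      obtain ⟨d, hd0, hd⟩ := key t ht
      rw [hd.deriv]; exact hd0
  have hfin : g.ip m w w ≤ f 1 / sk κ 1 ^ 2 := by
    refine le_of_tendsto hlim2 ?_
    filter_upwards [Ioo_mem_nhdsGT (zero_lt_one (α := ℝ))] with s hs
    exact hmono2 hs.1 (mem_Ioi.2 zero_lt_one) hs.2.le
  have hs1 := sk_pos hκ zero_lt_one
  rw [le_div_iff₀ (by positivity)] at hfin
  have ha1 : γ 1 ∈ (chartAt E a).source := by simpa only [hγ, one_smul] using ha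
  have h1 : f 1 = g.coef a (cc γ a 1) (J a 1) (J a 1) := prodF_eq g hJ.compat' hJ.compat' ha1
  rw [h1] at hfin
  simpa only [ge_iff_le, cc, hγ, one_smul, hJd, map_smul] using hfin

/-! ### the uniform curvature bound -/

theorem curv_smul₂₃ {G : E → E →L[ℝ] E →L[ℝ] ℝ} {U : Set E} (h : IsMetricOn G U) {u : E}
    (hu : u ∈ U) (c d : ℝ) (v w : E) :
    G u (curv G u (c • v) (d • w) (d • w)) (c • v) = c ^ 2 * d ^ 2 * G u (curv G u v w w) v := by
  rw [h.curv_eq hu, h.curv_eq hu]
  simp only [map_smul, map_sub, map_add, smul_apply, sub_apply, add_apply, smul_eq_mul]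
  ring

theorem continuousOn_curvF {G : E → E →L[ℝ] E →L[ℝ] ℝ} {U : Set E} (h : IsMetricOn G U) :
    ContinuousOn (fun p : E × E × E => G p.1 (curv G p.1 p.2.1 p.2.2 p.2.2) p.2.1)
      (U ×ˢ univ) := by
  have h1 : ContinuousOn (fun p : E × E × E => G p.1) (U ×ˢ univ) :=
    h.smooth.continuousOn.comp continuousOn_fst fun p hp => hp.1
  have h2 : ContinuousOn (fun p : E × E × E => chrisB G p.1) (U ×ˢ univ) := by
    have : ContinuousOn (chrisB G) U := fun u hu => (h.contDiffAt_chrisB hu).continuousAt.continuousWithinAt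
    exact this.comp continuousOn_fst fun p hp => hp.1
  have h3 : ContinuousOn (fun p : E × E × E => fderiv ℝ (chrisB G) p.1) (U ×ˢ univ) := by
    have : ContinuousOn (fderiv ℝ (chrisB G)) U := fun u hu =>
      ((h.contDiffAt_chrisB hu).fderiv_right (m := 0) (by simp)).continuousAt.continuousWithinAt
    exact this.comp continuousOn_fst fun p hp => hp.1
  have h4 : ContinuousOn (fun p : E × E × E => p.2.1) (U ×ˢ univ) := by fun_prop
  have h5 : ContinuousOn (fun p : E × E × E => p.2.2) (U ×ˢ univ) := by fun_prop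
  have key : ContinuousOn (fun p : E × E × E => G p.1
      (fderiv ℝ (chrisB G) p.1 p.2.1 p.2.2 p.2.2 - fderiv ℝ (chrisB G) p.1 p.2.2 p.2.1 p.2.2
      + chrisB G p.1 p.2.1 (chrisB G p.1 p.2.2 p.2.2)
      - chrisB G p.1 p.2.2 (chrisB G p.1 p.2.1 p.2.2)) p.2.1) (U ×ˢ univ) := by
    refine (h1.clm_apply ?_).clm_apply h4
    refine ContinuousOn.sub (ContinuousOn.add (ContinuousOn.sub ?_ ?_) ?_) ?_
    · exact ((h3.clm_apply h4).clm_apply h5).clm_apply h5
    · exact ((h3.clm_apply h5).clm_apply h4).clm_apply h5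
    · exact (h2.clm_apply h4).clm_apply ((h2.clm_apply h5).clm_apply h5)
    · exact (h2.clm_apply h5).clm_apply ((h2.clm_apply h4).clm_apply h5)
  refine key.congr ?_
  intro p hp
  simp only
  rw [h.curv_eq hp.1]

/-- the local bound -/
theorem exists_local_bound {G : E → E →L[ℝ] E →L[ℝ] ℝ} {U : Set E} (h : IsMetricOn G U)
    (hneg : ∀ u ∈ U, ∀ v w : E, v ≠ 0 → w ≠ 0 → G u v w = 0 → G u (curv G u v w w) v < 0)
    {u₀ : E} (hu₀ : u₀ ∈ U) :
    ∃ k > 0, ∀ᶠ u in 𝓝 u₀, u ∈ U ∧ ∀ v w : E, G u v w = 0 →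
      G u (curv G u v w w) v ≤ -(k * (G u v v * G u w w)) := by
  obtain ⟨c, hc, hlow⟩ := h.lower_bound hu₀
  obtain ⟨r, hr, hball⟩ := Metric.eventually_nhds_iff_ball.1
    (hlow.and (h.isOpen.mem_nhds hu₀))
  set K := Metric.closedBall u₀ (r / 2) with hK
  have hKr : K ⊆ Metric.ball u₀ r := Metric.closedBall_subset_ball (by linarith)
  have hKU : K ⊆ U := fun u hu => (hball u (hKr hu)).2
  have hKc : IsCompact K := isCompact_closedBall _ _
  set ρ := Real.sqrt (1 / c) with hρ
  set B := Metric.closedBall (0 : E) ρ with hB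
  have hBc : IsCompact B := isCompact_closedBall _ _
  have hG : ContinuousOn (fun p : E × E × E => G p.1) (K ×ˢ (B ×ˢ B)) :=
    (h.smooth.continuousOn.mono hKU).comp continuousOn_fst fun p hp => hp.1
  have h4 : ContinuousOn (fun p : E × E × E => p.2.1) (K ×ˢ (B ×ˢ B)) := by fun_prop
  have h5 : ContinuousOn (fun p : E × E × E => p.2.2) (K ×ˢ (B ×ˢ B)) := by fun_prop
  have c1 : ContinuousOn (fun p : E × E × E =>
      (G p.1 p.2.1 p.2.1, G p.1 p.2.2 p.2.2, G p.1 p.2.1 p.2.2)) (K ×ˢ (B ×ˢ B)) :=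
    ((hG.clm_apply h4).clm_apply h4).prodMk (((hG.clm_apply h5).clm_apply h5).prodMk
      ((hG.clm_apply h4).clm_apply h5))
  set S : Set (E × E × E) := (K ×ˢ (B ×ˢ B)) ∩ (fun p : E × E × E =>
      (G p.1 p.2.1 p.2.1, G p.1 p.2.2 p.2.2, G p.1 p.2.1 p.2.2)) ⁻¹' {((1 : ℝ), (1 : ℝ), (0 : ℝ))}
    with hS
  have hSc : IsCompact S := by
    have h6 : IsCompact (K ×ˢ (B ×ˢ B)) := hKc.prod (hBc.prod hBc)
    have h7 : IsClosed S := c1.preimage_isClosed_of_isClosed h6.isClosed isClosed_singleton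
    exact h6.of_isClosed_subset h7 inter_subset_left
  have hcont : ContinuousOn (fun p : E × E × E => G p.1 (curv G p.1 p.2.1 p.2.2 p.2.2) p.2.1) S :=
    (continuousOn_curvF h).mono fun p hp => ⟨hKU hp.1.1, mem_univ _⟩
  obtain ⟨k, hk, hkS⟩ : ∃ k > 0, ∀ p ∈ S,
      G p.1 (curv G p.1 p.2.1 p.2.2 p.2.2) p.2.1 ≤ -k := by
    rcases S.eq_empty_or_nonempty with h6 | h6
    · exact ⟨1, one_pos, fun p hp => absurd hp (by rw [h6]; exact notMem_empty p)⟩
    · obtain ⟨p₀, hp₀, hmax⟩ := hSc.exists_isMaxOn h6 hcont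
      have e1 := hp₀.2
      simp only [mem_preimage, mem_singleton_iff, Prod.mk.injEq] at e1
      have hv : p₀.2.1 ≠ 0 := by
        intro h0
        rw [h0] at e1
        simp at e1
      have hw : p₀.2.2 ≠ 0 := by
        intro h0
        rw [h0] at e1
        simp at e1
      have h7 := hneg p₀.1 (hKU hp₀.1.1) p₀.2.1 p₀.2.2 hv hw e1.2.2
      refine ⟨-(G p₀.1 (curv G p₀.1 p₀.2.1 p₀.2.2 p₀.2.2) p₀.2.1), by linarith, fun p hp => ?_⟩
      have := hmax hp
      simp only [mem_ofPred_eq] at this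
      linarith
  refine ⟨k, hk, ?_⟩
  filter_upwards [Metric.closedBall_mem_nhds u₀ (half_pos hr)] with u hu
  have huU := hKU hu
  refine ⟨huU, fun v w hvw => ?_⟩
  rcases eq_or_ne v 0 with rfl | hv
  · simp
  rcases eq_or_ne w 0 with rfl | hw
  · have h6 := curv_smul₂₃ h huU 1 0 v 0
    simp only [one_smul, smul_zero] at h6
    have h7 : (0 : ℝ) ^ 2 = 0 := by norm_num
    rw [h7, mul_zero, zero_mul] at h6
    rw [h6]; simp
  have hvp := h.pos u huU v hv
  have hwp := h.pos u huU w hw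
  have hsv := Real.sqrt_pos.2 hvp
  have hsw := Real.sqrt_pos.2 hwp
  have hsv2 := Real.mul_self_sqrt hvp.le
  have hsw2 := Real.mul_self_sqrt hwp.le
  set α := Real.sqrt (G u v v) with hα
  set β := Real.sqrt (G u w w) with hβ
  have n1 : G u (α⁻¹ • v) (α⁻¹ • v) = 1 := by
    simp only [map_smul, smul_apply, smul_eq_mul]
    rw [← hsv2]; field_simp
  have n2 : G u (β⁻¹ • w) (β⁻¹ • w) = 1 := by
    simp only [map_smul, smul_apply, smul_eq_mul]
    rw [← hsw2]; field_simp
  have n3 : G u (α⁻¹ • v) (β⁻¹ • w) = 0 := by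
    simp only [map_smul, smul_apply, smul_eq_mul, hvw, mul_zero]
  have inB : ∀ z : E, G u z z = 1 → z ∈ B := by
    intro z hz
    rw [hB, mem_closedBall_zero_iff]
    apply Real.le_sqrt_of_sq_le
    rw [le_div_iff₀ hc]
    have := (hball u (hKr hu)).1 z
    linarith
  have hmem : ((u, (α⁻¹ • v, β⁻¹ • w)) : E × E × E) ∈ S := by
    refine ⟨⟨hu, inB _ n1, inB _ n2⟩, ?_⟩
    simp only [mem_preimage, mem_singleton_iff, n1, n2, n3]
  have h8 := hkS _ hmem
  have h9 : G u (curv G u v w w) v = α ^ 2 * β ^ 2 *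
      G u (curv G u (α⁻¹ • v) (β⁻¹ • w) (β⁻¹ • w)) (α⁻¹ • v) := by
    rw [curv_smul₂₃ h huU]
    field_simp
  rw [h9, ← hsv2, ← hsw2]
  have h10 : 0 < α ^ 2 * β ^ 2 := by positivity
  have h11 := mul_le_mul_of_nonneg_left h8 h10.le
  linarith only [h11]

omit [IsManifold 𝓘(ℝ, E) ∞ M] in
/-- the uniform bound -/
theorem exists_curvLE [CompactSpace M] (g : Metric E M)
    (hneg : ∀ a, ∀ u ∈ (chartAt E a).target, ∀ v w : E, v ≠ 0 → w ≠ 0 → g.coef a u v w = 0 →
      g.coef a u (curv (g.coef a) u v w w) v < 0) : ∃ k > 0, CurvLE g (k ^ 2) := by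
  have key : ∃ k > 0, ∀ x ∈ (univ : Set M), ∃ b : M, x ∈ (chartAt E b).source ∧ ∀ v w : E,
    g.coef b (chartAt E b x) v w = 0 →
      g.coef b (chartAt E b x) (curv (g.coef b) (chartAt E b x) v w w) v ≤
        -(k * (g.coef b (chartAt E b x) v v * g.coef b (chartAt E b x) w w)) := by
    refine isCompact_univ.induction_on (p := fun s => ∃ k > 0, ∀ x ∈ s, ∃ b : M,
      x ∈ (chartAt E b).source ∧ ∀ v w : E, g.coef b (chartAt E b x) v w = 0 →
      g.coef b (chartAt E b x) (curv (g.coef b) (chartAt E b x) v w w) v ≤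
        -(k * (g.coef b (chartAt E b x) v v * g.coef b (chartAt E b x) w w))) ?_ ?_ ?_ ?_
    · exact ⟨1, one_pos, fun x hx => absurd hx (notMem_empty x)⟩
    · rintro s t hst ⟨k, hk, h⟩
      exact ⟨k, hk, fun x hx => h x (hst hx)⟩
    · rintro s t ⟨k, hk, h⟩ ⟨k', hk', h'⟩
      refine ⟨min k k', lt_min hk hk', ?_⟩
      have mono : ∀ (l : ℝ), min k k' ≤ l → ∀ x : M, (∃ b : M,
          x ∈ (chartAt E b).source ∧ ∀ v w : E, g.coef b (chartAt E b x) v w = 0 →
          g.coef b (chartAt E b x) (curv (g.coef b) (chartAt E b x) v w w) v ≤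
          -(l * (g.coef b (chartAt E b x) v v * g.coef b (chartAt E b x) w w))) → (∃ b : M,
          x ∈ (chartAt E b).source ∧ ∀ v w : E, g.coef b (chartAt E b x) v w = 0 →
          g.coef b (chartAt E b x) (curv (g.coef b) (chartAt E b x) v w w) v ≤
          -(min k k' * (g.coef b (chartAt E b x) v v * g.coef b (chartAt E b x) w w))) := by
        rintro l hl x ⟨b, hb, hvw⟩
        refine ⟨b, hb, fun v w h0 => (hvw v w h0).trans ?_⟩
        have hm := g.isMetricOn' b
        have hub := (chartAt E b).map_source hb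
        exact neg_le_neg (mul_le_mul_of_nonneg_right hl
          (mul_nonneg (hm.nonneg hub v) (hm.nonneg hub w)))
      rintro x (hx | hx)
      · exact mono k (min_le_left _ _) x (h x hx)
      · exact mono k' (min_le_right _ _) x (h' x hx)
    · intro x _
      obtain ⟨k, hk, hev⟩ := exists_local_bound (g.isMetricOn' x) (hneg x) (mem_chart_target E x)
      have hev2 : ∀ᶠ y in 𝓝 x, y ∈ (chartAt E x).source ∧ ∀ v w : E,
          g.coef x (chartAt E x y) v w = 0 →
          g.coef x (chartAt E x y) (curv (g.coef x) (chartAt E x y) v w w) v ≤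
          -(k * (g.coef x (chartAt E x y) v v * g.coef x (chartAt E x y) w w)) := by
        have h1 := ((chartAt E x).continuousAt (mem_chart_source E x)).eventually hev
        filter_upwards [h1, (chartAt E x).open_source.mem_nhds (mem_chart_source E x)] with y h2 h3
        exact ⟨h3, h2.2⟩
      exact ⟨_, mem_nhdsWithin_of_mem_nhds hev2, k, hk, fun y hy => ⟨x, hy⟩⟩
  obtain ⟨k, hk, h⟩ := key
  refine ⟨Real.sqrt k, Real.sqrt_pos.2 hk, ?_⟩
  rw [Real.sq_sqrt hk.le]
  exact fun x => h x (mem_univ x)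

end General

variable {n : ℕ} {M : Type} [TopologicalSpace M] [ChartedSpace (EV n) M]
  [IsManifold 𝓘(ℝ, EV n) ∞ M]

theorem curv_neg {g : RMetric (EV n) M} (h : NegCurvature g) {a : M} {u : EV n}
    (hu : u ∈ (chartAt (EV n) a).target) {v w : EV n} (hvw : LinearIndependent ℝ ![v, w]) :
    (mt g).coef a u (curv ((mt g).coef a) u v w w) v < 0 := by
  have h1 := h a u hu v w hvw
  have h' : ∀ u ∈ (chartAt (EV n) a).target, ∀ v w, coefIn g a u v w = (mt g).coef a u v w :=
    fun u _ v w => rfl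
  rw [riem_eq ((mt g).isMetricOn' a) h' hu] at h1
  exact h1

theorem curv_neg_of_orth {g : RMetric (EV n) M} (h : NegCurvature g) (a : M) (u : EV n)
    (hu : u ∈ (chartAt (EV n) a).target) (v w : EV n) (hv : v ≠ 0) (hw : w ≠ 0)
    (hvw : (mt g).coef a u v w = 0) :
    (mt g).coef a u (curv ((mt g).coef a) u v w w) v < 0 := by
  refine curv_neg h hu ?_
  rw [LinearIndependent.pair_iff]
  intro s t hst
  have hm := (mt g).isMetricOn' a
  have h1 : (mt g).coef a u (s • v + t • w) v = 0 := by rw [hst]; simp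
  have h2 : (mt g).coef a u (s • v + t • w) w = 0 := by rw [hst]; simp
  have h3 : (mt g).coef a u w v = 0 := by rw [hm.symm u hu]; exact hvw
  simp only [map_add, map_smul, add_apply, smul_apply, smul_eq_mul, hvw, h3, mul_zero,
    add_zero, zero_add] at h1 h2
  exact ⟨(mul_eq_zero.1 h1).resolve_right (hm.pos u hu v hv).ne',
    (mul_eq_zero.1 h2).resolve_right (hm.pos u hu w hw).ne'⟩

/-- negative curvature implies nonpositive curvature -/
theorem npc_of_neg {g : RMetric (EV n) M} (h : NegCurvature g) : Npc (mt g) := by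
  intro a u hu v w
  by_cases hvw : LinearIndependent ℝ ![v, w]
  · exact (curv_neg h hu hvw).le
  · have hm := (mt g).isMetricOn' a
    suffices hz : curv ((mt g).coef a) u v w w = 0 by rw [hz]; simp
    rw [LinearIndependent.pair_iff] at hvw
    push Not at hvw
    obtain ⟨s, t, hst, hne⟩ := hvw
    rw [hm.curv_eq hu]
    by_cases hs : s = 0
    · have ht : t ≠ 0 := hne hs
      rw [hs, zero_smul, zero_add] at hst
      have hw : w = 0 := (smul_eq_zero.1 hst).resolve_left ht
      rw [hw]; simp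
    · have hv : v = (-(s⁻¹ * t)) • w := by
        have h1 : v = s⁻¹ • (s • v) := by rw [smul_smul, inv_mul_cancel₀ hs, one_smul]
        rw [h1, eq_neg_of_add_eq_zero_left hst]
        module
      rw [hv]
      simp only [map_smul, smul_apply]
      abel

/-- uniform strict bound of the sectional curvatures of a closed manifold -/
theorem exists_curvLE_of_neg [CompactSpace M] {g : RMetric (EV n) M} (h : NegCurvature g) :
    ∃ k > 0, CurvLE (mt g) (k ^ 2) :=
  exists_curvLE (mt g) (curv_neg_of_orth h)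

end Vale.Agent.P207
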