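import Vale.Agent.P207.BlkD1
import Vale.Agent.P207.BlkP1
import Vale.Agent.P207.Defs2

/-!
# P207, block NC1: negative curvature is stable under small conformal changes
-/

open scoped Manifold ContDiff ENNReal Topology
open Bundle MeasureTheory Set Filter

set_option maxSynthPendingDepth 3

noncomputable section

namespace Vale.Agent.P207

open Vale.Agent.P255

namespace NC1

open D1

section Coord

variable {E : Type} [NormedAddCommGroup E] [NormedSpace ℝ E]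
variable {G : E → E →L[ℝ] E →L[ℝ] ℝ} {U : Set E} {φ : E → ℝ}

/-- the gradient of `φ` -/
def grad (G : E → E →L[ℝ] E →L[ℝ] ℝ) (φ : E → ℝ) (p : E) : E := (G p).inverse (fderiv ℝ φ p)

/-- `(v, w) ↦ dφ(v) w + dφ(w) v - G(v,w) ∇φ`, the derivative of the Christoffel symbols in the
conformal direction `φ` -/
def cC (G : E → E →L[ℝ] E →L[ℝ] ℝ) (φ : E → ℝ) (p : E) : E →L[ℝ] E →L[ℝ] E :=
  ContinuousLinearMap.smulRightL ℝ E (E →L[ℝ] E) (fderiv ℝ φ p) (ContinuousLinearMap.id ℝ E) +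
    (ContinuousLinearMap.smulRightL ℝ E (E →L[ℝ] E) (fderiv ℝ φ p)
      (ContinuousLinearMap.id ℝ E)).flip -
    ((ContinuousLinearMap.smulRightL ℝ E E).flip (grad G φ p)) ∘L (G p)

theorem cC_apply (p v w : E) : cC G φ p v w =
    fderiv ℝ φ p v • w + fderiv ℝ φ p w • v - G p v w • grad G φ p := by
  simp [cC]

variable [FiniteDimensional ℝ E]

theorem grad_spec (h : IsMetricOn G U) {p : E} (hp : p ∈ U) (z : E) :
    G p (grad G φ p) z = fderiv ℝ φ p z := by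
  unfold grad
  rw [(h.isInvertible hp).self_apply_inverse]

theorem contDiffAt_cC (h : IsMetricOn G U) {p : E} (hp : p ∈ U) (hφ : ContDiffAt ℝ ∞ φ p) :
    ContDiffAt ℝ ∞ (cC G φ) p := by
  have h0 : ContDiffAt ℝ ∞ (fderiv ℝ φ) p := hφ.fderiv_right (m := ∞) (by simp)
  have h1 : ContDiffAt ℝ ∞ (fun p => ContinuousLinearMap.smulRightL ℝ E (E →L[ℝ] E)
      (fderiv ℝ φ p) (ContinuousLinearMap.id ℝ E)) p :=
    (((ContinuousLinearMap.smulRightL ℝ E (E →L[ℝ] E)).contDiff.contDiffAt).comp p h0).clm_apply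
      contDiffAt_const
  have h2 : ContDiffAt ℝ ∞ (fun p => (ContinuousLinearMap.smulRightL ℝ E (E →L[ℝ] E)
      (fderiv ℝ φ p) (ContinuousLinearMap.id ℝ E)).flip) p :=
    ((ContinuousLinearMap.flipₗᵢ ℝ E E E).toContinuousLinearEquiv.contDiff.contDiffAt).comp p h1
  have h3 : ContDiffAt ℝ ∞ (grad G φ) p :=
    (((h.isInvertible hp).contDiffAt_map_inverse).comp p (h.contDiffAt hp)).clm_apply h0
  have h4 : ContDiffAt ℝ ∞ (fun p => ((ContinuousLinearMap.smulRightL ℝ E E).flip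
      (grad G φ p)) ∘L (G p)) p :=
    (((ContinuousLinearMap.smulRightL ℝ E E).flip.contDiff.contDiffAt).comp p h3).clm_comp
      (h.contDiffAt hp)
  exact (h1.add h2).sub h4

/-- the Christoffel symbols of a conformal metric -/
theorem chrisB_conf (h : IsMetricOn G U) {G' : E → E →L[ℝ] E →L[ℝ] ℝ} (h' : IsMetricOn G' U)
    {t : ℝ} (hG' : ∀ p ∈ U, G' p = Real.exp (2 * (t * φ p)) • G p) {p : E} (hp : p ∈ U)
    (hφ : ContDiffAt ℝ ∞ φ p) : chrisB G' p = chrisB G p + t • cC G φ p := by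
  have hd : HasFDerivAt φ (fderiv ℝ φ p) p := (hφ.differentiableAt (by simp)).hasFDerivAt
  have hG : HasFDerivAt G (fderiv ℝ G p) p := (h.differentiableAt hp).hasFDerivAt
  have he : HasFDerivAt (fun q => Real.exp (2 * (t * φ q)))
      (Real.exp (2 * (t * φ p)) • ((2 : ℝ) • (t • fderiv ℝ φ p))) p :=
    ((hd.const_mul t).const_mul 2).exp
  have hG2 := he.smul hG
  have hev : G' =ᶠ[𝓝 p] fun q => Real.exp (2 * (t * φ q)) • G q := by
    filter_upwards [h.mem_nhds hp] with q hq using hG' q hq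
  have hf : fderiv ℝ G' p = _ := (hG2.congr_of_eventuallyEq hev).fderiv
  have hf' : ∀ x y z, fderiv ℝ G' p x y z = Real.exp (2 * (t * φ p)) *
      (fderiv ℝ G p x y z + 2 * t * fderiv ℝ φ p x * G p y z) := by
    intro x y z
    rw [hf]
    simp only [add_apply, smul_apply, ContinuousLinearMap.smulRight_apply, smul_eq_mul]
    ring
  ext v w
  rw [chrisB_apply]
  apply h'.ext_of hp
  intro z
  rw [h'.chris_spec hp, hf', hf', hf', hG' p hp]
  simp only [add_apply, smul_apply, map_add, map_smul, smul_eq_mul, cC_apply, map_sub, sub_apply,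
    chrisB_apply, h.chris_spec hp, grad_spec h hp]
  rw [h.symm p hp w z, h.symm p hp v z, h.symm p hp v w, h.symm p hp w v]
  ring

/-- the curvature of a conformal metric -/
theorem curvT_conf (h : IsMetricOn G U) {G' : E → E →L[ℝ] E →L[ℝ] ℝ} (h' : IsMetricOn G' U)
    {t : ℝ} (hG' : ∀ p ∈ U, G' p = Real.exp (2 * (t * φ p)) • G p) {p : E} (hp : p ∈ U)
    (hφ : ∀ q ∈ U, ContDiffAt ℝ ∞ φ q) (x y z : E) :
    curvT G' p x y z = curvT G p x y z
      + t • (fderiv ℝ (cC G φ) p x y z - fderiv ℝ (cC G φ) p y x z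
        + chrisB G p x (cC G φ p y z) + cC G φ p x (chrisB G p y z)
        - chrisB G p y (cC G φ p x z) - cC G φ p y (chrisB G p x z))
      + t ^ 2 • (cC G φ p x (cC G φ p y z) - cC G φ p y (cC G φ p x z)) := by
  have hB : ∀ q ∈ U, chrisB G' q = chrisB G q + t • cC G φ q := fun q hq =>
    chrisB_conf h h' hG' hq (hφ q hq)
  have hev : chrisB G' =ᶠ[𝓝 p] fun q => chrisB G q + t • cC G φ q := by
    filter_upwards [h.mem_nhds hp] with q hq using hB q hq
  have h1 : HasFDerivAt (chrisB G) (fderiv ℝ (chrisB G) p) p :=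
    (h.differentiableAt_chrisB hp).hasFDerivAt
  have h2 : HasFDerivAt (cC G φ) (fderiv ℝ (cC G φ) p) p :=
    ((contDiffAt_cC h hp (hφ p hp)).differentiableAt (by simp)).hasFDerivAt
  have h3 : fderiv ℝ (chrisB G') p = fderiv ℝ (chrisB G) p + t • fderiv ℝ (cC G φ) p := by
    rw [hev.fderiv_eq]
    exact (h1.add (h2.const_smul t)).fderiv
  rw [curvT_apply h' hp, curvT_apply h hp, h'.curv_eq hp, h.curv_eq hp, h3, hB p hp]
  simp only [add_apply, smul_apply, map_add, map_smul, smul_add, smul_sub, smul_smul]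
  rw [show t ^ 2 = t * t by ring]
  abel

/-- bound of the first and second order terms -/
def nb1 (G : E → E →L[ℝ] E →L[ℝ] ℝ) (φ : E → ℝ) (p : E) : ℝ :=
  ‖G p‖ * (2 * ‖fderiv ℝ (cC G φ) p‖ + 4 * (‖chrisB G p‖ * ‖cC G φ p‖) + 2 * ‖cC G φ p‖ ^ 2)

omit [FiniteDimensional ℝ E] in
theorem norm_tri (D : E →L[ℝ] E →L[ℝ] E →L[ℝ] E) (x y z : E) :
    ‖D x y z‖ ≤ ‖D‖ * ‖x‖ * ‖y‖ * ‖z‖ := by
  refine ((D x y).le_opNorm z).trans (mul_le_mul_of_nonneg_right ?_ (norm_nonneg z))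
  exact D.le_opNorm₂ x y

omit [FiniteDimensional ℝ E] in
theorem norm_comp2 (B C : E →L[ℝ] E →L[ℝ] E) (x y z : E) :
    ‖B x (C y z)‖ ≤ (‖B‖ * ‖C‖) * (‖x‖ * ‖y‖ * ‖z‖) := by
  calc ‖B x (C y z)‖ ≤ ‖B‖ * ‖x‖ * ‖C y z‖ := B.le_opNorm₂ x _
    _ ≤ ‖B‖ * ‖x‖ * (‖C‖ * ‖y‖ * ‖z‖) := by
        gcongr
        exact C.le_opNorm₂ y z
    _ = _ := by ring

theorem abs_sub_le (h : IsMetricOn G U) {G' : E → E →L[ℝ] E →L[ℝ] ℝ} (h' : IsMetricOn G' U)
    {t : ℝ} (ht : |t| ≤ 1) (hG' : ∀ p ∈ U, G' p = Real.exp (2 * (t * φ p)) • G p) {p : E}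
    (hp : p ∈ U) (hφ : ∀ q ∈ U, ContDiffAt ℝ ∞ φ q) (v w : E) :
    G p (curvT G' p v w w) v ≤ G p (curvT G p v w w) v + |t| * nb1 G φ p * (‖v‖ ^ 2 * ‖w‖ ^ 2) := by
  set A : E := fderiv ℝ (cC G φ) p v w w - fderiv ℝ (cC G φ) p w v w
        + chrisB G p v (cC G φ p w w) + cC G φ p v (chrisB G p w w)
        - chrisB G p w (cC G φ p v w) - cC G φ p w (chrisB G p v w) with hA
  set B : E := cC G φ p v (cC G φ p w w) - cC G φ p w (cC G φ p v w) with hB
  rw [curvT_conf h h' hG' hp hφ v w w]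
  have e1 : G p (curvT G p v w w + t • A + t ^ 2 • B) v =
      G p (curvT G p v w w) v + (t * G p A v + t ^ 2 * G p B v) := by
    simp only [map_add, map_smul, add_apply, smul_apply, smul_eq_mul]
    ring
  have nA : ‖A‖ ≤ (2 * ‖fderiv ℝ (cC G φ) p‖ + 4 * (‖chrisB G p‖ * ‖cC G φ p‖)) *
      (‖v‖ * ‖w‖ ^ 2) := by
    have a1 := norm_tri (fderiv ℝ (cC G φ) p) v w w
    have a2 := norm_tri (fderiv ℝ (cC G φ) p) w v w
    have a3 := norm_comp2 (chrisB G p) (cC G φ p) v w w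
    have a4 := norm_comp2 (cC G φ p) (chrisB G p) v w w
    have a5 := norm_comp2 (chrisB G p) (cC G φ p) w v w
    have a6 := norm_comp2 (cC G φ p) (chrisB G p) w v w
    have b1 := norm_sub_le (fderiv ℝ (cC G φ) p v w w - fderiv ℝ (cC G φ) p w v w
        + chrisB G p v (cC G φ p w w) + cC G φ p v (chrisB G p w w)
        - chrisB G p w (cC G φ p v w)) (cC G φ p w (chrisB G p v w))
    have b2 := norm_sub_le (fderiv ℝ (cC G φ) p v w w - fderiv ℝ (cC G φ) p w v w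
        + chrisB G p v (cC G φ p w w) + cC G φ p v (chrisB G p w w))
        (chrisB G p w (cC G φ p v w))
    have b3 := norm_add_le (fderiv ℝ (cC G φ) p v w w - fderiv ℝ (cC G φ) p w v w
        + chrisB G p v (cC G φ p w w)) (cC G φ p v (chrisB G p w w))
    have b4 := norm_add_le (fderiv ℝ (cC G φ) p v w w - fderiv ℝ (cC G φ) p w v w)
        (chrisB G p v (cC G φ p w w))
    have b5 := norm_sub_le (fderiv ℝ (cC G φ) p v w w) (fderiv ℝ (cC G φ) p w v w)
    rw [hA]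
    nlinarith only [a1, a2, a3, a4, a5, a6, b1, b2, b3, b4, b5]
  have nB : ‖B‖ ≤ (2 * ‖cC G φ p‖ ^ 2) * (‖v‖ * ‖w‖ ^ 2) := by
    have a1 := norm_comp2 (cC G φ p) (cC G φ p) v w w
    have a2 := norm_comp2 (cC G φ p) (cC G φ p) w v w
    have b1 := norm_sub_le (cC G φ p v (cC G φ p w w)) (cC G φ p w (cC G φ p v w))
    rw [hB]
    nlinarith only [a1, a2, b1]
  have gA : |G p A v| ≤ ‖G p‖ * ‖A‖ * ‖v‖ := (G p).le_opNorm₂ A v
  have gB : |G p B v| ≤ ‖G p‖ * ‖B‖ * ‖v‖ := (G p).le_opNorm₂ B v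
  have c1 : t * G p A v ≤ |t| * (‖G p‖ * ‖A‖ * ‖v‖) :=
    (le_abs_self _).trans (by rw [abs_mul]; gcongr)
  have c2 : t ^ 2 * G p B v ≤ |t| * (‖G p‖ * ‖B‖ * ‖v‖) := by
    refine (le_abs_self _).trans ?_
    rw [abs_mul, abs_pow, pow_two, mul_assoc]
    refine mul_le_mul_of_nonneg_left ?_ (abs_nonneg t)
    calc |t| * |G p B v| ≤ 1 * |G p B v| := by gcongr
      _ ≤ _ := by rw [one_mul]; exact gB
  have c3 : ‖G p‖ * ‖A‖ * ‖v‖ ≤ ‖G p‖ * ((2 * ‖fderiv ℝ (cC G φ) p‖ +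
      4 * (‖chrisB G p‖ * ‖cC G φ p‖)) * (‖v‖ * ‖w‖ ^ 2)) * ‖v‖ := by gcongr
  have c4 : ‖G p‖ * ‖B‖ * ‖v‖ ≤ ‖G p‖ * ((2 * ‖cC G φ p‖ ^ 2) * (‖v‖ * ‖w‖ ^ 2)) * ‖v‖ := by
    gcongr
  have c5 := mul_le_mul_of_nonneg_left c3 (abs_nonneg t)
  have c6 := mul_le_mul_of_nonneg_left c4 (abs_nonneg t)
  rw [e1]
  refine add_le_add_right ?_ _
  calc t * G p A v + t ^ 2 * G p B v ≤ _ := add_le_add (c1.trans c5) (c2.trans c6)
    _ = _ := by unfold nb1; ring

/-- the local statement -/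
theorem exists_local (h : IsMetricOn G U) (hφ : ∀ q ∈ U, ContDiffAt ℝ ∞ φ q)
    (hneg : ∀ u ∈ U, ∀ v w : E, v ≠ 0 → w ≠ 0 → G u v w = 0 → G u (curv G u v w w) v < 0)
    {u₀ : E} (hu₀ : u₀ ∈ U) :
    ∃ δ > 0, ∀ᶠ u in 𝓝 u₀, ∀ t : ℝ, |t| < δ → ∀ G' : E → E →L[ℝ] E →L[ℝ] ℝ, IsMetricOn G' U →
      (∀ p ∈ U, G' p = Real.exp (2 * (t * φ p)) • G p) →
      ∀ v w : E, LinearIndependent ℝ ![v, w] → G' u (curvT G' u v w w) v < 0 := by
  obtain ⟨k, hk, hev⟩ := exists_local_bound h hneg hu₀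
  obtain ⟨c, hc, hlow⟩ := h.lower_bound hu₀
  have hN : ContinuousAt (nb1 G φ) u₀ := by
    have h0 : ContinuousAt G u₀ := (h.contDiffAt hu₀).continuousAt
    have h1 := contDiffAt_cC h hu₀ (hφ u₀ hu₀)
    have h2 : ContinuousAt (fderiv ℝ (cC G φ)) u₀ :=
      (h1.fderiv_right (m := ∞) (by simp)).continuousAt
    have h3 : ContinuousAt (chrisB G) u₀ := (h.contDiffAt_chrisB hu₀).continuousAt
    have h4 := h1.continuousAt
    unfold nb1
    exact h0.norm.mul (((h2.norm.const_mul 2).add ((h3.norm.mul h4.norm).const_mul 4)).add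
      ((h4.norm.pow 2).const_mul 2))
  have hN' : ∀ᶠ u in 𝓝 u₀, nb1 G φ u < nb1 G φ u₀ + 1 :=
    hN.eventually_lt continuousAt_const (by linarith)
  have hN0 : 0 ≤ nb1 G φ u₀ := by unfold nb1; positivity
  set N := nb1 G φ u₀ + 1 with hNd
  have hNp : 0 < N := by linarith
  refine ⟨min 1 (k * c ^ 2 / N), lt_min one_pos (by positivity), ?_⟩
  filter_upwards [hev, hlow, hN', h.mem_nhds hu₀] with u hu1 hu2 hu3 hu t ht G' h' hG' v w hvw
  have ht1 : |t| ≤ 1 := (ht.trans_le (min_le_left _ _)).le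
  have ht2 : |t| * N < k * c ^ 2 := by
    have := ht.trans_le (min_le_right _ _)
    rwa [lt_div_iff₀ hNp] at this
  have hw : w ≠ 0 := by
    have := hvw.ne_zero 1
    simpa using this
  have hww := h.pos u hu w hw
  -- orthogonalisation
  set a : ℝ := G u v w / G u w w with ha
  set v₀ : E := v - a • w with hv₀
  have hv₀w : G u v₀ w = 0 := by
    rw [hv₀]
    simp only [map_sub, map_smul, sub_apply, smul_apply, smul_eq_mul, ha]
    field_simp
    ring
  have hv₀0 : v₀ ≠ 0 := by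
    intro h0
    rw [LinearIndependent.pair_iff] at hvw
    have := (hvw 1 (-a) (by rw [one_smul, neg_smul, ← sub_eq_add_neg]; exact h0)).1
    exact one_ne_zero this
  have hv₀p := h.pos u hu v₀ hv₀0
  have e1 : G' u (curvT G' u v w w) v = G' u (curvT G' u v₀ w w) v₀ := by
    have f1 : v = v₀ + a • w := by rw [hv₀]; abel
    have f2 : curvT G' u w w w = 0 := by
      have h1 := curvT_anti h' hu w w w
      have h2 : (2 : ℝ) • curvT G' u w w w = 0 := by
        rw [two_smul]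
        nth_rewrite 1 [h1]
        exact neg_add_cancel _
      exact (smul_eq_zero.1 h2).resolve_left two_ne_zero
    have f3 : G' u (curvT G' u v₀ w w) w = 0 := by
      have := curvT_skew h' hu v₀ w w w
      linarith
    conv_lhs => rw [f1]
    simp only [map_add, map_smul, add_apply, smul_apply, f2, smul_zero, add_zero, f3,
      smul_eq_mul, mul_zero]
  rw [e1, hG' u hu]
  simp only [smul_apply, smul_eq_mul]
  refine mul_neg_of_pos_of_neg (Real.exp_pos _) ?_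
  have g1 := abs_sub_le h h' ht1 hG' hu hφ v₀ w
  have g2 := hu1.2 v₀ w hv₀w
  rw [← curvT_apply h hu] at g2
  have g3 := hu2 v₀
  have g4 := hu2 w
  have hvn : 0 < ‖v₀‖ := norm_pos_iff.2 hv₀0
  have hwn : 0 < ‖w‖ := norm_pos_iff.2 hw
  have g5 : c ^ 2 * (‖v₀‖ ^ 2 * ‖w‖ ^ 2) ≤ G u v₀ v₀ * G u w w := by
    calc c ^ 2 * (‖v₀‖ ^ 2 * ‖w‖ ^ 2) = (c * ‖v₀‖ ^ 2) * (c * ‖w‖ ^ 2) := by ring
      _ ≤ _ := mul_le_mul g3 g4 (by positivity) hv₀p.le
  have g6 : |t| * nb1 G φ u * (‖v₀‖ ^ 2 * ‖w‖ ^ 2) ≤ |t| * N * (‖v₀‖ ^ 2 * ‖w‖ ^ 2) := by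
    gcongr
  have g7 : |t| * N * (‖v₀‖ ^ 2 * ‖w‖ ^ 2) < k * c ^ 2 * (‖v₀‖ ^ 2 * ‖w‖ ^ 2) :=
    mul_lt_mul_of_pos_right ht2 (by positivity)
  have g8 := mul_le_mul_of_nonneg_left g5 hk.le
  linarith only [g1, g2, g6, g7, g8]

end Coord

section Mfd

variable {n : ℕ} {M : Type} [TopologicalSpace M] [ChartedSpace (EV n) M]
  [IsManifold 𝓘(ℝ, EV n) ∞ M]

/-- a smooth function, read in a chart -/
theorem contDiffAt_chart {u : M → ℝ} (hu : ContMDiff 𝓘(ℝ, EV n) 𝓘(ℝ, ℝ) ∞ u) (a : M)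
    {q : EV n} (hq : q ∈ (chartAt (EV n) a).target) :
    ContDiffAt ℝ ∞ (fun p => u ((chartAt (EV n) a).symm p)) q := by
  have h1 : ContMDiffAt 𝓘(ℝ, EV n) 𝓘(ℝ, EV n) ∞ (chartAt (EV n) a).symm q :=
    (contMDiffOn_chart_symm (I := 𝓘(ℝ, EV n)) (n := ∞) (x := a)).contMDiffAt
      ((chartAt (EV n) a).open_target.mem_nhds hq)
  exact (hu.contMDiffAt.comp q h1).contDiffAt

/-- the coefficients of a conformal metric -/
theorem coef_conf {g g' : RMetric (EV n) M} {u : M → ℝ} (hc : IsConf g g' u) (a : M) (p : EV n) :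
    (mt g').coef a p = Real.exp (2 * u ((chartAt (EV n) a).symm p)) • (mt g).coef a p := by
  ext v w
  exact hc ((chartAt (EV n) a).symm p)
    (mfderiv 𝓘(ℝ, EV n) 𝓘(ℝ, EV n) (chartAt (EV n) a).symm p v)
    (mfderiv 𝓘(ℝ, EV n) 𝓘(ℝ, EV n) (chartAt (EV n) a).symm p w)

/-- the curvature form is invariant under changes of charts -/
theorem curv_chart (g : RMetric (EV n) M) {a b : M} {u : EV n}
    (hu : u ∈ (chartAt (EV n) a).target)
    (hb : (chartAt (EV n) a).symm u ∈ (chartAt (EV n) b).source) (v w : EV n) :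
    (mt g).coef a u (curvT ((mt g).coef a) u v w w) v =
      (mt g).coef b (trans (EV n) a b u)
        (curvT ((mt g).coef b) (trans (EV n) a b u) (fderiv ℝ (trans (EV n) a b) u v)
          (fderiv ℝ (trans (EV n) a b) u w) (fderiv ℝ (trans (EV n) a b) u w))
        (fderiv ℝ (trans (EV n) a b) u v) := by
  have ha := (mt g).isMetricOn' a
  have hb' := (mt g).isMetricOn' b
  have hev : ∀ᶠ x in 𝓝 u, x ∈ (chartAt (EV n) a).target ∧
      (chartAt (EV n) a).symm x ∈ (chartAt (EV n) b).source := by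
    have q1 : ∀ᶠ x in 𝓝 u, x ∈ (chartAt (EV n) a).target := ha.mem_nhds hu
    exact q1.and (((chartAt (EV n) a).continuousAt_symm hu).eventually_mem
      ((chartAt (EV n) b).open_source.mem_nhds hb))
  have h1 := curvT_trans ha hb' hu (τ := trans (EV n) a b)
    (hev.mono fun x hx => (chartAt (EV n) b).map_source hx.2)
    (hev.mono fun x hx => contDiffAt_trans a b hx.1 hx.2)
    (hev.mono fun x hx v w => (mt g).compat a b x hx.1 hx.2 v w) v w w
  rw [← h1]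
  exact ((mt g).compat a b u hu hb _ _).symm

theorem linearIndependent_trans (g : RMetric (EV n) M) {a b : M} {u : EV n}
    (hu : u ∈ (chartAt (EV n) a).target)
    (hb : (chartAt (EV n) a).symm u ∈ (chartAt (EV n) b).source) {v w : EV n}
    (h : LinearIndependent ℝ ![v, w]) :
    LinearIndependent ℝ ![fderiv ℝ (trans (EV n) a b) u v, fderiv ℝ (trans (EV n) a b) u w] := by
  rw [LinearIndependent.pair_iff] at h ⊢
  intro s t hst
  refine h s t ?_
  rw [← map_smul, ← map_smul, ← map_add] at hst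
  apply ((mt g).isMetricOn' a).eq_zero hu
  rw [← (mt g).compat a b u hu hb, hst]
  simp

end Mfd

end NC1

open NC1 D1 in
/-- NC1. negative curvature is stable under small conformal changes -/
theorem exists_neg_conf {n : ℕ} {M : Type} [TopologicalSpace M] [ChartedSpace (EV n) M]
    [IsManifold 𝓘(ℝ, EV n) ∞ M] [CompactSpace M] [T2Space M]
    {g : RMetric (EV n) M} (h : NegCurvature g) {u : M → ℝ}
    (hu : ContMDiff 𝓘(ℝ, EV n) 𝓘(ℝ, ℝ) ∞ u) :
    ∃ δ : ℝ, 0 < δ ∧ ∀ t : ℝ, |t| < δ → ∀ g' : RMetric (EV n) M,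
      IsConf g g' (fun x => t * u x) → NegCurvature g' := by
  have key : ∃ δ > 0, ∀ x ∈ (univ : Set M), ∃ b : M, x ∈ (chartAt (EV n) b).source ∧
      ∀ t : ℝ, |t| < δ → ∀ g' : RMetric (EV n) M, IsConf g g' (fun x => t * u x) →
      ∀ v w : EV n, LinearIndependent ℝ ![v, w] →
        (mt g').coef b (chartAt (EV n) b x)
          (curvT ((mt g').coef b) (chartAt (EV n) b x) v w w) v < 0 := by
    refine isCompact_univ.induction_on (p := fun s => ∃ δ > 0, ∀ x ∈ s, ∃ b : M,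
      x ∈ (chartAt (EV n) b).source ∧
      ∀ t : ℝ, |t| < δ → ∀ g' : RMetric (EV n) M, IsConf g g' (fun x => t * u x) →
      ∀ v w : EV n, LinearIndependent ℝ ![v, w] →
        (mt g').coef b (chartAt (EV n) b x)
          (curvT ((mt g').coef b) (chartAt (EV n) b x) v w w) v < 0) ?_ ?_ ?_ ?_
    · exact ⟨1, one_pos, fun x hx => absurd hx (notMem_empty x)⟩
    · rintro s t hst ⟨δ, hδ, h⟩
      exact ⟨δ, hδ, fun x hx => h x (hst hx)⟩
    · rintro s t ⟨δ, hδ, h⟩ ⟨δ', hδ', h'⟩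
      refine ⟨min δ δ', lt_min hδ hδ', ?_⟩
      rintro x (hx | hx)
      · obtain ⟨b, hb, hb'⟩ := h x hx
        exact ⟨b, hb, fun t ht => hb' t (ht.trans_le (min_le_left _ _))⟩
      · obtain ⟨b, hb, hb'⟩ := h' x hx
        exact ⟨b, hb, fun t ht => hb' t (ht.trans_le (min_le_right _ _))⟩
    · intro x _
      obtain ⟨δ, hδ, hev⟩ := exists_local ((mt g).isMetricOn' x)
        (φ := fun p => u ((chartAt (EV n) x).symm p)) (fun q hq => contDiffAt_chart hu x hq)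
        (curv_neg_of_orth h x) (mem_chart_target (EV n) x)
      have h1 := ((chartAt (EV n) x).continuousAt (mem_chart_source (EV n) x)).eventually hev
      refine ⟨{y | y ∈ (chartAt (EV n) x).source ∧ ∀ t : ℝ, |t| < δ →
        ∀ G' : EV n → EV n →L[ℝ] EV n →L[ℝ] ℝ, IsMetricOn G' (chartAt (EV n) x).target →
        (∀ p ∈ (chartAt (EV n) x).target,
          G' p = Real.exp (2 * (t * u ((chartAt (EV n) x).symm p))) • (mt g).coef x p) →
        ∀ v w : EV n, LinearIndependent ℝ ![v, w] →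
          G' (chartAt (EV n) x y) (curvT G' (chartAt (EV n) x y) v w w) v < 0},
        mem_nhdsWithin_of_mem_nhds ?_, δ, hδ, ?_⟩
      · filter_upwards [h1, (chartAt (EV n) x).open_source.mem_nhds (mem_chart_source (EV n) x)]
          with y h2 h3
        exact ⟨h3, h2⟩
      · rintro y ⟨hy1, hy2⟩
        exact ⟨x, hy1, fun t ht g' hc v w hvw => hy2 t ht ((mt g').coef x)
          ((mt g').isMetricOn' x) (fun p _ => coef_conf hc x p) v w hvw⟩
  obtain ⟨δ, hδ, hkey⟩ := key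
  refine ⟨δ, hδ, fun t ht g' hc a p hp v w hvw => ?_⟩
  rw [riem_mt g' a hp]
  obtain ⟨b, hb, hb'⟩ := hkey ((chartAt (EV n) a).symm p) (mem_univ _)
  have h1 := hb' t ht g' hc _ _ (linearIndependent_trans g' hp hb hvw)
  have h2 := curv_chart g' hp hb v w
  exact h2.trans_lt h1

end Vale.Agent.P207
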