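import Vale.Agent.P207.BlkNC1

/-!
# P207, blocks NC2 and NC3: `e^{2tu} g → g` in `C^∞`, a nonconstant smooth function
-/

open scoped Manifold ContDiff ENNReal Topology
open Bundle MeasureTheory Set Filter

set_option maxSynthPendingDepth 3

noncomputable section

namespace Vale.Agent.P207

open Vale.Agent.P255 (RMetric coefIn Gam Riem IsGeo Metric Npc ExpSys toMetric geo expg cc)

/-- NC3 a nonconstant smooth function -/
theorem exists_nonconst {n : ℕ} (hn : 1 ≤ n) (M : Type) [TopologicalSpace M]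
    [ChartedSpace (EV n) M] [IsManifold 𝓘(ℝ, EV n) ∞ M] [CompactSpace M] [T2Space M]
    [Nonempty M] :
    ∃ u : M → ℝ, ContMDiff 𝓘(ℝ, EV n) 𝓘(ℝ, ℝ) ∞ u ∧ ∃ x y, u x ≠ u y := by
  obtain ⟨x⟩ := (inferInstance : Nonempty M)
  obtain ⟨f⟩ := (inferInstance : Nonempty (SmoothBumpFunction 𝓘(ℝ, EV n) x))
  obtain ⟨e, he⟩ : ∃ e : EV n, ‖e‖ = 1 := ⟨EuclideanSpace.single ⟨0, hn⟩ (1 : ℝ), by simp⟩
  set c := extChartAt 𝓘(ℝ, EV n) x x with hc
  set p : EV n := c + f.rOut • e with hp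
  have hd : dist p c = f.rOut := by
    rw [hp, dist_eq_norm, add_sub_cancel_left, norm_smul, he, mul_one, Real.norm_eq_abs,
      abs_of_pos f.rOut_pos]
  have hpt : p ∈ (extChartAt 𝓘(ℝ, EV n) x).target := by
    apply f.closedBall_subset
    refine ⟨?_, by simp⟩
    rw [Metric.mem_closedBall]
    exact hd.le
  set y := (extChartAt 𝓘(ℝ, EV n) x).symm p with hy
  have hys : y ∈ (chartAt (EV n) x).source := by
    rw [← extChartAt_source 𝓘(ℝ, EV n)]
    exact (extChartAt 𝓘(ℝ, EV n) x).map_target hpt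
  have hfy : f y = 0 := by
    rw [f.eqOn_source hys, Function.comp_apply, hy, (extChartAt 𝓘(ℝ, EV n) x).right_inv hpt]
    exact f.toContDiffBump.zero_of_le_dist hd.ge
  refine ⟨f, f.contMDiff, x, y, ?_⟩
  rw [f.eq_one, hfy]
  exact one_ne_zero

namespace NC2

variable {E : Type} [NormedAddCommGroup E] [NormedSpace ℝ E]

/-- the iterated derivative in the second variable -/
theorem iteratedFDeriv_snd {Φ : ℝ × E → ℝ} {T : Set E} (hT : IsOpen T)
    (h : ContDiffOn ℝ ∞ Φ (univ ×ˢ T)) (l : ℕ) (t : ℝ) {p : E} (hp : p ∈ T) :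
    iteratedFDeriv ℝ l (fun p => Φ (t, p)) p =
      (iteratedFDeriv ℝ l Φ (t, p)).compContinuousLinearMap
        fun _ => ContinuousLinearMap.inr ℝ ℝ E := by
  set g := ContinuousLinearMap.inr ℝ ℝ E with hg
  have hs : IsOpen (univ ×ˢ T : Set (ℝ × E)) := isOpen_univ.prod hT
  have h1 : ContDiffOn ℝ ∞ (fun z : ℝ × E => Φ ((t, 0) + z)) (univ ×ˢ T) := by
    refine h.comp (contDiff_const.add contDiff_id).contDiffOn ?_
    rintro z ⟨-, hz⟩
    exact ⟨mem_univ _, by simpa using hz⟩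
  have h2 : g ⁻¹' (univ ×ˢ T : Set (ℝ × E)) = T := by
    ext z
    simp [hg]
  have h3 := g.iteratedFDerivWithin_comp_right h1 hs.uniqueDiffOn (by rw [h2]; exact hT.uniqueDiffOn)
    (x := p) (by simpa [hg] using hp) (i := l) (by exact_mod_cast le_top)
  rw [h2, iteratedFDerivWithin_of_isOpen l hT hp,
    iteratedFDerivWithin_of_isOpen l hs (by simpa [hg] using hp), iteratedFDeriv_comp_add_left] at h3
  have e1 : (fun z : ℝ × E => Φ ((t, 0) + z)) ∘ g = fun p => Φ (t, p) := by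
    funext z
    simp [hg]
  have e2 : ((t, 0) + g p : ℝ × E) = (t, p) := by simp [hg]
  rw [e1, e2] at h3
  exact h3

theorem continuousOn_iteratedFDeriv_snd {Φ : ℝ × E → ℝ} {T : Set E} (hT : IsOpen T)
    (h : ContDiffOn ℝ ∞ Φ (univ ×ˢ T)) (l : ℕ) :
    ContinuousOn (fun q : ℝ × E => iteratedFDeriv ℝ l (fun p => Φ (q.1, p)) q.2) (univ ×ˢ T) := by
  have hs : IsOpen (univ ×ˢ T : Set (ℝ × E)) := isOpen_univ.prod hT
  have h1 : ContinuousOn (iteratedFDeriv ℝ l Φ) (univ ×ˢ T) :=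
    (h.continuousOn_iteratedFDerivWithin (m := l) (by exact_mod_cast le_top) hs.uniqueDiffOn).congr
      fun q hq => (iteratedFDerivWithin_of_isOpen l hs hq).symm
  have h2 : Continuous fun A : (ℝ × E) [×l]→L[ℝ] ℝ =>
      A.compContinuousLinearMap fun _ => ContinuousLinearMap.inr ℝ ℝ E :=
    (ContinuousMultilinearMap.compContinuousLinearMapL (F := ℝ)
      (fun _ : Fin l => ContinuousLinearMap.inr ℝ ℝ E)).continuous
  refine (h2.comp_continuousOn h1).congr fun q hq => ?_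
  exact iteratedFDeriv_snd hT h l q.1 hq.2

end NC2

/-- NC2 `e^{2tu} g → g` in `C^∞` as `t → 0` -/
theorem exists_close_conf {n : ℕ} {M : Type} [TopologicalSpace M] [ChartedSpace (EV n) M]
    [IsManifold 𝓘(ℝ, EV n) ∞ M] (g : RMetric (EV n) M) {u : M → ℝ}
    (hu : ContMDiff 𝓘(ℝ, EV n) 𝓘(ℝ, ℝ) ∞ u) (k : ℕ) (a : M) {K : Set (EV n)} (hK : IsCompact K)
    (hKt : K ⊆ (chartAt (EV n) a).target) {ε : ℝ} (hε : 0 < ε) :
    ∃ δ : ℝ, 0 < δ ∧ ∀ t : ℝ, |t| < δ → ∀ g' : RMetric (EV n) M,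
      IsConf g g' (fun x => t * u x) → CkClose g g' k a K ε := by
  set T := (chartAt (EV n) a).target with hTd
  have hT : IsOpen T := (chartAt (EV n) a).open_target
  set φ : EV n → ℝ := fun p => u ((chartAt (EV n) a).symm p) with hφ
  set F : Fin n → Fin n → ℝ × EV n → ℝ := fun i j q => Real.exp (2 * (q.1 * φ q.2)) *
    (mt g).coef a q.2 (EuclideanSpace.single i 1) (EuclideanSpace.single j 1) with hF
  have hFs : ∀ i j, ContDiffOn ℝ ∞ (F i j) (univ ×ˢ T) := by
    rintro i j ⟨t, p⟩ ⟨-, hp⟩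
    refine ContDiffAt.contDiffWithinAt ?_
    have h1 : ContDiffAt ℝ ∞ (fun q : ℝ × EV n => φ q.2) (t, p) :=
      ContDiffAt.comp (g := φ) (t, p) (NC1.contDiffAt_chart hu a hp) contDiffAt_snd
    have h2 : ContDiffAt ℝ ∞ (fun q : ℝ × EV n => (mt g).coef a q.2) (t, p) :=
      ContDiffAt.comp (g := (mt g).coef a) (t, p) (((mt g).smooth a).contDiffAt (hT.mem_nhds hp))
        contDiffAt_snd
    exact ((contDiffAt_const.mul (contDiffAt_fst.mul h1)).exp).mul
      ((h2.clm_apply contDiffAt_const).clm_apply contDiffAt_const)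
  have key : ∀ᶠ t : ℝ in 𝓝 0, ∀ i j : Fin n, ∀ l ∈ Finset.range (k + 1), ∀ p ∈ K,
      ‖iteratedFDeriv ℝ l (fun p => F i j (t, p)) p - iteratedFDeriv ℝ l (fun p => F i j (0, p)) p‖
        < ε := by
    rw [eventually_all]
    intro i
    rw [eventually_all]
    intro j
    rw [Filter.eventually_all_finset]
    intro l _
    refine hK.eventually_forall_of_forall_eventually fun p hp => ?_
    have hpT := hKt hp
    have h1 := NC2.continuousOn_iteratedFDeriv_snd hT (hFs i j) l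
    have hmem : (univ ×ˢ T : Set (ℝ × EV n)) ∈ 𝓝 ((0 : ℝ), p) :=
      (isOpen_univ.prod hT).mem_nhds ⟨mem_univ _, hpT⟩
    have h2 : ContinuousAt (fun q : ℝ × EV n =>
        iteratedFDeriv ℝ l (fun p => F i j (q.1, p)) q.2) (0, p) := h1.continuousAt hmem
    have h3 : ContinuousAt (fun q : ℝ × EV n =>
        iteratedFDeriv ℝ l (fun p => F i j (0, p)) q.2) (0, p) := by
      have h4 : ContinuousAt (fun q : ℝ × EV n => ((0 : ℝ), q.2)) (0, p) := by fun_prop
      exact ContinuousAt.comp (f := fun q : ℝ × EV n => ((0 : ℝ), q.2))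
        (g := fun q : ℝ × EV n => iteratedFDeriv ℝ l (fun p => F i j (q.1, p)) q.2) h2 h4
    have h5 := (h2.sub h3).norm
    refine h5.eventually_lt continuousAt_const ?_
    simpa using hε
  obtain ⟨δ, hδ, hball⟩ := Metric.eventually_nhds_iff.1 key
  refine ⟨δ, hδ, fun t ht g' hc i j l hl p hp => ?_⟩
  have h1 := hball (y := t) (by simpa using ht) i j l (Finset.mem_range.2 (Nat.lt_succ_of_le hl)) p hp
  have e1 : (fun p => coefIn g' a p (EuclideanSpace.single i 1) (EuclideanSpace.single j 1)) =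
      fun p => F i j (t, p) := by
    funext q
    have := congrArg (fun B : EV n →L[ℝ] EV n →L[ℝ] ℝ =>
      B (EuclideanSpace.single i 1) (EuclideanSpace.single j 1)) (NC1.coef_conf hc a q)
    exact this
  have e2 : (fun p => coefIn g a p (EuclideanSpace.single i 1) (EuclideanSpace.single j 1)) =
      fun p => F i j (0, p) := by
    funext q
    simp only [hF, zero_mul, mul_zero, Real.exp_zero, one_mul]
    rfl
  rw [e1, e2]
  exact h1

end Vale.Agent.P207
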