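import Vale.Agent.P207.BlkP1

/-!
# P207, block P2: exponential growth of the number of homotopy classes in negative curvature
-/

open scoped Manifold ContDiff ENNReal Topology unitInterval
open Bundle MeasureTheory Set Filter

noncomputable section

set_option maxSynthPendingDepth 3

namespace Vale.Agent.P207

open Vale.Agent.P255

section General

variable {E : Type} [NormedAddCommGroup E] [NormedSpace ℝ E] [FiniteDimensional ℝ E]
variable {M : Type} [TopologicalSpace M] [ChartedSpace E M] [IsManifold 𝓘(ℝ, E) ∞ M]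

/-- Along a lift of a short geodesic which stays far from the origin, the direction varies very
little. -/
theorem angle_of {g : Metric E M} {e : M → E → M} (he : IsExp g e) {k : ℝ} (hk : 0 < k)
    (hg : CurvLE g (k ^ 2)) {m q : M} (hI : InjAt E e m) (w : E) (c : ℝ → E)
    (hc : ContinuousOn c (Icc 0 1)) (h : ∀ t ∈ Icc (0 : ℝ) 1, e m (c t) = e q (t • w))
    {ρ : ℝ} (hρ : 0 < ρ) (hlow : ∀ t ∈ Icc (0 : ℝ) 1, ρ ≤ Real.sqrt (g.ip m (c t) (c t)))
    (θ : ℝ → E) (hθ : ∀ t, θ t = (Real.sqrt (g.ip m (c t) (c t)))⁻¹ • c t) :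
    Real.sqrt (g.ip m (θ 1 - θ 0) (θ 1 - θ 0)) ≤
      Real.sqrt (g.ip q w w) * (k / Real.sinh (k * ρ)) := by
  set l := θ 1 - θ 0 with hl
  have hipn : ∀ v, 0 ≤ g.ip m v v := nonneg_of_pos (g.ip_pos m)
  set A₀ := Real.sqrt (g.ip q w w) * (k / Real.sinh (k * ρ)) with hA₀
  have hsρ : 0 < Real.sinh (k * ρ) := Real.sinh_pos_iff.2 (mul_pos hk hρ)
  have hA₀n : 0 ≤ A₀ := mul_nonneg (Real.sqrt_nonneg _) (div_pos hk hsρ).le
  set A := Real.sqrt (g.ip m l l) * A₀ with hA
  have hrpos : ∀ t ∈ Icc (0 : ℝ) 1, 0 < Real.sqrt (g.ip m (c t) (c t)) := fun t ht =>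
    hρ.trans_le (hlow t ht)
  have hθc : ContinuousOn θ (Icc 0 1) := by
    have h1 : ContinuousOn (fun t => g.ip m (c t) (c t)) (Icc 0 1) := by fun_prop
    have h2 : ContinuousOn (fun t => Real.sqrt (g.ip m (c t) (c t))) (Icc 0 1) := h1.sqrt
    have h3 := (h2.inv₀ fun t ht => (hrpos t ht).ne').smul hc
    exact h3.congr fun t _ => hθ t
  have hcont : ContinuousOn (fun t => g.ip m l (θ t) - A * t) (Icc 0 1) := by fun_prop
  have hder : ∀ t ∈ Ioo (0 : ℝ) 1, ∃ d ≤ 0, HasDerivAt (fun t => g.ip m l (θ t) - A * t) d t := by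
    intro t ht
    have ht' : t ∈ Icc (0 : ℝ) 1 := Ioo_subset_Icc_self ht
    have hnb : Icc (0 : ℝ) 1 ∈ 𝓝 t := Icc_mem_nhds ht.1 ht.2
    have hct : ContinuousAt c t := hc.continuousAt hnb
    set a := e q (t • w) with ha
    have hsrcq : e q (t • w) ∈ (chartAt E a).source := by rw [← ha]; exact mem_chart_source E a
    have hsrcm : e m (c t) ∈ (chartAt E a).source := by rw [h t ht']; exact hsrcq
    obtain ⟨c', hc', hc''⟩ := hasDerivAt_lift (he.smooth m (c t) a hsrcm)
      (fun z hz => hI (c t) z a hsrcm hz) hct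
      (x := fun s => chartAt E a (e q (s • w)))
      (by filter_upwards [hnb] with s hs; rw [h s hs]) (he.hasDerivAt_ray' q w t a hsrcq)
    set v := c t with hv
    set r := Real.sqrt (g.ip m v v) with hr
    have hr0 : 0 < r := hrpos t ht'
    have hr2 : r ^ 2 = g.ip m v v := Real.sq_sqrt (hipn v)
    have hvv : 0 < g.ip m v v := by rw [← hr2]; positivity
    set z := c' - (g.ip m v c' / r ^ 2) • v with hz
    have hvz : g.ip m v z = 0 := by
      rw [hz]
      simp only [map_sub, map_smul, smul_eq_mul]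
      rw [← hr2]
      field_simp
      ring
    -- derivative of θ
    have hN : HasDerivAt (fun s => g.ip m (c s) (c s)) (g.ip m c' v + g.ip m v c') t := by
      have h1 : HasDerivAt (fun s => g.ip m (c s)) (g.ip m c') t :=
        (g.ip m).hasFDerivAt.comp_hasDerivAt t hc'
      exact h1.clm_apply hc'
    have hS := (hN.sqrt hvv.ne').inv (hr0.ne' : Real.sqrt (g.ip m (c t) (c t)) ≠ 0)
    have hθd : HasDerivAt θ (r⁻¹ • z) t := by
      have h1 := hS.smul hc'
      have h2 : HasDerivAt θ _ t := h1.congr_of_eventuallyEq (Eventually.of_forall fun s => hθ s)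
      refine h2.congr_deriv ?_
      rw [g.ip_symm m c' v, ← hv, hz, smul_sub, smul_smul, ← hr, sub_eq_add_neg, ← neg_smul,
        add_comm]
      simp only [Pi.inv_apply, ← hv, ← hr]
      rw [add_comm]
      congr 1
      · congr 1
        field_simp
        ring
    -- Rauch
    have hG := he.gauss m v v a hsrcm
    have hGz := he.gauss m v z a hsrcm
    rw [hvz] at hGz
    have hR := rauch_neg he hk hg m v z hvz hvv a hsrcm
    rw [← hr] at hR
    have hsp := speed_of_gaussAt (he.gaussAt q) w t a hsrcq ht.1.ne'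
    have hc'z : c' = z + (g.ip m v c' / r ^ 2) • v := by rw [hz]; abel
    set D := fderiv ℝ (fun x => chartAt E a (e m x)) v with hD
    set G := g.coef a (chartAt E a (e m v)) with hGd
    have hGsymm : G (D z) (D v) = G (D v) (D z) :=
      (g.isMetricOn' a).symm _ ((chartAt E a).map_source hsrcm) _ _
    have hle : G (D z) (D z) ≤ g.ip q w w := by
      have h1 : G (D c') (D c') = g.ip q w w := by
        rw [hc'', hGd, h t ht', ← ha]
        rw [← ha] at hsp
        exact hsp
      rw [← h1, hc'z]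
      simp only [map_add, map_smul, add_apply, smul_apply, smul_eq_mul]
      rw [hGsymm, hGz, hG]
      have := mul_nonneg (sq_nonneg (g.ip m v c' / r ^ 2)) hvv.le
      linarith only [this]
    have hkr : 0 < k * r := mul_pos hk hr0
    have hs0 : 0 < sk (k * r) 1 := sk_pos hkr one_pos
    have hz1 : Real.sqrt (g.ip m z z) * sk (k * r) 1 ≤ Real.sqrt (g.ip q w w) := by
      rw [← Real.sqrt_sq hs0.le, ← Real.sqrt_mul (hipn z)]
      exact Real.sqrt_le_sqrt (hR.trans hle)
    refine ⟨_, ?_, ((g.ip m l).hasFDerivAt.comp_hasDerivAt t hθd).sub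
      ((hasDerivAt_id t).const_mul A)⟩
    rw [mul_one, sub_nonpos, map_smul, smul_eq_mul]
    have h3 := cs_form (g.ip m) (g.ip_symm m) hipn l z
    have h4 : Real.sqrt (g.ip m z z) ≤ r * A₀ := by
      have h5 : Real.sqrt (g.ip m z z) ≤ Real.sqrt (g.ip q w w) / sk (k * r) 1 := by
        rwa [le_div_iff₀ hs0]
      refine h5.trans ?_
      rw [hA₀]
      have h6 : Real.sinh (k * ρ) ≤ Real.sinh (k * r) :=
        Real.sinh_le_sinh.2 (mul_le_mul_of_nonneg_left (hlow t ht') hk.le)
      have h7 : 0 < Real.sinh (k * r) := hsρ.trans_le h6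
      have h8 : Real.sqrt (g.ip q w w) / sk (k * r) 1 =
          r * (Real.sqrt (g.ip q w w) * (k / Real.sinh (k * r))) := by
        unfold sk
        rw [mul_one]
        field_simp
      rw [h8]
      have h9 : k / Real.sinh (k * r) ≤ k / Real.sinh (k * ρ) :=
        div_le_div_of_nonneg_left hk.le hsρ h6
      exact mul_le_mul_of_nonneg_left (mul_le_mul_of_nonneg_left h9 (Real.sqrt_nonneg _)) hr0.le
    calc r⁻¹ * g.ip m l z ≤ r⁻¹ * (Real.sqrt (g.ip m l l) * Real.sqrt (g.ip m z z)) :=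
          mul_le_mul_of_nonneg_left h3 (inv_nonneg.2 hr0.le)
      _ ≤ r⁻¹ * (Real.sqrt (g.ip m l l) * (r * A₀)) :=
          mul_le_mul_of_nonneg_left (mul_le_mul_of_nonneg_left h4 (Real.sqrt_nonneg _))
            (inv_nonneg.2 hr0.le)
      _ = A := by rw [hA]; field_simp
  have hanti : AntitoneOn (fun t => g.ip m l (θ t) - A * t) (Icc 0 1) := by
    apply antitoneOn_of_deriv_nonpos (convex_Icc _ _) hcont
    · rw [interior_Icc]
      intro t ht
      obtain ⟨d, _, hd⟩ := hder t ht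
      exact hd.differentiableAt.differentiableWithinAt
    · rw [interior_Icc]
      intro t ht
      obtain ⟨d, hd0, hd⟩ := hder t ht
      rw [hd.deriv]; exact hd0
  have h1 := hanti (left_mem_Icc.2 zero_le_one) (right_mem_Icc.2 zero_le_one) zero_le_one
  simp only [mul_zero, sub_zero, mul_one] at h1
  have h2 : g.ip m l l ≤ A := by
    have : g.ip m l l = g.ip m l (θ 1) - g.ip m l (θ 0) := by rw [← map_sub, ← hl]
    linarith
  rcases (hipn l).eq_or_lt with h0 | h0
  · rw [← h0, Real.sqrt_zero]; exact hA₀n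
  · have h3 : 0 < Real.sqrt (g.ip m l l) := Real.sqrt_pos.2 h0
    have h4 : Real.sqrt (g.ip m l l) * Real.sqrt (g.ip m l l) ≤ A := by
      rw [Real.mul_self_sqrt h0.le]; exact h2
    exact le_of_mul_le_mul_left h4 h3

end General

variable {n : ℕ} {M : Type} [TopologicalSpace M] [ChartedSpace (EV n) M]
  [IsManifold 𝓘(ℝ, EV n) ∞ M] [CompactSpace M] [T2Space M]

/-- Two geodesics of length `R` from `x` whose endpoints are joined by a class of length `≤ 1`
have almost the same direction. -/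
theorem angle_cl {g : RMetric (EV n) M} {h : Npc (mt g)} {k : ℝ} (hk : 0 < k)
    (hg : CurvLE (mt g) (k ^ 2)) {x y z : M} (α : Cl x y) (τ : Cl y z) {R : ℝ} (hR : 1 < R)
    (hα : (sys g h).len α = R) (hατ : (sys g h).len (α.trans τ) = R)
    (hτ : (sys g h).len τ ≤ 1) :
    (sys g h).nrm x (R⁻¹ • (sys g h).vec (α.trans τ) - R⁻¹ • (sys g h).vec α) ≤
      k / Real.sinh (k * (R - 1)) := by
  set S := sys g h with hS
  set w := S.vec τ with hw
  set γ := S.rayTo y z w (S.e_vec τ) with hγ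
  have hγ0 : γ.toContinuousMap 0 = S.e x (S.vec α) := by
    rw [S.e_vec]; exact γ.source
  set c := (S.cov x).liftPath γ.toContinuousMap (S.vec α) hγ0 with hc
  have hl : ∀ t, S.e x (c t) = γ t := fun t =>
    congrFun ((S.cov x).liftPath_lifts γ.toContinuousMap (S.vec α) hγ0) t
  have hc0 : c 0 = S.vec α := (S.cov x).liftPath_zero _ _ _
  have hc1 : S.vec (α.trans τ) = c 1 := by
    conv_lhs => rw [S.eq_rayTo τ]
    exact S.vec_trans α γ c hc0 hl
  set C : ℝ → EV n := fun t => c (projIcc 0 1 zero_le_one t) with hC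
  have hCc : Continuous C := by fun_prop
  have hCl : ∀ t ∈ Icc (0 : ℝ) 1, S.e x (C t) = S.e y (t • w) := by
    intro t ht
    simp only [hC]
    rw [projIcc_of_mem _ ht, hl]
    rfl
  have e1 : C 1 = c 1 := by simp only [hC]; rw [projIcc_right]; rfl
  have e0 : C 0 = c 0 := by simp only [hC]; rw [projIcc_left]; rfl
  -- the lift stays far from the origin
  have hfar : ∀ t ∈ Icc (0 : ℝ) 1, R - 1 ≤ Real.sqrt (S.ip x (C t) (C t)) := by
    intro t ht
    have h1 := S.compare x y (t • w) (fun s => C (s * t)) (by fun_prop) (by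
      intro s hs
      have hst : s * t ∈ Icc (0 : ℝ) 1 :=
        ⟨mul_nonneg hs.1 ht.1, mul_le_one₀ hs.2 ht.1 ht.2⟩
      rw [hCl _ hst, smul_smul])
    simp only [one_mul, zero_mul] at h1
    have h2 : S.nrm x (C t - C 0) ≤ 1 := by
      have h3 : S.nrm x (C t - C 0) ≤ S.nrm y (t • w) := Real.sqrt_le_sqrt h1
      have h4 : S.nrm y (t • w) ≤ S.nrm y w := by
        unfold ExpSys.nrm
        apply Real.sqrt_le_sqrt
        simp only [map_smul, smul_apply, smul_eq_mul]
        have h5 : t * t ≤ 1 := mul_le_one₀ ht.2 ht.1 ht.2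
        have h6 := S.ip_nonneg y w
        nlinarith
      exact h3.trans (h4.trans hτ)
    have h3 := S.nrm_add x (C t) (C 0 - C t)
    have h4 : S.nrm x (C 0 - C t) = S.nrm x (C t - C 0) := by rw [← S.nrm_neg, neg_sub]
    rw [add_sub_cancel, h4, e0, hc0] at h3
    have h5 : S.nrm x (S.vec α) = R := hα
    rw [h5] at h3
    rw [e0, hc0] at h2
    change R - 1 ≤ S.nrm x (C t)
    linarith
  have hnα : S.nrm x (C 0) = R := by rw [e0, hc0]; exact hα
  have hnβ : S.nrm x (C 1) = R := by rw [e1, ← hc1]; exact hατ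
  have key := angle_of (P255.isExp_expg (mt g)) hk hg (m := x) (q := y)
    (((P255.isExp_expg (mt g)).rauchAt h x).injAt) w C hCc.continuousOn hCl
    (sub_pos.2 hR) hfar (fun t => (Real.sqrt ((mt g).ip x (C t) (C t)))⁻¹ • C t)
    (fun t => rfl)
  have i0 : Real.sqrt ((mt g).ip x (C 0) (C 0)) = R := hnα
  have i1 : Real.sqrt ((mt g).ip x (C 1) (C 1)) = R := hnβ
  simp only [i0, i1] at key
  rw [e1, e0, hc0, ← hc1] at key
  refine key.trans ?_
  have hs : 0 < Real.sinh (k * (R - 1)) := Real.sinh_pos_iff.2 (mul_pos hk (sub_pos.2 hR))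
  have h7 : Real.sqrt ((mt g).ip y w w) ≤ 1 := hτ
  calc _ ≤ 1 * (k / Real.sinh (k * (R - 1))) :=
        mul_le_mul_of_nonneg_right h7 (div_pos hk hs).le
    _ = _ := one_mul _

omit [ChartedSpace (EV n) M] [IsManifold 𝓘(ℝ, EV n) ∞ M] [T2Space M] in
/-- near points are joined by short classes to finitely many centers -/
theorem exists_centers (S : ExpSys (EV n) M) {η : ℝ} (hη : 0 < η) :
    ∃ F : Finset M, ∀ y : M, ∃ p ∈ F, ∃ β : Cl y p, S.len β < η := by
  have hU : ∀ p : M, IsOpen (S.e p '' {v | S.nrm p v < η}) := by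
    intro p
    have hcont : Continuous fun v : EV n => S.nrm p v := by
      unfold ExpSys.nrm; fun_prop
    exact (S.cov p).isOpenMap _ (isOpen_lt hcont continuous_const)
  obtain ⟨F, hF⟩ := isCompact_univ.elim_finite_subcover (fun p : M => S.e p '' {v | S.nrm p v < η})
    hU (fun y _ => mem_iUnion.2 ⟨y, 0, by simpa [S.nrm_zero] using hη, S.zero y⟩)
  refine ⟨F, fun y => ?_⟩
  obtain ⟨p, hp⟩ := mem_iUnion.1 (hF (mem_univ y))
  obtain ⟨hpF, v, hv, hvy⟩ := mem_iUnion.1 hp
  refine ⟨p, hpF, (Path.Homotopic.Quotient.mk (S.rayTo p y v hvy)).symm, ?_⟩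
  rw [S.len_symm, ExpSys.len, S.vec_rayTo]
  exact hv

omit [ChartedSpace (EV n) M] [IsManifold 𝓘(ℝ, EV n) ∞ M] [CompactSpace M] [T2Space M] in
/-- the vectors of bounded length above a point are as few as the classes -/
theorem ncard_fiber_le {S : ExpSys (EV n) M} {s C : ℝ}
    (hC : ∀ (x y : M) (R : ℝ), 0 ≤ R →
    {α : Cl x y | S.len α ≤ R}.Finite ∧ ({α : Cl x y | S.len α ≤ R}.ncard : ℝ) ≤ C * Real.exp (s * R))
    (x p : M) {R : ℝ} (hR : 0 ≤ R) :
    {v : EV n | S.e x v = p ∧ S.nrm x v ≤ R}.Finite ∧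
      ({v : EV n | S.e x v = p ∧ S.nrm x v ≤ R}.ncard : ℝ) ≤ C * Real.exp (s * R) := by
  obtain ⟨h1, h2⟩ := hC x p R hR
  have h3 : {v : EV n | S.e x v = p ∧ S.nrm x v ≤ R} ⊆ S.vec '' {α : Cl x p | S.len α ≤ R} := by
    rintro v ⟨hv, hv2⟩
    refine ⟨Path.Homotopic.Quotient.mk (S.rayTo x p v hv), ?_, S.vec_rayTo _ _ _ _⟩
    change S.nrm x _ ≤ R
    rw [S.vec_rayTo]; exact hv2
  have h4 := h1.image (f := S.vec)
  refine ⟨h4.subset h3, le_trans ?_ h2⟩
  exact_mod_cast (ncard_le_ncard h3 h4).trans (ncard_image_le h1)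

open Path.Homotopic.Quotient in
/-- many directions which are not close give many classes -/
theorem card_le_of_growthLE {g : RMetric (EV n) M} {h : Npc (mt g)} {k : ℝ} (hk : 0 < k)
    (hg : CurvLE (mt g) (k ^ 2)) {s C : ℝ}
    (hC : ∀ (x y : M) (R : ℝ), 0 ≤ R → {α : Cl x y | (sys g h).len α ≤ R}.Finite ∧
      ({α : Cl x y | (sys g h).len α ≤ R}.ncard : ℝ) ≤ C * Real.exp (s * R))
    {F : Finset M} (hF : ∀ y : M, ∃ p ∈ F, ∃ β : Cl y p, (sys g h).len β < 1 / 2)
    (x : M) {R : ℝ} (hR : 1 < R) {N : ℕ} (u : Fin N → EV n)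
    (hu : ∀ i, (sys g h).nrm x (u i) = 1)
    (hsep : ∀ i j, i ≠ j → k / Real.sinh (k * (R - 1)) < (sys g h).nrm x (u i - u j)) :
    (N : ℝ) ≤ F.card * (C * Real.exp (s * (R + 1 / 2))) := by
  classical
  set S := sys g h with hS
  have hR0 : 0 < R := by linarith
  -- the classes
  let y : Fin N → M := fun i => S.e x (R • u i)
  let α : ∀ i, Cl x (y i) := fun i => mk (S.rayTo x (y i) (R • u i) rfl)
  have hvα : ∀ i, S.vec (α i) = R • u i := fun i => S.vec_rayTo _ _ _ _
  have hlα : ∀ i, S.len (α i) = R := by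
    intro i
    rw [ExpSys.len, hvα]
    have h1 := hu i
    unfold ExpSys.nrm at h1 ⊢
    simp only [map_smul, smul_apply, smul_eq_mul]
    rw [← mul_assoc, Real.sqrt_mul (by positivity), Real.sqrt_mul_self hR0.le, h1, mul_one]
  choose p hpF β hβ using fun i => hF (y i)
  let v : Fin N → EV n := fun i => S.vec ((α i).trans (β i))
  have hinj : Function.Injective v := by
    intro i j hij
    by_contra hne
    have hp : p i = p j := by
      rw [← S.e_vec ((α i).trans (β i)), ← S.e_vec ((α j).trans (β j))]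
      exact congrArg (S.e x) hij
    have key : ∀ (q : M) (βi : Cl (y i) q) (βj : Cl (y j) q), S.len βi < 1 / 2 →
        S.len βj < 1 / 2 → S.vec ((α i).trans βi) = S.vec ((α j).trans βj) → False := by
      intro q βi βj h1 h2 h3
      have h4 : (α i).trans βi = (α j).trans βj := S.vec_inj h3
      have h5 : (α i).trans (βi.trans βj.symm) = α j := by
        rw [← trans_assoc, h4, trans_assoc, trans_symm, trans_refl]
      have h6 : S.len (βi.trans βj.symm) ≤ 1 := by
        have := S.len_trans βi βj.symm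
        rw [S.len_symm] at this
        linarith
      have h7 := angle_cl hk hg (α i) (βi.trans βj.symm) hR (hlα i)
        (by rw [h5]; exact hlα j) h6
      rw [h5, hvα, hvα, smul_smul, smul_smul, inv_mul_cancel₀ hR0.ne', one_smul, one_smul] at h7
      exact absurd h7 (not_le.2 (hsep j i (Ne.symm hne)))
    have hβj := hβ j
    have hvj : v j = S.vec ((α j).trans (β j)) := rfl
    revert hβj hvj
    generalize β j = b
    revert b
    rw [← hp]
    intro b hb hvj
    exact key (p i) (β i) b (hβ i) hb (hij.trans hvj)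
  -- the count
  have hR2 : 0 ≤ R + 1 / 2 := by linarith
  let V : M → Set (EV n) := fun q => {v : EV n | S.e x v = q ∧ S.nrm x v ≤ R + 1 / 2}
  have hVfin : ∀ q, (V q).Finite := fun q => (ncard_fiber_le hC x q hR2).1
  have hVc : ∀ q, ((V q).ncard : ℝ) ≤ C * Real.exp (s * (R + 1 / 2)) := fun q =>
    (ncard_fiber_le hC x q hR2).2
  let W : Finset (EV n) := F.biUnion fun q => (hVfin q).toFinset
  have hvW : ∀ i, v i ∈ W := by
    intro i
    refine Finset.mem_biUnion.2 ⟨p i, hpF i, (hVfin _).mem_toFinset.2 ⟨S.e_vec _, ?_⟩⟩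
    have h1 := S.len_trans (α i) (β i)
    rw [hlα] at h1
    have h2 := hβ i
    change S.len _ ≤ _
    linarith
  have h1 : N ≤ W.card := by
    have h2 := Finset.card_le_card_of_injOn (s := (Finset.univ : Finset (Fin N))) (t := W) v
      (fun i _ => hvW i) hinj.injOn
    simpa using h2
  have h2 : W.card ≤ ∑ q ∈ F, (hVfin q).toFinset.card := Finset.card_biUnion_le
  have h3 : (∑ q ∈ F, ((hVfin q).toFinset.card : ℝ)) ≤ ∑ q ∈ F, C * Real.exp (s * (R + 1 / 2)) := by
    refine Finset.sum_le_sum fun q _ => ?_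
    rw [← ncard_eq_toFinset_card _ (hVfin q)]
    exact hVc q
  rw [Finset.sum_const, nsmul_eq_mul] at h3
  calc (N : ℝ) ≤ W.card := by exact_mod_cast h1
    _ ≤ ∑ q ∈ F, ((hVfin q).toFinset.card : ℝ) := by exact_mod_cast h2
    _ ≤ _ := h3

omit [ChartedSpace (EV n) M] [IsManifold 𝓘(ℝ, EV n) ∞ M] [CompactSpace M] [T2Space M] in
/-- an orthonormal pair -/
theorem exists_orthonormal (hn : 2 ≤ n) (S : ExpSys (EV n) M) (x : M) :
    ∃ a b : EV n, S.ip x a a = 1 ∧ S.ip x b b = 1 ∧ S.ip x a b = 0 := by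
  have hnorm : ∀ v : EV n, v ≠ 0 → S.ip x ((S.nrm x v)⁻¹ • v) ((S.nrm x v)⁻¹ • v) = 1 := by
    intro v hv
    have h1 := S.nrm_sq x v
    have h2 := S.ip_pos x v hv
    have h3 : S.nrm x v ≠ 0 := by
      intro h0
      rw [h0] at h1
      norm_num at h1
      linarith
    simp only [map_smul, smul_apply, smul_eq_mul]
    rw [← h1]
    field_simp
  set i0 : Fin n := ⟨0, by omega⟩
  set i1 : Fin n := ⟨1, by omega⟩
  have h01 : i0 ≠ i1 := by simp [i0, i1]
  set p : EV n := EuclideanSpace.single i0 1 with hp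
  set q : EV n := EuclideanSpace.single i1 1 with hq
  have hp0 : p ≠ 0 := by
    intro h0
    have := congrArg (fun v : EV n => v i0) h0
    simp [hp] at this
  set a := (S.nrm x p)⁻¹ • p with ha
  have haa := hnorm p hp0
  rw [← ha] at haa
  set b' := q - S.ip x a q • a with hb'
  have hb'0 : b' ≠ 0 := by
    intro h0
    have := congrArg (fun v : EV n => v i1) h0
    simp [hb', ha, hp, hq, h01.symm] at this
  have hab' : S.ip x a b' = 0 := by
    rw [hb']
    simp only [map_sub, map_smul, smul_eq_mul, haa, mul_one, sub_self]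
  refine ⟨a, (S.nrm x b')⁻¹ • b', haa, hnorm b' hb'0, ?_⟩
  rw [map_smul, hab', smul_zero]

/-- P2: in negative curvature the number of homotopy classes grows exponentially -/
theorem exists_not_growthLE (hn : 2 ≤ n) [Nonempty M] {g : RMetric (EV n) M}
    (h : NegCurvature g) (h' : Npc (mt g)) : ∃ s : ℝ, 0 < s ∧ ¬ GrowthLE (sys g h') s := by
  obtain ⟨k, hk, hg⟩ := exists_curvLE_of_neg h
  refine ⟨k / 2, by positivity, ?_⟩
  rintro ⟨C, hC⟩
  set S := sys g h' with hS
  obtain ⟨F, hF⟩ := exists_centers S (η := 1 / 2) (by norm_num)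
  obtain ⟨x⟩ := ‹Nonempty M›
  obtain ⟨a, b, haa, hbb, hab⟩ := exists_orthonormal hn S x
  have hba : S.ip x b a = 0 := by rw [S.ip_symm]; exact hab
  -- the unit vectors
  let U : ℝ → EV n := fun t => Real.sqrt (1 - t ^ 2) • a + t • b
  have hU1 : ∀ t : ℝ, 0 ≤ t → t ≤ 1 → S.nrm x (U t) = 1 := by
    intro t h0 h1
    have h2 : 0 ≤ 1 - t ^ 2 := by nlinarith
    have h3 : S.ip x (U t) (U t) = 1 := by
      simp only [U, map_add, map_smul, add_apply, smul_apply, smul_eq_mul, haa, hbb, hab, hba,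
        mul_zero, mul_one, add_zero, zero_add]
      rw [Real.mul_self_sqrt h2]; ring
    unfold ExpSys.nrm
    rw [h3, Real.sqrt_one]
  have hUsep : ∀ s t : ℝ, |s - t| ≤ S.nrm x (U s - U t) := by
    intro s t
    have hb1 : S.nrm x b = 1 := by unfold ExpSys.nrm; rw [hbb, Real.sqrt_one]
    have h1 : S.ip x (U s - U t) b = s - t := by
      simp only [U, map_sub, map_add, map_smul, sub_apply, add_apply, smul_apply, smul_eq_mul,
        hbb, hab, mul_zero, mul_one, zero_add]
    have h2 := S.cauchy x (U s - U t) b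
    rw [h1, hb1, mul_one] at h2
    have h3 := S.cauchy x (-(U s - U t)) b
    rw [S.nrm_neg, hb1, mul_one, map_neg, neg_apply, h1] at h3
    exact abs_le.2 ⟨by linarith, h2⟩
  set A := F.card * C * Real.exp (k / 2 * (3 / 2)) with hA
  obtain ⟨N, hN⟩ := exists_nat_gt (max 1 (A ^ 2 * (4 * k + 1)))
  have hN1 : (1 : ℝ) < N := (le_max_left _ _).trans_lt hN
  have hN2 : A ^ 2 * (4 * k + 1) < N := (le_max_right _ _).trans_lt hN
  have hN0 : (0 : ℝ) < N := by linarith
  set X := k * (N + 1) with hX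
  have hX0 : 0 < X := by positivity
  set R := 1 + Real.arsinh X / k with hR
  have hars : 0 < Real.arsinh X := Real.arsinh_pos_iff.2 hX0
  have hR1 : 1 < R := by
    rw [hR]; have := div_pos hars hk; linarith
  have hkR : k * (R - 1) = Real.arsinh X := by rw [hR]; field_simp; ring
  have hcount := card_le_of_growthLE hk hg hC hF x hR1 (N := N)
    (fun i : Fin N => U ((i : ℝ) / N)) (fun i => hU1 _ (by positivity) (by
      rw [div_le_one hN0]; exact_mod_cast i.2.le)) (by
      intro i j hij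
      rw [hkR, Real.sinh_arsinh]
      have h1 : k / X < 1 / N := by
        rw [hX, div_lt_div_iff₀ (by positivity) hN0]
        nlinarith
      refine h1.trans_le (le_trans ?_ (hUsep _ _))
      have h2 : (i : ℝ) / N - (j : ℝ) / N = ((i : ℝ) - j) / N := by ring
      rw [h2, abs_div, abs_of_pos hN0]
      refine div_le_div_of_nonneg_right ?_ hN0.le
      have h3 : ((i : ℕ) : ℤ) ≠ ((j : ℕ) : ℤ) := by
        intro h4
        exact hij (Fin.ext (by exact_mod_cast h4))
      have h4 : (1 : ℤ) ≤ |((i : ℕ) : ℤ) - ((j : ℕ) : ℤ)| := Int.one_le_abs (sub_ne_zero.2 h3)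
      exact_mod_cast h4)
  have hexp : Real.exp (k / 2 * (R + 1 / 2)) = Real.exp (k / 2 * (R - 1)) *
      Real.exp (k / 2 * (3 / 2)) := by
    rw [← Real.exp_add]; congr 1; ring
  have hsq : Real.exp (k / 2 * (R - 1)) ^ 2 ≤ 2 * X + 1 := by
    rw [← Real.exp_nat_mul]
    have h1 : ((2 : ℕ) : ℝ) * (k / 2 * (R - 1)) = Real.arsinh X := by
      rw [← hkR]; push_cast; ring
    rw [h1, Real.exp_arsinh]
    have h2 : Real.sqrt (1 + X ^ 2) ≤ 1 + X := by
      rw [Real.sqrt_le_left (by positivity)]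
      nlinarith
    linarith
  rw [hexp] at hcount
  have h1 : (N : ℝ) ≤ A * Real.exp (k / 2 * (R - 1)) := by
    rw [hA]; linarith
  have h2 : (N : ℝ) ^ 2 ≤ A ^ 2 * (2 * X + 1) := by
    calc (N : ℝ) ^ 2 ≤ (A * Real.exp (k / 2 * (R - 1))) ^ 2 := pow_le_pow_left₀ hN0.le h1 2
      _ = A ^ 2 * Real.exp (k / 2 * (R - 1)) ^ 2 := by ring
      _ ≤ _ := mul_le_mul_of_nonneg_left hsq (sq_nonneg A)
  have h3 : 2 * X + 1 ≤ (4 * k + 1) * N := by
    rw [hX]; nlinarith
  have h4 : (N : ℝ) ^ 2 ≤ A ^ 2 * (4 * k + 1) * N := by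
    have := mul_le_mul_of_nonneg_left h3 (sq_nonneg A)
    linarith
  nlinarith

end Vale.Agent.P207
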