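import Vale.Agent.P207.BlkC2
import Vale.Agent.P207.BlkD3
import Vale.Agent.P207.BlkDB
import Vale.Agent.P207.BlkDG
import Vale.Agent.P207.BlkDT
import Vale.Agent.P207.BlkG3
import Vale.Agent.P207.BlkK2
import Vale.Agent.P207.BlkP2
import Vale.Agent.P207.BlkV

/-!
# P207: the entropy comparison, the criterion, the main theorem
-/

open scoped Manifold ContDiff ENNReal Topology
open Bundle MeasureTheory Set Filter

noncomputable section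

namespace Vale.Agent.P207

open Vale.Agent.P255 (RMetric coefIn Gam Riem IsGeo Metric Npc ExpSys toMetric geo expg cc)

variable {n : ℕ} {M : Type} [TopologicalSpace M] [ChartedSpace (EV n) M]
  [IsManifold 𝓘(ℝ, EV n) ∞ M]

theorem nrm_pos (g₀ g₁ : RMetric (EV n) M) (p : UT g₀) : 0 < nrm g₀ g₁ p := by
  unfold nrm
  apply Real.sqrt_pos.2
  apply g₁.pos
  intro h
  have h2 := p.2
  have h3 : p.1.2 = 0 := h
  rw [h3] at h2
  simp at h2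

theorem nrm_self (g : RMetric (EV n) M) (p : UT g) : nrm g g p = 1 := by
  unfold nrm
  rw [show g.inner p.pt p.vec p.vec = 1 from p.2, Real.sqrt_one]

theorem ofReal_le_mul_of_forall {a t : ℝ≥0∞} {A : ℝ} (hA : 0 < A)
    (h : ∀ s : ℝ, 0 < s → t < ENNReal.ofReal s → a ≤ ENNReal.ofReal (s * A)) :
    a ≤ ENNReal.ofReal A * t := by
  rcases eq_or_ne t ⊤ with rfl | ht
  · rw [ENNReal.mul_top (by simpa using hA)]
    exact le_top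
  · refine le_of_forall_gt_imp_ge_of_dense fun b hb => ?_
    rcases eq_or_ne b ⊤ with rfl | hb'
    · exact le_top
    have hA' : ENNReal.ofReal A ≠ 0 := by simpa using hA
    have h1 : t < b / ENNReal.ofReal A := by
      rw [ENNReal.lt_div_iff_mul_lt (Or.inl hA') (Or.inl ENNReal.ofReal_ne_top), mul_comm]
      exact hb
    have hfin : b / ENNReal.ofReal A ≠ ⊤ := ENNReal.div_ne_top hb' hA'
    set s := (b / ENNReal.ofReal A).toReal with hs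
    have hs1 : ENNReal.ofReal s = b / ENNReal.ofReal A := ENNReal.ofReal_toReal hfin
    have hs0 : 0 < s := ENNReal.toReal_pos (ne_of_gt (lt_of_le_of_lt bot_le h1)) hfin
    have h2 := h s hs0 (by rw [hs1]; exact h1)
    rw [ENNReal.ofReal_mul hs0.le, hs1, ENNReal.div_mul_cancel hA' ENNReal.ofReal_ne_top] at h2
    exact h2

theorem gam_smul {G₀ G₁ : EV n → EV n → EV n → ℝ} {c : ℝ} (hc : c ≠ 0)
    (h : ∀ u v w, G₁ u v w = c * G₀ u v w) : Gam G₁ = Gam G₀ := by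
  have hG : ∀ v w : EV n, (fun p => G₁ p v w) = c • (fun p => G₀ p v w) := by
    intro v w; funext p; simp [h]
  funext u v w
  unfold Gam
  congr 1
  funext x
  apply propext
  refine forall_congr' fun z => ?_
  have hd : ∀ (v w : EV n) (y : EV n), fderiv ℝ (fun p => G₁ p v w) u y =
      c * fderiv ℝ (fun p => G₀ p v w) u y := by
    intro v w y
    rw [hG, fderiv_const_smul_field]
    simp
  rw [hd, hd, hd, h]
  constructor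
  · intro h1
    have h2 : c * (G₀ u x z - ((fderiv ℝ (fun p => G₀ p w z) u) v +
      (fderiv ℝ (fun p => G₀ p v z) u) w - (fderiv ℝ (fun p => G₀ p v w) u) z) / 2) = 0 := by
      linear_combination h1
    have h3 := (mul_eq_zero.1 h2).resolve_left hc
    linear_combination h3
  · intro h1
    linear_combination c * h1

theorem locSymmetric_of_smul {g₀ g₁ : RMetric (EV n) M} {c : ℝ} (hc : c ≠ 0)
    (h : ∀ x v w, g₁.inner x v w = c * g₀.inner x v w) (h₀ : LocSymmetric g₀) :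
    LocSymmetric g₁ := by
  intro a u hu w x y z
  have h1 : Gam (coefIn g₁ a) = Gam (coefIn g₀ a) := gam_smul hc fun u v w => h _ _ _
  have h2 : Riem (coefIn g₁ a) = Riem (coefIn g₀ a) := by
    funext u x y z
    unfold Riem
    rw [h1]
  rw [h1, h2]
  exact h₀ a u hu w x y z

section Main

variable [CompactSpace M] [T2Space M]

/-- the stretch inequality in terms of the topological entropy -/
theorem stretch [ConnectedSpace M] {g₀ g₁ : RMetric (EV n) M} {φ₀ : ℝ → UT g₀ → UT g₀}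
    {φ₁ : ℝ → UT g₁ → UT g₁} (hφ₀ : IsGeoFlow g₀ φ₀) (hφ₁ : IsGeoFlow g₁ φ₁)
    (h₀ : Npc (mt g₀)) (h₁ : Npc (mt g₁)) {ν : Measure (UT g₀)} [IsProbabilityMeasure ν]
    (hν : ∀ t, MeasurePreserving (φ₀ t) ν ν) {A : ℝ} (hA : 0 < A)
    (hA' : ∫ p, nrm g₀ g₁ p ∂ν ≤ A) :
    ksEntropy ν (φ₀ 1) ≤ ENNReal.ofReal A * topEntropy (φ₁ 1) := by
  apply ofReal_le_mul_of_forall hA
  intro s hs hlt
  refine (ksEntropy_le_stretch hφ₀ h₀ h₁ hs.le (growthLE_of_topEntropy hφ₁ h₁ hs hlt) hν).trans ?_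
  exact ENNReal.ofReal_le_ofReal (mul_le_mul_of_nonneg_left hA' hs.le)

theorem ksEntropy_ne_top {g₀ : RMetric (EV n) M} {φ₀ : ℝ → UT g₀ → UT g₀}
    (hφ₀ : IsGeoFlow g₀ φ₀) (h₀ : Npc (mt g₀)) {ν : Measure (UT g₀)} [IsProbabilityMeasure ν]
    (hν : ∀ t, MeasurePreserving (φ₀ t) ν ν) : ksEntropy ν (φ₀ 1) ≠ ⊤ := by
  obtain ⟨s, hs, hG⟩ := exists_growthLE (sys g₀ h₀)
  exact ne_top_of_le_ne_top ENNReal.ofReal_ne_top (ksEntropy_le_stretch hφ₀ h₀ h₀ hs hG hν)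

/-- for locally symmetric metrics the two entropies agree -/
theorem ksEntropy_eq_of_locSymmetric [MeasurableSpace M] [BorelSpace M] (hn : 2 ≤ n)
    [ConnectedSpace M] {g : RMetric (EV n) M}
    {φ : ℝ → UT g → UT g} {μ : Measure M} {m : Measure (UT g)} (hφ : IsGeoFlow g φ)
    (hμ : IsRiemVol g μ) (hm : IsLiouville g μ m) (h : NegCurvature g) (hs : LocSymmetric g) :
    ksEntropy m (φ 1) = topEntropy (φ 1) := by
  have := hm.1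
  obtain ⟨H, c, hH, hc, hj⟩ := exists_jac_bounds hn h hs
  have h' := npc_of_neg h
  have h1 := le_ksEntropy_of_jac (by omega) hφ hμ hm h' hc fun m v => (hj m v).1
  have hst : ksEntropy m (φ 1) ≤ topEntropy (φ 1) := by
    have h2 := stretch hφ hφ h' h' (ν := m)
      (fun t => hm.measurePreserving (by omega) hφ hμ t) one_pos
      (by simp [nrm_self])
    simpa using h2
  refine le_antisymm hst (le_trans ?_ h1)
  refine le_of_forall_gt_imp_ge_of_dense fun b hb => ?_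
  rcases eq_or_ne b ⊤ with rfl | hb'
  · exact le_top
  · obtain ⟨s, rfl⟩ : ∃ s : ℝ, b = ENNReal.ofReal s := ⟨b.toReal, (ENNReal.ofReal_toReal hb').symm⟩
    have hs' : H < s := (ENNReal.ofReal_lt_ofReal_iff_of_nonneg hH.le).1 hb
    exact topEntropy_le_of_growthLE hφ h' (hH.le.trans hs'.le)
      (growthLE_of_jac (by omega) h' hH.le (fun m v => (hj m v).2) hs')

/-- positivity of the topological entropy -/
theorem topEntropy_pos (hn : 2 ≤ n) [ConnectedSpace M] {g : RMetric (EV n) M}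
    {φ : ℝ → UT g → UT g} (hφ : IsGeoFlow g φ) (h : NegCurvature g) : 0 < topEntropy (φ 1) := by
  obtain ⟨s, hs, hG⟩ := exists_not_growthLE hn h (npc_of_neg h)
  by_contra h0
  apply hG
  apply growthLE_of_topEntropy hφ _ hs
  exact lt_of_le_of_lt (not_lt.1 h0) (by simpa using hs)

/-- Cauchy-Schwarz -/
theorem integral_nrm_le {g₀ g₁ : RMetric (EV n) M} {ν : Measure (UT g₀)}
    [IsProbabilityMeasure ν] {c : ℝ} (h : ∫ p, nrm g₀ g₁ p ^ 2 ∂ν = c) :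
    0 < c ∧ ∫ p, nrm g₀ g₁ p ∂ν ≤ Real.sqrt c ∧ (∫ p, nrm g₀ g₁ p ∂ν = Real.sqrt c →
      ∫ p, (nrm g₀ g₁ p - Real.sqrt c) ^ 2 ∂ν = 0) := by
  have := compactSpace_UT g₀
  have hc := continuous_nrm g₀ g₁
  have hi1 : Integrable (nrm g₀ g₁) ν := hc.integrable_of_hasCompactSupport (HasCompactSupport.of_compactSpace _)
  have hi2 : Integrable (fun p => nrm g₀ g₁ p ^ 2) ν :=
    (hc.pow 2).integrable_of_hasCompactSupport (HasCompactSupport.of_compactSpace _)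
  have hc0 : 0 < c := by
    rw [← h, integral_pos_iff_support_of_nonneg (fun p => sq_nonneg _) hi2]
    have : Function.support (fun p => nrm g₀ g₁ p ^ 2) = univ := by
      ext p; simp [(nrm_pos g₀ g₁ p).ne']
    rw [this]; simp
  have key : ∀ d : ℝ, ∫ p, (nrm g₀ g₁ p - d) ^ 2 ∂ν = c - 2 * d * ∫ p, nrm g₀ g₁ p ∂ν + d ^ 2 := by
    intro d
    have e : ∀ p, (nrm g₀ g₁ p - d) ^ 2 = nrm g₀ g₁ p ^ 2 - 2 * d * nrm g₀ g₁ p + d ^ 2 := by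
      intro p; ring
    simp only [e]
    have h3 : Integrable (fun p => 2 * d * nrm g₀ g₁ p) ν := hi1.const_mul _
    have h4 : Integrable (fun p => nrm g₀ g₁ p ^ 2 - 2 * d * nrm g₀ g₁ p) ν := hi2.sub h3
    rw [integral_add h4 (integrable_const _), integral_sub hi2 h3, integral_const_mul, h]
    simp
  have hs := Real.sq_sqrt hc0.le
  have hsp := Real.sqrt_pos.2 hc0
  refine ⟨hc0, ?_, ?_⟩
  · have h1 := key (Real.sqrt c)
    have h2 : 0 ≤ ∫ p, (nrm g₀ g₁ p - Real.sqrt c) ^ 2 ∂ν := integral_nonneg fun p => sq_nonneg _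
    rw [h1] at h2
    nlinarith
  · intro h1
    rw [key, h1]
    nlinarith


end Main

section Main2

variable [CompactSpace M] [T2Space M] [MeasurableSpace M] [BorelSpace M]

omit [CompactSpace M] [T2Space M] [MeasurableSpace M] [BorelSpace M] in
theorem inner_eq_of_nrm {g₀ g₁ : RMetric (EV n) M} {c : ℝ} (hc : 0 < c)
    (h : ∀ p, nrm g₀ g₁ p = Real.sqrt c) (x : M) (v w : TangentSpace 𝓘(ℝ, EV n) x) :
    g₁.inner x v w = c * g₀.inner x v w := by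
  have key : ∀ v : TangentSpace 𝓘(ℝ, EV n) x, g₁.inner x v v = c * g₀.inner x v v := by
    intro v
    rcases eq_or_ne v 0 with rfl | hv
    · simp
    · have h1 := h (unitDir g₀ x v hv)
      have h0 := g₀.pos x v hv
      have h3 := Real.sqrt_pos.2 h0
      have h4 := Real.sq_sqrt h0.le
      unfold nrm at h1
      have h6 : Real.sqrt (g₁.inner x ((Real.sqrt (g₀.inner x v v))⁻¹ • v)
        ((Real.sqrt (g₀.inner x v v))⁻¹ • v)) = Real.sqrt c := h1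
      have h7 : 0 ≤ g₁.inner x ((Real.sqrt (g₀.inner x v v))⁻¹ • v)
        ((Real.sqrt (g₀.inner x v v))⁻¹ • v) :=
        (g₁.pos x _ (smul_ne_zero (inv_ne_zero h3.ne') hv)).le
      have h2 := (Real.sqrt_inj h7 hc.le).1 h6
      simp only [map_smul, smul_apply, smul_eq_mul] at h2
      field_simp at h2
      rw [h2, h4, mul_comm]
  have h1 := key (v + w)
  have h2 := key v
  have h3 := key w
  simp only [map_add, add_apply] at h1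
  have h4 := g₀.symm x v w
  have h5 := g₁.symm x v w
  rw [h2, h3, ← h4, ← h5] at h1
  linarith

theorem IsRiemVol.existsUnique (g : RMetric (EV n) M) : ∃! μ : Measure M, IsRiemVol g μ := by
  obtain ⟨μ, hμ⟩ := exists_riemVol g
  exact ⟨μ, hμ, fun μ' hμ' => hμ'.unique hμ⟩

/-- one direction of the entropy comparison -/
theorem compare [ConnectedSpace M] (hn : 1 ≤ n) {g₀ g₁ : RMetric (EV n) M}
    (hN₀ : NegCurvature g₀) (hN₁ : NegCurvature g₁)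
    {φ₀ : ℝ → UT g₀ → UT g₀} {φ₁ : ℝ → UT g₁ → UT g₁} {μ₀ : Measure M}
    {m₀ : Measure (UT g₀)} (hφ₀ : IsGeoFlow g₀ φ₀) (hφ₁ : IsGeoFlow g₁ φ₁)
    (hμ₀ : IsRiemVol g₀ μ₀) (hm₀ : IsLiouville g₀ μ₀ m₀) :
    ksEntropy m₀ (φ₀ 1) ≤ ENNReal.ofReal (∫ p, nrm g₀ g₁ p ∂m₀) * topEntropy (φ₁ 1) ∧
      0 < ∫ p, nrm g₀ g₁ p ∂m₀ ∧ ksEntropy m₀ (φ₀ 1) ≠ ⊤ := by
  have := hm₀.1
  have := compactSpace_UT g₀
  have hν : ∀ t, MeasurePreserving (φ₀ t) m₀ m₀ := fun t => hm₀.measurePreserving hn hφ₀ hμ₀ t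
  have hcont := continuous_nrm g₀ g₁
  have hi1 : Integrable (nrm g₀ g₁) m₀ :=
    hcont.integrable_of_hasCompactSupport (HasCompactSupport.of_compactSpace _)
  have hpos : 0 < ∫ p, nrm g₀ g₁ p ∂m₀ := by
    rw [integral_pos_iff_support_of_nonneg (fun p => (nrm_pos g₀ g₁ p).le) hi1]
    have : Function.support (nrm g₀ g₁) = univ := by
      ext p; simp [(nrm_pos g₀ g₁ p).ne']
    rw [this]; simp
  exact ⟨stretch hφ₀ hφ₁ (npc_of_neg hN₀) (npc_of_neg hN₁) hν hpos le_rfl, hpos,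
    ksEntropy_ne_top hφ₀ (npc_of_neg hN₀) hν⟩

/-- the equality case of Cauchy-Schwarz -/
theorem homothetic_of_eq (hn : 1 ≤ n) {g₀ g₁ : RMetric (EV n) M} {μ₀ : Measure M}
    {m₀ : Measure (UT g₀)} (hμ₀ : IsRiemVol g₀ μ₀) (hm₀ : IsLiouville g₀ μ₀ m₀)
    (h : Real.sqrt (∫ p, nrm g₀ g₁ p ^ 2 ∂m₀) ≤ ∫ p, nrm g₀ g₁ p ∂m₀) :
    ∀ x v w, g₁.inner x v w = (∫ p, nrm g₀ g₁ p ^ 2 ∂m₀) * g₀.inner x v w := by
  have := hm₀.1
  obtain ⟨hc0, hA, hE⟩ := integral_nrm_le (g₀ := g₀) (g₁ := g₁) (ν := m₀) rfl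
  have hcont := continuous_nrm g₀ g₁
  have h1 := hm₀.eq_zero hn hμ₀
    (a := fun p => (nrm g₀ g₁ p - Real.sqrt (∫ p, nrm g₀ g₁ p ^ 2 ∂m₀)) ^ 2)
    ((hcont.sub continuous_const).pow 2) (fun p => sq_nonneg _) (hE (le_antisymm hA h))
  exact inner_eq_of_nrm hc0 fun p => by
    have := h1 p
    have h2 := pow_eq_zero_iff (two_ne_zero) |>.1 this
    linarith

/-- the criterion -/
theorem criterion (hn : 2 ≤ n) [ConnectedSpace M] {g₀ g₁ : RMetric (EV n) M}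
    (hN₀ : NegCurvature g₀) (hN₁ : NegCurvature g₁)
    {φ₀ : ℝ → UT g₀ → UT g₀} {φ₁ : ℝ → UT g₁ → UT g₁} {μ₀ μ₁ : Measure M}
    {m₀ : Measure (UT g₀)} {m₁ : Measure (UT g₁)}
    (hφ₀ : IsGeoFlow g₀ φ₀) (hφ₁ : IsGeoFlow g₁ φ₁)
    (hμ₀ : IsRiemVol g₀ μ₀) (hμ₁ : IsRiemVol g₁ μ₁)
    (hm₀ : IsLiouville g₀ μ₀ m₀) (hm₁ : IsLiouville g₁ μ₁ m₁)
    (hcr : (∫ p, nrm g₀ g₁ p ∂m₀) * (∫ p, nrm g₁ g₀ p ∂m₁) < 1 ∨
      (∫ p, nrm g₀ g₁ p ^ 2 ∂m₀) * (∫ p, nrm g₁ g₀ p ^ 2 ∂m₁) ≤ 1)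
    (e₀ : ksEntropy m₀ (φ₀ 1) = topEntropy (φ₀ 1))
    (e₁ : ksEntropy m₁ (φ₁ 1) = topEntropy (φ₁ 1)) :
    ∃ c : ℝ, 0 < c ∧ c = ∫ p, nrm g₀ g₁ p ^ 2 ∂m₀ ∧
      ∀ x v w, g₁.inner x v w = c * g₀.inner x v w := by
  have hn1 : 1 ≤ n := by omega
  have := hm₀.1
  have := hm₁.1
  obtain ⟨hS₀, hA₀, hF₀⟩ := compare hn1 hN₀ hN₁ hφ₀ hφ₁ hμ₀ hm₀
  obtain ⟨hS₁, hA₁, hF₁⟩ := compare hn1 hN₁ hN₀ hφ₁ hφ₀ hμ₁ hm₁
  obtain ⟨hB₀, hC₀, -⟩ := integral_nrm_le (g₀ := g₀) (g₁ := g₁) (ν := m₀) rfl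
  obtain ⟨hB₁, hC₁, -⟩ := integral_nrm_le (g₀ := g₁) (g₁ := g₀) (ν := m₁) rfl
  have hh := homothetic_of_eq hn1 hμ₀ hm₀ (g₀ := g₀) (g₁ := g₁)
  set A₀ := ∫ p, nrm g₀ g₁ p ∂m₀ with hA₀d
  set A₁ := ∫ p, nrm g₁ g₀ p ∂m₁ with hA₁d
  set B₀ := ∫ p, nrm g₀ g₁ p ^ 2 ∂m₀ with hB₀d
  set B₁ := ∫ p, nrm g₁ g₀ p ^ 2 ∂m₁ with hB₁d
  set H := topEntropy (φ₀ 1) with hH
  have hHpos : 0 < H := topEntropy_pos hn hφ₀ hN₀
  have hHtop : H ≠ ⊤ := by rw [← e₀]; exact hF₀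
  rw [← e₁, e₀] at hS₀
  have h1 : H ≤ ENNReal.ofReal A₀ * (ENNReal.ofReal A₁ * H) :=
    hS₀.trans (mul_le_mul_right hS₁ _)
  rw [← mul_assoc, ← ENNReal.ofReal_mul hA₀.le] at h1
  have h2 : (1 : ℝ≥0∞) ≤ ENNReal.ofReal (A₀ * A₁) := by
    by_contra h3
    push Not at h3
    have h4 : ENNReal.ofReal (A₀ * A₁) * H < 1 * H :=
      ENNReal.mul_lt_mul_left hHpos.ne' hHtop h3
    rw [one_mul] at h4
    exact absurd h1 (not_le.2 h4)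
  rw [ENNReal.one_le_ofReal] at h2
  rcases hcr with hcr | hcr
  · exact absurd h2 (not_le.2 hcr)
  have hsB₀ := Real.sqrt_pos.2 hB₀
  have hsB₁ := Real.sqrt_pos.2 hB₁
  have h5 : Real.sqrt B₀ * Real.sqrt B₁ ≤ 1 := by
    rw [← Real.sqrt_mul hB₀.le]
    exact Real.sqrt_le_one.2 hcr
  refine ⟨B₀, hB₀, rfl, hh ?_⟩
  by_contra h6
  push Not at h6
  have h7 : A₀ * A₁ < Real.sqrt B₀ * Real.sqrt B₁ := mul_lt_mul h6 hC₁ hA₁ hsB₀.le
  linarith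

/-- the final theorem -/
theorem main (hn : 2 ≤ n) [ConnectedSpace M] :
    (∀ g : RMetric (EV n) M, (∃! φ, IsGeoFlow g φ) ∧ (∃! μ : Measure M, IsRiemVol g μ) ∧
      ∀ μ : Measure M, IsRiemVol g μ → ∃! m, IsLiouville g μ m) ∧
    ∀ (g₀ g₁ : RMetric (EV n) M), NegCurvature g₀ → NegCurvature g₁ →
      ∀ (φ₀ : ℝ → UT g₀ → UT g₀) (φ₁ : ℝ → UT g₁ → UT g₁) (μ₀ μ₁ : Measure M)
        (m₀ : Measure (UT g₀)) (m₁ : Measure (UT g₁)),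
        IsGeoFlow g₀ φ₀ → IsGeoFlow g₁ φ₁ → IsRiemVol g₀ μ₀ → IsRiemVol g₁ μ₁ →
        IsLiouville g₀ μ₀ m₀ → IsLiouville g₁ μ₁ m₁ →
        ksEntropy m₀ (φ₀ 1) ≤ ENNReal.ofReal (∫ p, nrm g₀ g₁ p ∂m₀) * topEntropy (φ₁ 1) ∧
        (∀ (J : EndField n M) (c : ℝ), IsKaehler g₀ J → IsKaehler g₁ J → SameClass g₀ g₁ J c →
          0 < c ∧ ∫ p, nrm g₀ g₁ p ^ 2 ∂m₀ = c ∧ ∫ p, nrm g₁ g₀ p ^ 2 ∂m₁ = c⁻¹ ∧
          ksEntropy m₀ (φ₀ 1) ≤ ENNReal.ofReal (Real.sqrt c) * topEntropy (φ₁ 1) ∧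
          ENNReal.ofReal (Real.sqrt c) * ksEntropy m₁ (φ₁ 1) ≤ topEntropy (φ₀ 1)) ∧
        ((∫ p, nrm g₀ g₁ p ∂m₀) * (∫ p, nrm g₁ g₀ p ∂m₁) < 1 ∨
          (∫ p, nrm g₀ g₁ p ^ 2 ∂m₀) * (∫ p, nrm g₁ g₀ p ^ 2 ∂m₁) ≤ 1 →
          (ksEntropy m₀ (φ₀ 1) = topEntropy (φ₀ 1) → ksEntropy m₁ (φ₁ 1) = topEntropy (φ₁ 1) →
            ∃ c : ℝ, 0 < c ∧ ∀ x v w, g₁.inner x v w = c * g₀.inner x v w) ∧
          (LocSymmetric g₀ → (ksEntropy m₁ (φ₁ 1) = topEntropy (φ₁ 1) ↔ LocSymmetric g₁))) := by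
  have hn1 : 1 ≤ n := by omega
  refine ⟨fun g => ⟨?_, IsRiemVol.existsUnique g, fun μ hμ => ?_⟩, ?_⟩
  · obtain ⟨φ, hφ⟩ := exists_geoFlow g
    exact ⟨φ, hφ, fun ψ hψ => hψ.unique hφ⟩
  · obtain ⟨m, hm⟩ := exists_liouville hn1 hμ
    exact ⟨m, hm, fun m' hm' => hm'.unique hm⟩
  intro g₀ g₁ hN₀ hN₁ φ₀ φ₁ μ₀ μ₁ m₀ m₁ hφ₀ hφ₁ hμ₀ hμ₁ hm₀ hm₁
  have := hm₀.1
  have := hm₁.1
  obtain ⟨hS₀, hA₀, hF₀⟩ := compare hn1 hN₀ hN₁ hφ₀ hφ₁ hμ₀ hm₀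
  obtain ⟨hS₁, hA₁, hF₁⟩ := compare hn1 hN₁ hN₀ hφ₁ hφ₀ hμ₁ hm₁
  refine ⟨hS₀, ?_, ?_⟩
  · intro J c hK₀ hK₁ hc
    have hB₀ := integral_nrm_sq hn1 hφ₀ hμ₀ hm₀ hK₀ hK₁ hc
    obtain ⟨hc0, hC₀, -⟩ := integral_nrm_le hB₀
    have hB₁ := integral_nrm_sq hn1 hφ₁ hμ₁ hm₁ hK₁ hK₀ (hc.symm hc0.ne')
    obtain ⟨-, hC₁, -⟩ := integral_nrm_le hB₁
    have hsc := Real.sqrt_pos.2 hc0
    have hinv : Real.sqrt c⁻¹ = (Real.sqrt c)⁻¹ := Real.sqrt_inv c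
    rw [hinv] at hC₁
    have hprod : Real.sqrt c * ∫ p, nrm g₁ g₀ p ∂m₁ ≤ 1 := by
      calc Real.sqrt c * ∫ p, nrm g₁ g₀ p ∂m₁ ≤ Real.sqrt c * (Real.sqrt c)⁻¹ :=
            mul_le_mul_of_nonneg_left hC₁ hsc.le
        _ = 1 := mul_inv_cancel₀ hsc.ne'
    refine ⟨hc0, hB₀, hB₁, hS₀.trans (mul_le_mul_left (ENNReal.ofReal_le_ofReal hC₀) _), ?_⟩
    calc ENNReal.ofReal (Real.sqrt c) * ksEntropy m₁ (φ₁ 1)
        ≤ ENNReal.ofReal (Real.sqrt c) *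
            (ENNReal.ofReal (∫ p, nrm g₁ g₀ p ∂m₁) * topEntropy (φ₀ 1)) :=
          mul_le_mul_right hS₁ _
      _ = ENNReal.ofReal (Real.sqrt c * ∫ p, nrm g₁ g₀ p ∂m₁) * topEntropy (φ₀ 1) := by
          rw [← mul_assoc, ← ENNReal.ofReal_mul hsc.le]
      _ ≤ 1 * topEntropy (φ₀ 1) := mul_le_mul_left (ENNReal.ofReal_le_one.2 hprod) _
      _ = topEntropy (φ₀ 1) := one_mul _
  · intro hcr
    have hcrit := criterion hn hN₀ hN₁ hφ₀ hφ₁ hμ₀ hμ₁ hm₀ hm₁ hcr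
    refine ⟨fun e₀ e₁ => ?_, fun hL₀ => ⟨fun e₁ => ?_, fun hL₁ => ?_⟩⟩
    · obtain ⟨c, hc, -, h⟩ := hcrit e₀ e₁
      exact ⟨c, hc, h⟩
    · obtain ⟨c, hc, -, h⟩ := hcrit (ksEntropy_eq_of_locSymmetric hn hφ₀ hμ₀ hm₀ hN₀ hL₀) e₁
      exact locSymmetric_of_smul hc.ne' h hL₀
    · exact ksEntropy_eq_of_locSymmetric hn hφ₁ hμ₁ hm₁ hN₁ hL₁

end Main2

end Vale.Agent.P207
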