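import Vale.Agent.P207.FDefs
import Vale.Agent.P207.Fin

/-!
# P207: the definitions of the final statements agree with the working definitions
-/

open scoped Manifold ContDiff ENNReal
open Bundle MeasureTheory Set Filter

noncomputable section

namespace Vale.Agent.P207F

open Vale.Agent.P255 (RMetric innerAt coefIn Gam Riem IsGeo)

variable {n : ℕ} {M : Type} [TopologicalSpace M] [ChartedSpace (EV n) M]
  [IsManifold 𝓘(ℝ, EV n) ∞ M] {g g₀ g₁ : RMetric (EV n) M}

theorem isGeoFlow_iff {φ : ℝ → UT g → UT g} : IsGeoFlow g φ ↔ P207.IsGeoFlow g φ := Iff.rfl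

theorem ksEntropy_eq {X : Type} [MeasurableSpace X] (μ : Measure X) (T : X → X) :
    ksEntropy μ T = P207.ksEntropy μ T := rfl

theorem topEntropy_eq {X : Type} [TopologicalSpace X] (T : X → X) :
    topEntropy T = P207.topEntropy T := rfl

theorem negCurvature_iff : NegCurvature g ↔ P207.NegCurvature g := Iff.rfl

theorem locSymmetric_iff : LocSymmetric g ↔ P207.LocSymmetric g := Iff.rfl

theorem isKaehler_iff {J : EndField (EV n) M} : IsKaehler g J ↔ P207.IsKaehler g J := Iff.rfl

theorem sameClass_iff {J : EndField (EV n) M} {c : ℝ} :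
    SameClass g₀ g₁ J c ↔ P207.SameClass g₀ g₁ J c := Iff.rfl

variable [MeasurableSpace M]

theorem isRiemVol_iff {μ : Measure M} : IsRiemVol (stdB n) g μ ↔ P207.IsRiemVol g μ := Iff.rfl

theorem isLiouville_iff {μ : Measure M} {m : Measure (UT g)} :
    IsLiouville g μ m ↔ P207.IsLiouville g μ m := Iff.rfl

theorem eps_iff {α : Type} (h : Nonempty α) {p : α → Prop} (hp : ∃! x, p x) (x : α) :
    p x ↔ x = @Classical.epsilon α h p := by
  have h1 : p (@Classical.epsilon α h p) := Classical.epsilon_spec hp.exists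
  constructor
  · intro h2
    exact hp.unique h2 h1
  · rintro rfl
    exact h1

theorem wellDefined [CompactSpace M] [T2Space M] [ConnectedSpace M] [BorelSpace M] (hn : 2 ≤ n)
    (g : RMetric (EV n) M) : WellDefined (stdB n) g := by
  obtain ⟨h1, h2, h3⟩ := (P207.main hn).1 g
  have e2 : ∀ μ, IsRiemVol (stdB n) g μ ↔ μ = vol (stdB n) g := fun μ => eps_iff _ h2 μ
  have hv : IsRiemVol (stdB n) g (vol (stdB n) g) := (e2 _).2 rfl
  exact ⟨fun φ => eps_iff _ h1 φ, e2, fun m => eps_iff _ (h3 _ hv) m⟩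

omit [MeasurableSpace M] in
theorem IsMul.pos [Nonempty M] (hn : 1 ≤ n) {c : ℝ} (h : IsMul g₀ g₁ c) : 0 < c := by
  obtain ⟨x⟩ : Nonempty M := ‹_›
  have hv : (stdB n ⟨0, hn⟩ : TangentSpace 𝓘(ℝ, EV n) x) ≠ 0 := by
    intro h0
    have h1 := congrArg (fun w : EV n => w ⟨0, hn⟩) h0
    simp [stdB] at h1
  have h1 : 0 < innerAt g₁ x _ _ := g₁.pos x _ hv
  have h0 : 0 < innerAt g₀ x _ _ := g₀.pos x _ hv
  have h2 := h1.trans_eq (h x _ _)
  exact pos_of_mul_pos_left h2 h0.le

end Vale.Agent.P207F
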