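import Mathlib
import Vale.Agent.P255.FinalDefs

/-!
# P207 (Katok's entropy rigidity conjecture): definitions of the final statement

`M` is a closed manifold modelled on `EV n = ℝⁿ`; metrics are Mathlib's `C^∞` Riemannian metrics
(`RMetric`), and `coefIn g a u v w`, `Gam`, `Riem`, `IsGeo` are the metric coefficients in the
chart at `a`, the Christoffel symbols, the curvature tensor and the geodesics of
`Vale.Agent.P255.FinalDefs`.
-/

open scoped Manifold ContDiff ENNReal
open Bundle MeasureTheory Set Filter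

noncomputable section

namespace Vale.Agent.P207

open Vale.Agent.P255 (RMetric coefIn Gam Riem IsGeo)

/-! ### Entropy -/

section Entropy

/-- The name of length `n` of the point `x` with respect to the finite coding `f`. -/
def name {X A : Type} (T : X → X) (f : X → A) (n : ℕ) (x : X) : Fin n → A :=
  fun i => f (T^[i] x)

/-- Shannon entropy (natural logarithm) of a map to a finite type. -/
def shannon {X A : Type} [MeasurableSpace X] [Fintype A] (μ : Measure X) (f : X → A) : ℝ :=
  ∑ a, Real.negMulLog (μ.real (f ⁻¹' {a}))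

/-- Kolmogorov-Sinai entropy: supremum over the finite measurable partitions of the exponential
growth rate of the entropy of the names. -/
def ksEntropy {X : Type} [MeasurableSpace X] (μ : Measure X) (T : X → X) : ℝ≥0∞ :=
  ⨆ (k : ℕ) (f : X → Fin k) (_ : Measurable f),
    limsup (fun n : ℕ => ENNReal.ofReal (shannon μ (name T f n) / n)) atTop

/-- The least number of elements of `U ∨ T⁻¹ U ∨ ⋯ ∨ T^{-(n-1)} U` needed to cover `X`. -/
def coverNum {X : Type} (T : X → X) {k : ℕ} (U : Fin k → Set X) (n : ℕ) : ℕ :=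
  sInf {m | ∃ W : Finset (Fin n → Fin k), W.card = m ∧
    ∀ x, ∃ w ∈ W, ∀ i : Fin n, T^[i] x ∈ U (w i)}

/-- Topological entropy (Adler-Konheim-McAndrew): supremum over the finite open covers `U` of the
exponential growth rate of the covering numbers of `U ∨ T⁻¹ U ∨ ⋯ ∨ T^{-(n-1)} U`. -/
def topEntropy {X : Type} [TopologicalSpace X] (T : X → X) : ℝ≥0∞ :=
  ⨆ (k : ℕ) (U : Fin k → Set X) (_ : ∀ i, IsOpen (U i)) (_ : ⋃ i, U i = univ),
    limsup (fun n : ℕ => ENNReal.ofReal (Real.log (coverNum T U n) / n)) atTop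

end Entropy

/-! ### The unit tangent bundle, the geodesic flow, the Liouville measure -/

/-- The model space `ℝⁿ`. -/
abbrev EV (n : ℕ) : Type := EuclideanSpace ℝ (Fin n)

variable {n : ℕ} {M : Type} [TopologicalSpace M] [ChartedSpace (EV n) M]
  [IsManifold 𝓘(ℝ, EV n) ∞ M]

/-- The unit tangent bundle `S^g M`, a subspace of Mathlib's tangent bundle. -/
def UT (g : RMetric (EV n) M) : Type :=
  {p : TangentBundle 𝓘(ℝ, EV n) M // g.inner p.1 p.2 p.2 = 1}

instance (g : RMetric (EV n) M) : TopologicalSpace (UT g) :=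
  inferInstanceAs (TopologicalSpace {p : TangentBundle 𝓘(ℝ, EV n) M // g.inner p.1 p.2 p.2 = 1})

instance (g : RMetric (EV n) M) : MeasurableSpace (UT g) := borel _

instance (g : RMetric (EV n) M) : BorelSpace (UT g) := ⟨rfl⟩

/-- The base point of a unit vector. -/
def UT.pt {g : RMetric (EV n) M} (p : UT g) : M := p.1.1

/-- The unit vector itself. -/
def UT.vec {g : RMetric (EV n) M} (p : UT g) : TangentSpace 𝓘(ℝ, EV n) p.pt := p.1.2

/-- `φ` is the geodesic flow of `g` on the unit tangent bundle: `φ t p` is the velocity at time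
`t` of the geodesic with initial velocity `p`. -/
def IsGeoFlow (g : RMetric (EV n) M) (φ : ℝ → UT g → UT g) : Prop :=
  ∀ p : UT g, φ 0 p = p ∧ IsGeo g (fun t => (φ t p).pt) ∧
    ∀ t, mfderiv 𝓘(ℝ, ℝ) 𝓘(ℝ, EV n) (fun s => (φ s p).pt) t (1 : ℝ) = (φ t p).vec

/-- `μ` is the Riemannian volume of `g`: in every chart `chartAt (EV n) a` it is
`√(det g_{ij}) dx`. -/
def IsRiemVol [MeasurableSpace M] (g : RMetric (EV n) M) (μ : Measure M) : Prop :=
  ∀ (a : M) (s : Set M), MeasurableSet s → s ⊆ (chartAt (EV n) a).source →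
    μ s = ∫⁻ u in (chartAt (EV n) a) '' s, ENNReal.ofReal (Real.sqrt (Matrix.of fun i j : Fin n =>
      coefIn g a u (EuclideanSpace.single i 1) (EuclideanSpace.single j 1)).det)

/-- The unit vector `v / |v|` of a nonzero tangent vector `v`. -/
def unitDir (g : RMetric (EV n) M) (x : M) (v : TangentSpace 𝓘(ℝ, EV n) x) (hv : v ≠ 0) : UT g :=
  ⟨⟨x, (Real.sqrt (g.inner x v v))⁻¹ • v⟩, by
    have h1 := g.pos x v hv
    simp only [map_smul, smul_apply, smul_eq_mul]
    rw [← mul_assoc, ← mul_inv, Real.mul_self_sqrt h1.le, inv_mul_cancel₀ h1.ne']⟩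

open Classical in
/-- `a (v / |v|)`, for a function `a` on the unit tangent bundle. -/
def radial (g : RMetric (EV n) M) (a : UT g → ℝ) (x : M) (v : TangentSpace 𝓘(ℝ, EV n) x) : ℝ :=
  if h : v = 0 then 0 else a (unitDir g x v h)

/-- The unit ball of `(T_x M, g_x)`; as a vector space `T_x M` is `EV n`. -/
def ballAt (g : RMetric (EV n) M) (x : M) : Set (EV n) :=
  {v | g.inner x (v : TangentSpace 𝓘(ℝ, EV n) x) (v : TangentSpace 𝓘(ℝ, EV n) x) < 1}

/-- The average of `a` over the unit sphere of `(T_x M, g_x)` with respect to the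
rotation-invariant probability measure `σ_x`: the average of `v ↦ a (v / |v|)` over the unit ball
with respect to Lebesgue measure. -/
def sphAvg (g : RMetric (EV n) M) (a : UT g → ℝ) (x : M) : ℝ :=
  (∫ v in ballAt g x, radial g a x v) / volume.real (ballAt g x)

/-- `m` is the normalized Liouville measure of `g`, where `μ` is the Riemannian volume:
`∫ a dm = (1 / Vol M) ∫_M ∫_{S_x M} a dσ_x dVol`. -/
def IsLiouville [MeasurableSpace M] (g : RMetric (EV n) M) (μ : Measure M) (m : Measure (UT g)) :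
    Prop :=
  IsProbabilityMeasure m ∧
    ∀ a : UT g → ℝ, Continuous a → ∫ p, a p ∂m = (∫ x, sphAvg g a x ∂μ) / μ.real univ

/-! ### Curvature -/

/-- Strictly negative sectional curvature: `⟨R(v,w)w, v⟩ < 0` for linearly independent tangent
vectors `v, w` (components in the chart at `a`) at all points. -/
def NegCurvature (g : RMetric (EV n) M) : Prop :=
  ∀ (a : M), ∀ u ∈ (chartAt (EV n) a).target, ∀ v w : EV n, LinearIndependent ℝ ![v, w] →
    coefIn g a u (Riem (coefIn g a) u v w w) v < 0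

/-- `∇R = 0`: the metric is locally symmetric. -/
def LocSymmetric (g : RMetric (EV n) M) : Prop :=
  ∀ (a : M), ∀ u ∈ (chartAt (EV n) a).target, ∀ w x y z : EV n,
    fderiv ℝ (fun p => Riem (coefIn g a) p x y z) u w
      + Gam (coefIn g a) u w (Riem (coefIn g a) u x y z)
      - Riem (coefIn g a) u (Gam (coefIn g a) u w x) y z
      - Riem (coefIn g a) u x (Gam (coefIn g a) u w y) z
      - Riem (coefIn g a) u x y (Gam (coefIn g a) u w z) = 0

/-! ### Kähler metrics -/

/-- Fields of endomorphisms of the tangent spaces. -/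
abbrev EndField (n : ℕ) (M : Type) [TopologicalSpace M] [ChartedSpace (EV n) M] : Type :=
  ∀ x : M, TangentSpace 𝓘(ℝ, EV n) x →L[ℝ] TangentSpace 𝓘(ℝ, EV n) x

/-- `1`-forms. -/
abbrev Form1 (n : ℕ) (M : Type) [TopologicalSpace M] [ChartedSpace (EV n) M] : Type :=
  ∀ x : M, TangentSpace 𝓘(ℝ, EV n) x →L[ℝ] ℝ

/-- The field of endomorphisms `J` read in the chart at `a`. -/
def endIn (J : EndField n M) (a : M) (u : EV n) : EV n →L[ℝ] EV n :=
  let D : EV n →L[ℝ] EV n := mfderiv 𝓘(ℝ, EV n) 𝓘(ℝ, EV n) (chartAt (EV n) a).symm u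
  let D' : EV n →L[ℝ] EV n :=
    mfderiv 𝓘(ℝ, EV n) 𝓘(ℝ, EV n) (chartAt (EV n) a) ((chartAt (EV n) a).symm u)
  let L : EV n →L[ℝ] EV n := J ((chartAt (EV n) a).symm u)
  D' ∘L L ∘L D

/-- The `1`-form `η` read in the chart at `a`. -/
def formIn (η : Form1 n M) (a : M) (u : EV n) : EV n →L[ℝ] ℝ :=
  let D : EV n →L[ℝ] EV n := mfderiv 𝓘(ℝ, EV n) 𝓘(ℝ, EV n) (chartAt (EV n) a).symm u
  let L : EV n →L[ℝ] ℝ := η ((chartAt (EV n) a).symm u)
  L ∘L D

/-- `(M, g, J)` is a Kähler manifold: `J` is smooth, `J² = -1`, `J` is orthogonal and parallel. -/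
def IsKaehler (g : RMetric (EV n) M) (J : EndField n M) : Prop :=
  (∀ x v, J x (J x v) = -v) ∧ (∀ x v w, g.inner x (J x v) (J x w) = g.inner x v w) ∧
  ∀ a : M, ContDiffOn ℝ ∞ (endIn J a) (chartAt (EV n) a).target ∧
    ∀ u ∈ (chartAt (EV n) a).target, ∀ w v : EV n,
      fderiv ℝ (endIn J a) u w v + Gam (coefIn g a) u w (endIn J a u v)
        - endIn J a u (Gam (coefIn g a) u w v) = 0

/-- The Kähler classes satisfy `[ω₁] = c [ω₀]`: the `2`-form `ω₁ - c ω₀`, where
`ωᵢ(v,w) = gᵢ(J v, w)`, is the exterior derivative of a smooth `1`-form `η`. -/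
def SameClass (g₀ g₁ : RMetric (EV n) M) (J : EndField n M) (c : ℝ) : Prop :=
  ∃ η : Form1 n M, ∀ a : M, ContDiffOn ℝ ∞ (formIn η a) (chartAt (EV n) a).target ∧
    ∀ u ∈ (chartAt (EV n) a).target, ∀ v w : EV n,
      coefIn g₁ a u (endIn J a u v) w - c * coefIn g₀ a u (endIn J a u v) w
        = fderiv ℝ (formIn η a) u v w - fderiv ℝ (formIn η a) u w v

/-- The `g₁`-length of a `g₀`-unit vector. -/
def nrm (g₀ g₁ : RMetric (EV n) M) (p : UT g₀) : ℝ := Real.sqrt (g₁.inner p.pt p.vec p.vec)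

end Vale.Agent.P207
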