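import Mathlib
import Vale.Agent.P255.FinalDefs

/-!
# P207 (Katok's entropy rigidity conjecture): definitions used by the final statements

`M` is a smooth manifold modelled on `E` (in the theorems `E = ℝⁿ`); metrics are Mathlib's `C^∞`
Riemannian metrics (`RMetric`), and `innerAt`, `coefIn g a u v w`, `Gam`, `Riem`, `IsGeo` are the
inner product, the metric coefficients in the chart at `a`, the Christoffel symbols, the curvature
tensor and the geodesics of `Vale.Agent.P255.FinalDefs`.
-/

open scoped Manifold ContDiff ENNReal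
open Bundle MeasureTheory Set Filter

noncomputable section

namespace Vale.Agent.P207F

open Vale.Agent.P255 (RMetric innerAt coefIn Gam Riem IsGeo)

/-! ### Entropy -/

section Entropy

/-- The name of length `n` of the point `x` with respect to the finite coding `f`. -/
def name {X A : Type} (T : X → X) (f : X → A) (n : ℕ) (x : X) : Fin n → A :=
  fun i => f (T^[i] x)

/-- Shannon entropy (natural logarithm) of a map to a finite type. -/
def shannon {X A : Type} [MeasurableSpace X] [Fintype A] (μ : Measure X) (f : X → A) : ℝ :=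
  ∑ a, Real.negMulLog (μ.real (f ⁻¹' {a}))

/-- Kolmogorov-Sinai entropy: supremum over the finite measurable partitions of the exponential
growth rate of the entropy of the names. -/
def ksEntropy {X : Type} [MeasurableSpace X] (μ : Measure X) (T : X → X) : ℝ≥0∞ :=
  ⨆ (k : ℕ) (f : X → Fin k) (_ : Measurable f),
    limsup (fun n : ℕ => ENNReal.ofReal (shannon μ (name T f n) / n)) atTop

/-- The least number of elements of `U ∨ T⁻¹ U ∨ ⋯ ∨ T^{-(n-1)} U` needed to cover `X`. -/
def coverNum {X : Type} (T : X → X) {k : ℕ} (U : Fin k → Set X) (n : ℕ) : ℕ :=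
  sInf {m | ∃ W : Finset (Fin n → Fin k), W.card = m ∧
    ∀ x, ∃ w ∈ W, ∀ i : Fin n, T^[i] x ∈ U (w i)}

/-- Topological entropy (Adler-Konheim-McAndrew): supremum over the finite open covers `U` of the
exponential growth rate of the covering numbers of `U ∨ T⁻¹ U ∨ ⋯ ∨ T^{-(n-1)} U`. -/
def topEntropy {X : Type} [TopologicalSpace X] (T : X → X) : ℝ≥0∞ :=
  ⨆ (k : ℕ) (U : Fin k → Set X) (_ : ∀ i, IsOpen (U i)) (_ : ⋃ i, U i = univ),
    limsup (fun n : ℕ => ENNReal.ofReal (Real.log (coverNum T U n) / n)) atTop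

end Entropy

variable {E : Type} [NormedAddCommGroup E] [NormedSpace ℝ E] {M : Type} [TopologicalSpace M]
  [ChartedSpace E M] [IsManifold 𝓘(ℝ, E) ∞ M]

/-! ### The unit tangent bundle and the geodesic flow -/

/-- The unit tangent bundle `S^g M`, a subspace of Mathlib's tangent bundle. -/
def UT (g : RMetric E M) : Type :=
  {p : TangentBundle 𝓘(ℝ, E) M // innerAt g p.1 p.2 p.2 = 1}

instance (g : RMetric E M) : TopologicalSpace (UT g) := instTopologicalSpaceSubtype

instance (g : RMetric E M) : MeasurableSpace (UT g) := borel _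

/-- The base point of a unit vector. -/
def UT.pt {g : RMetric E M} (p : UT g) : M := p.1.1

/-- The unit vector itself. -/
def UT.vec {g : RMetric E M} (p : UT g) : TangentSpace 𝓘(ℝ, E) p.pt := p.1.2

/-- `φ` is the geodesic flow of `g` on the unit tangent bundle: `φ t p` is the velocity at time
`t` of the geodesic with initial velocity `p`. -/
def IsGeoFlow (g : RMetric E M) (φ : ℝ → UT g → UT g) : Prop :=
  ∀ p : UT g, φ 0 p = p ∧ IsGeo g (fun t => (φ t p).pt) ∧
    ∀ t, mfderiv 𝓘(ℝ, ℝ) 𝓘(ℝ, E) (fun s => (φ s p).pt) t (1 : ℝ) = (φ t p).vec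

/-! ### The Riemannian volume and the Liouville measure -/

/-- `μ` is the Riemannian volume of `g`: in every chart `chartAt E a` it is `√(det g_{ij}) dx`
(`b` is the standard basis of `E = ℝⁿ`). -/
def IsRiemVol [MeasureSpace E] [MeasurableSpace M] {n : ℕ} (b : Fin n → E) (g : RMetric E M)
    (μ : Measure M) : Prop :=
  ∀ (a : M) (s : Set M), MeasurableSet s → s ⊆ (chartAt E a).source →
    μ s = ∫⁻ u in (chartAt E a) '' s, ENNReal.ofReal (Real.sqrt (Matrix.of fun i j : Fin n =>
      coefIn g a u (b i) (b j)).det)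

/-- The unit vector `v / |v|` of a nonzero tangent vector `v`. -/
def unitDir (g : RMetric E M) (x : M) (v : TangentSpace 𝓘(ℝ, E) x) (hv : v ≠ 0) : UT g :=
  ⟨⟨x, (Real.sqrt (innerAt g x v v))⁻¹ • v⟩, by
    have h1 : 0 < innerAt g x v v := g.pos x v hv
    have h2 : ∀ r : ℝ, innerAt g x (r • v) (r • v) = r * (r * innerAt g x v v) := fun r => by
      simp [innerAt]
    rw [h2, ← mul_assoc, ← mul_inv, Real.mul_self_sqrt h1.le, inv_mul_cancel₀ h1.ne']⟩

open Classical in
/-- `a (v / |v|)`, for a function `a` on the unit tangent bundle. -/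
def radial (g : RMetric E M) (a : UT g → ℝ) (x : M) (v : TangentSpace 𝓘(ℝ, E) x) : ℝ :=
  if h : v = 0 then 0 else a (unitDir g x v h)

/-- The unit ball of `(T_x M, g_x)`; as a vector space `T_x M` is `E`. -/
def ballAt (g : RMetric E M) (x : M) : Set E := {v | innerAt g x v v < 1}

/-- The average of `a` over the unit sphere of `(T_x M, g_x)` with respect to the
rotation-invariant probability measure `σ_x`: the average of `v ↦ a (v / |v|)` over the unit ball
with respect to Lebesgue measure. -/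
def sphAvg [MeasureSpace E] (g : RMetric E M) (a : UT g → ℝ) (x : M) : ℝ :=
  (∫ v in ballAt g x, radial g a x v) / volume.real (ballAt g x)

/-- `m` is the normalized Liouville measure of `g`, where `μ` is the Riemannian volume:
`∫ a dm = (1 / Vol M) ∫_M ∫_{S_x M} a dσ_x dVol`. -/
def IsLiouville [MeasureSpace E] [MeasurableSpace M] (g : RMetric E M) (μ : Measure M)
    (m : Measure (UT g)) : Prop :=
  IsProbabilityMeasure m ∧
    ∀ a : UT g → ℝ, Continuous a → ∫ p, a p ∂m = (∫ x, sphAvg g a x ∂μ) / μ.real univ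

/-! ### Curvature -/

/-- Strictly negative sectional curvature: `⟨R(v,w)w, v⟩ < 0` for linearly independent tangent
vectors `v, w` (components in the chart at `a`) at all points. -/
def NegCurvature (g : RMetric E M) : Prop :=
  ∀ (a : M), ∀ u ∈ (chartAt E a).target, ∀ v w : E, LinearIndependent ℝ ![v, w] →
    coefIn g a u (Riem (coefIn g a) u v w w) v < 0

/-- `∇R = 0`: the metric is locally symmetric. -/
def LocSymmetric (g : RMetric E M) : Prop :=
  ∀ (a : M), ∀ u ∈ (chartAt E a).target, ∀ w x y z : E,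
    fderiv ℝ (fun p => Riem (coefIn g a) p x y z) u w
      + Gam (coefIn g a) u w (Riem (coefIn g a) u x y z)
      - Riem (coefIn g a) u (Gam (coefIn g a) u w x) y z
      - Riem (coefIn g a) u x (Gam (coefIn g a) u w y) z
      - Riem (coefIn g a) u x y (Gam (coefIn g a) u w z) = 0

/-! ### Kähler metrics -/

/-- Fields of endomorphisms of the tangent spaces. -/
abbrev EndField (E M : Type) [NormedAddCommGroup E] [NormedSpace ℝ E] [TopologicalSpace M]
    [ChartedSpace E M] : Type :=
  ∀ x : M, TangentSpace 𝓘(ℝ, E) x →L[ℝ] TangentSpace 𝓘(ℝ, E) x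

/-- `1`-forms. -/
abbrev Form1 (E M : Type) [NormedAddCommGroup E] [NormedSpace ℝ E] [TopologicalSpace M]
    [ChartedSpace E M] : Type :=
  ∀ x : M, TangentSpace 𝓘(ℝ, E) x →L[ℝ] ℝ

/-- The field of endomorphisms `J` read in the chart at `a`. -/
def endIn (J : EndField E M) (a : M) (u : E) : E →L[ℝ] E :=
  let D : E →L[ℝ] E := mfderiv 𝓘(ℝ, E) 𝓘(ℝ, E) (chartAt E a).symm u
  let D' : E →L[ℝ] E := mfderiv 𝓘(ℝ, E) 𝓘(ℝ, E) (chartAt E a) ((chartAt E a).symm u)
  let L : E →L[ℝ] E := J ((chartAt E a).symm u)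
  D' ∘L L ∘L D

/-- The `1`-form `η` read in the chart at `a`. -/
def formIn (η : Form1 E M) (a : M) (u : E) : E →L[ℝ] ℝ :=
  let D : E →L[ℝ] E := mfderiv 𝓘(ℝ, E) 𝓘(ℝ, E) (chartAt E a).symm u
  let L : E →L[ℝ] ℝ := η ((chartAt E a).symm u)
  L ∘L D

/-- `(M, g, J)` is a Kähler manifold: `J` is smooth, `J² = -1`, `J` is orthogonal and parallel. -/
def IsKaehler (g : RMetric E M) (J : EndField E M) : Prop :=
  (∀ x v, J x (J x v) = -v) ∧ (∀ x v w, innerAt g x (J x v) (J x w) = innerAt g x v w) ∧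
  ∀ a : M, ContDiffOn ℝ ∞ (endIn J a) (chartAt E a).target ∧
    ∀ u ∈ (chartAt E a).target, ∀ w v : E,
      fderiv ℝ (endIn J a) u w v + Gam (coefIn g a) u w (endIn J a u v)
        - endIn J a u (Gam (coefIn g a) u w v) = 0

/-- The Kähler classes satisfy `[ω₁] = c [ω₀]`: the `2`-form `ω₁ - c ω₀`, where
`ωᵢ(v,w) = gᵢ(J v, w)`, is the exterior derivative of a smooth `1`-form `η`. -/
def SameClass (g₀ g₁ : RMetric E M) (J : EndField E M) (c : ℝ) : Prop :=
  ∃ η : Form1 E M, ∀ a : M, ContDiffOn ℝ ∞ (formIn η a) (chartAt E a).target ∧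
    ∀ u ∈ (chartAt E a).target, ∀ v w : E,
      coefIn g₁ a u (endIn J a u v) w - c * coefIn g₀ a u (endIn J a u v) w
        = fderiv ℝ (formIn η a) u v w - fderiv ℝ (formIn η a) u w v

/-! ### Comparison of two metrics -/

/-- The `g₁`-length of a `g₀`-unit vector. -/
def nrm (g₀ g₁ : RMetric E M) (p : UT g₀) : ℝ := Real.sqrt (innerAt g₁ p.pt p.vec p.vec)

/-- `g' = c g`. -/
def IsMul (g g' : RMetric E M) (c : ℝ) : Prop :=
  ∀ (x : M) (v w : TangentSpace 𝓘(ℝ, E) x), innerAt g' x v w = c * innerAt g x v w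

/-- `g' = e^{2u} g`. -/
def IsConf (g g' : RMetric E M) (u : M → ℝ) : Prop :=
  ∀ (x : M) (v w : TangentSpace 𝓘(ℝ, E) x),
    innerAt g' x v w = Real.exp (2 * u x) * innerAt g x v w

/-- `C⁰`-closeness: `(1 - ε) g ≤ g' ≤ (1 + ε) g` on all tangent vectors. -/
def C0Close (g g' : RMetric E M) (ε : ℝ) : Prop :=
  ∀ (x : M) (v : TangentSpace 𝓘(ℝ, E) x), (1 - ε) * innerAt g x v v ≤ innerAt g' x v v ∧
    innerAt g' x v v ≤ (1 + ε) * innerAt g x v v

/-- `C^k`-closeness on the subset `K` of the chart at `a`: the derivatives of order `≤ k` of the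
coefficients `g_{ij}` and `g'_{ij}` in the chart at `a` (with respect to the standard basis `b`)
differ by less than `ε` on `K`. -/
def CkClose {n : ℕ} (b : Fin n → E) (g g' : RMetric E M) (k : ℕ) (a : M) (K : Set E) (ε : ℝ) :
    Prop :=
  ∀ (i j : Fin n), ∀ l ≤ k, ∀ u ∈ K,
    ‖iteratedFDeriv ℝ l (fun p => coefIn g' a p (b i) (b j)) u
      - iteratedFDeriv ℝ l (fun p => coefIn g a p (b i) (b j)) u‖ < ε

/-! ### The objects attached to a metric of a closed manifold -/

/-- The geodesic flow (its existence and uniqueness are part of the theorems). -/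
def geoFlow (g : RMetric E M) : ℝ → UT g → UT g :=
  @Classical.epsilon _ ⟨fun _ p => p⟩ (IsGeoFlow g)

/-- The Riemannian volume (its existence and uniqueness are part of the theorems). -/
def vol [MeasureSpace E] [MeasurableSpace M] {n : ℕ} (b : Fin n → E) (g : RMetric E M) :
    Measure M :=
  Classical.epsilon (IsRiemVol b g)

/-- The normalized Liouville measure (its existence and uniqueness are part of the theorems). -/
def liou [MeasureSpace E] [MeasurableSpace M] {n : ℕ} (b : Fin n → E) (g : RMetric E M) :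
    Measure (UT g) :=
  Classical.epsilon (IsLiouville g (vol b g))

/-- The topological entropy of the time-one map of the geodesic flow. -/
def hTop (g : RMetric E M) : ℝ≥0∞ := topEntropy (geoFlow g 1)

/-- The entropy of the time-one map of the geodesic flow for the Liouville measure. -/
def hLiou [MeasureSpace E] [MeasurableSpace M] {n : ℕ} (b : Fin n → E) (g : RMetric E M) :
    ℝ≥0∞ :=
  ksEntropy (liou b g) (geoFlow g 1)

/-- `A(g₀,g₁) = ∫ |v|_{g₁} dm_L(v)`, the average over the `g₀`-unit vectors. -/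
def meanLen [MeasureSpace E] [MeasurableSpace M] {n : ℕ} (b : Fin n → E) (g₀ g₁ : RMetric E M) :
    ℝ :=
  ∫ p, nrm g₀ g₁ p ∂(liou b g₀)

/-- `B(g₀,g₁) = ∫ |v|²_{g₁} dm_L(v)`, the average over the `g₀`-unit vectors. -/
def meanSq [MeasureSpace E] [MeasurableSpace M] {n : ℕ} (b : Fin n → E) (g₀ g₁ : RMetric E M) :
    ℝ :=
  ∫ p, nrm g₀ g₁ p ^ 2 ∂(liou b g₀)

/-- The geodesic flow, the Riemannian volume and the Liouville measure of `g` exist and are
unique. -/
def WellDefined [MeasureSpace E] [MeasurableSpace M] {n : ℕ} (b : Fin n → E) (g : RMetric E M) :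
    Prop :=
  (∀ φ, IsGeoFlow g φ ↔ φ = geoFlow g) ∧ (∀ μ, IsRiemVol b g μ ↔ μ = vol b g) ∧
    ∀ m, IsLiouville g (vol b g) m ↔ m = liou b g

/-- Two Kähler metrics with the same complex structure `J` and `[ω₁] = c [ω₀]`: comparison of the
entropies, uniqueness of the metric with `h_L = h_top` up to scaling, and Katok's question for
`g₁` if `g₀` is locally symmetric. -/
def KaehlerCase [MeasureSpace E] [MeasurableSpace M] {n : ℕ} (b : Fin n → E)
    (g₀ g₁ : RMetric E M) : Prop :=
  ∀ (J : EndField E M) (c : ℝ), IsKaehler g₀ J → IsKaehler g₁ J → SameClass g₀ g₁ J c →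
    0 < c ∧
    hLiou b g₀ ≤ ENNReal.ofReal (Real.sqrt c) * hTop g₁ ∧
    ENNReal.ofReal (Real.sqrt c) * hLiou b g₁ ≤ hTop g₀ ∧
    (hLiou b g₀ = hTop g₀ → hLiou b g₁ = hTop g₁ → IsMul g₀ g₁ c) ∧
    (LocSymmetric g₀ → (hLiou b g₁ = hTop g₁ ↔ LocSymmetric g₁))

/-- The criterion: if `A(g₀,g₁) A(g₁,g₀) < 1` or `B(g₀,g₁) B(g₁,g₀) ≤ 1`, then `h_L = h_top` for
both metrics only if they are proportional, and Katok's question has a positive answer for `g₁` if
`g₀` is locally symmetric. -/
def Criterion [MeasureSpace E] [MeasurableSpace M] {n : ℕ} (b : Fin n → E)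
    (g₀ g₁ : RMetric E M) : Prop :=
  meanLen b g₀ g₁ * meanLen b g₁ g₀ < 1 ∨ meanSq b g₀ g₁ * meanSq b g₁ g₀ ≤ 1 →
    (hLiou b g₀ = hTop g₀ → hLiou b g₁ = hTop g₁ → ∃ c : ℝ, 0 < c ∧ IsMul g₀ g₁ c) ∧
    (LocSymmetric g₀ → (hLiou b g₁ = hTop g₁ ↔ LocSymmetric g₁))

/-- The model space `ℝⁿ`. -/
abbrev EV (n : ℕ) : Type := EuclideanSpace ℝ (Fin n)

/-- The standard basis of `ℝⁿ`. -/
def stdB (n : ℕ) (i : Fin n) : EV n := EuclideanSpace.single i 1

end Vale.Agent.P207F
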