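import Vale.Agent.P207.FDefs

/-!
# P207: sets of metrics
-/

open scoped Manifold ContDiff ENNReal
open Bundle MeasureTheory Set Filter

noncomputable section

namespace Vale.Agent.P207F

open Vale.Agent.P255 (RMetric innerAt coefIn Gam Riem IsGeo)

variable {E : Type} [NormedAddCommGroup E] [NormedSpace ℝ E] {M : Type} [TopologicalSpace M]
  [ChartedSpace E M] [IsManifold 𝓘(ℝ, E) ∞ M]

/-- All metrics of `𝒰` are negatively curved, not locally symmetric, and have `h_L < h_top`
(so Katok's equivalence holds for them). -/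
def StrictOn [MeasureSpace E] [MeasurableSpace M] {n : ℕ} (b : Fin n → E)
    (𝒰 : Set (RMetric E M)) : Prop :=
  ∀ g ∈ 𝒰, NegCurvature g ∧ ¬ LocSymmetric g ∧ hLiou b g < hTop g

/-- `𝒰` is `C⁰`-open in the set of negatively curved metrics. -/
def C0Open (𝒰 : Set (RMetric E M)) : Prop :=
  ∀ g ∈ 𝒰, ∃ ε > 0, ∀ g' : RMetric E M, NegCurvature g' → C0Close g g' ε → g' ∈ 𝒰

/-- `𝒰` is `C^∞`-dense in the set of negatively curved metrics: every negatively curved metric can
be approximated by metrics of `𝒰`, with all derivatives of order `≤ k` of the coefficients on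
finitely many compact pieces `K a` of the charts at `a ∈ S`. -/
def SmoothDense {n : ℕ} (b : Fin n → E) (𝒰 : Set (RMetric E M)) : Prop :=
  ∀ g : RMetric E M, NegCurvature g → ∀ (k : ℕ) (S : Finset M) (K : M → Set E),
    (∀ a ∈ S, IsCompact (K a) ∧ K a ⊆ (chartAt E a).target) → ∀ ε > 0,
    ∃ g' ∈ 𝒰, ∀ a ∈ S, CkClose b g g' k a (K a) ε

/-- The metrics are conformal to each other, or they are Kähler metrics for the same complex
structure with proportional Kähler classes. -/
def Related (g₀ g₁ : RMetric E M) : Prop :=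
  (∃ u : M → ℝ, Continuous u ∧ IsConf g₀ g₁ u) ∨
    ∃ (J : EndField E M) (c : ℝ), IsKaehler g₀ J ∧ IsKaehler g₁ J ∧ SameClass g₀ g₁ J c

/-- Two negatively curved metrics outside `𝒰` satisfy `A(g₀,g₁) A(g₁,g₀) ≥ 1`, and are
proportional if they are conformal, or Kähler with the same `J` and proportional classes. -/
def UniqueOutside [MeasureSpace E] [MeasurableSpace M] {n : ℕ} (b : Fin n → E)
    (𝒰 : Set (RMetric E M)) : Prop :=
  ∀ g₀ g₁ : RMetric E M, NegCurvature g₀ → NegCurvature g₁ → g₀ ∉ 𝒰 → g₁ ∉ 𝒰 →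
    1 ≤ meanLen b g₀ g₁ * meanLen b g₁ g₀ ∧ (Related g₀ g₁ → ∃ c : ℝ, 0 < c ∧ IsMul g₀ g₁ c)

end Vale.Agent.P207F
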