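import Vale.Agent.P207.FDefs

/-!
# P207: strictly quarter-pinched metrics
-/

open scoped Manifold ContDiff ENNReal
open Bundle MeasureTheory Set Filter

noncomputable section

namespace Vale.Agent.P207F

open Vale.Agent.P255 (RMetric innerAt coefIn Gam Riem IsGeo)

variable {E : Type} [NormedAddCommGroup E] [NormedSpace ℝ E] {M : Type} [TopologicalSpace M]
  [ChartedSpace E M] [IsManifold 𝓘(ℝ, E) ∞ M]

/-- `|v|² |w|² - ⟨v,w⟩²` for tangent vectors with components `v`, `w` in the chart at `a`. -/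
def gramDet (g : RMetric E M) (a : M) (u v w : E) : ℝ :=
  coefIn g a u v v * coefIn g a u w w - coefIn g a u v w ^ 2

/-- Strict quarter pinching: for some constant `k > 0` all sectional curvatures
`⟨R(v,w)w, v⟩ / (|v|² |w|² - ⟨v,w⟩²)` satisfy `-4k < K ≤ -k`. -/
def QuarterPinched (g : RMetric E M) : Prop :=
  ∃ k : ℝ, 0 < k ∧ ∀ (a : M), ∀ u ∈ (chartAt E a).target, ∀ v w : E,
    LinearIndependent ℝ ![v, w] →
      -(4 * k) * gramDet g a u v w < coefIn g a u (Riem (coefIn g a) u v w w) v ∧
      coefIn g a u (Riem (coefIn g a) u v w w) v ≤ -k * gramDet g a u v w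

/-- Constant sectional curvature `-κ`. -/
def ConstCurvature (g : RMetric E M) (κ : ℝ) : Prop :=
  ∀ (a : M), ∀ u ∈ (chartAt E a).target, ∀ v w : E,
    coefIn g a u (Riem (coefIn g a) u v w w) v = -κ * gramDet g a u v w

end Vale.Agent.P207F
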