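import Vale.Agent.P207.Fin
import Vale.Agent.P207.BlkCF
import Vale.Agent.P207.BlkNC2

/-!
# P207: the second theorem (Katok's conjecture on a `C⁰`-open, `C^∞`-dense set of metrics)

`Eq g` : the negatively curved metric `g` has `h_L = h_top`; `US` : the `C⁰`-interior, among the
negatively curved metrics, of the set of metrics with `h_L < h_top`.
-/

open scoped Manifold ContDiff ENNReal Topology
open Bundle MeasureTheory Set Filter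

noncomputable section

namespace Vale.Agent.P207

open Vale.Agent.P255 (RMetric coefIn Gam Riem IsGeo Metric Npc ExpSys toMetric geo expg cc)

variable {n : ℕ} {M : Type} [TopologicalSpace M] [ChartedSpace (EV n) M]
  [IsManifold 𝓘(ℝ, EV n) ∞ M]

namespace Gen

theorem inner_nonneg (g : RMetric (EV n) M) (x : M) (v : TangentSpace 𝓘(ℝ, EV n) x) :
    0 ≤ g.inner x v v := by
  rcases eq_or_ne v 0 with rfl | h
  · simp
  · exact (g.pos x v h).le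

theorem C0Close.refl (g : RMetric (EV n) M) {ε : ℝ} (hε : 0 < ε) : C0Close g g ε := by
  intro x v
  have h := inner_nonneg g x v
  constructor <;> nlinarith

theorem C0Close.trans {g g' g'' : RMetric (EV n) M} {δ ε : ℝ} (hδ : 0 < δ) (hδ1 : δ ≤ 1)
    (hε : 3 * δ ≤ ε) (h : C0Close g g' δ) (h' : C0Close g' g'' δ) : C0Close g g'' ε := by
  intro x v
  have h0 := inner_nonneg g x v
  obtain ⟨h1, h2⟩ := h x v
  obtain ⟨h3, h4⟩ := h' x v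
  constructor
  · have h5 : (1 - δ) * ((1 - δ) * g.inner x v v) ≤ (1 - δ) * g'.inner x v v :=
      mul_le_mul_of_nonneg_left h1 (by linarith)
    nlinarith [mul_nonneg (sq_nonneg δ) h0, mul_nonneg (sub_nonneg.2 hε) h0, mul_nonneg hδ.le h0]
  · have h5 : (1 + δ) * g'.inner x v v ≤ (1 + δ) * ((1 + δ) * g.inner x v v) :=
      mul_le_mul_of_nonneg_left h2 (by linarith)
    have h6 : δ ^ 2 ≤ δ := by nlinarith
    nlinarith [mul_nonneg (sub_nonneg.2 h6) h0, mul_nonneg (sub_nonneg.2 hε) h0]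

theorem nrm_of_smul {g₀ g₁ : RMetric (EV n) M} {c : ℝ}
    (h : ∀ x v w, g₁.inner x v w = c * g₀.inner x v w) (p : UT g₀) :
    nrm g₀ g₁ p = Real.sqrt c := by
  unfold nrm
  have h1 : g₀.inner p.pt p.vec p.vec = 1 := p.2
  rw [h, h1, mul_one]

variable [CompactSpace M] [T2Space M] [MeasurableSpace M] [BorelSpace M]

/-- homothetic metrics have `A₀₁ A₁₀ = 1` -/
theorem mul_eq_one_of_smul {g₀ g₁ : RMetric (EV n) M} {μ₀ μ₁ : Measure M}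
    {m₀ : Measure (UT g₀)} {m₁ : Measure (UT g₁)} (hm₀ : IsLiouville g₀ μ₀ m₀)
    (hm₁ : IsLiouville g₁ μ₁ m₁) {c : ℝ} (hc : 0 < c)
    (h : ∀ x v w, g₁.inner x v w = c * g₀.inner x v w) :
    (∫ p, nrm g₀ g₁ p ∂m₀) * (∫ p, nrm g₁ g₀ p ∂m₁) = 1 := by
  have := hm₀.1
  have := hm₁.1
  have h' : ∀ x v w, g₀.inner x v w = c⁻¹ * g₁.inner x v w := by
    intro x v w
    rw [h, ← mul_assoc, inv_mul_cancel₀ hc.ne', one_mul]
  simp only [nrm_of_smul h, nrm_of_smul h', integral_const, probReal_univ, one_smul]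
  rw [Real.sqrt_inv, mul_inv_cancel₀ (Real.sqrt_pos.2 hc).ne']

/-- the metric `g` has negative curvature and `h_L = h_top` -/
def Eq (g : RMetric (EV n) M) : Prop :=
  NegCurvature g ∧ ∃ φ μ m, IsGeoFlow g φ ∧ IsRiemVol g μ ∧ IsLiouville g μ m ∧
    ksEntropy m (φ 1) = topEntropy (φ 1)

/-- the `C⁰`-interior of the set of metrics with `h_L < h_top` -/
def US (n : ℕ) (M : Type) [TopologicalSpace M] [ChartedSpace (EV n) M]
    [IsManifold 𝓘(ℝ, EV n) ∞ M] [CompactSpace M] [T2Space M] [MeasurableSpace M] [BorelSpace M] :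
    Set (RMetric (EV n) M) :=
  {g | NegCurvature g ∧ ∃ ε > 0, ∀ g', Eq g' → ¬ C0Close g g' ε}

variable [ConnectedSpace M]

theorem ksEntropy_le_topEntropy (hn : 2 ≤ n) {g : RMetric (EV n) M} {φ : ℝ → UT g → UT g}
    {μ : Measure M} {m : Measure (UT g)} (hφ : IsGeoFlow g φ) (hμ : IsRiemVol g μ)
    (hm : IsLiouville g μ m) (h : NegCurvature g) : ksEntropy m (φ 1) ≤ topEntropy (φ 1) := by
  have := hm.1
  have h' := npc_of_neg h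
  have h2 := stretch hφ hφ h' h' (ν := m)
    (fun t => hm.measurePreserving (by omega) hφ hμ t) one_pos
    (by simp [nrm_self])
  simpa using h2

/-- the key step -/
theorem mem_or_mem (hn : 2 ≤ n) {g₀ g₁ : RMetric (EV n) M} (hN₀ : NegCurvature g₀)
    (hN₁ : NegCurvature g₁)
    (h : ∀ μ₀ μ₁ m₀ m₁, IsRiemVol g₀ μ₀ → IsRiemVol g₁ μ₁ → IsLiouville g₀ μ₀ m₀ →
      IsLiouville g₁ μ₁ m₁ → (∫ p, nrm g₀ g₁ p ∂m₀) * (∫ p, nrm g₁ g₀ p ∂m₁) < 1) :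
    g₀ ∈ US n M ∨ g₁ ∈ US n M := by
  have hn1 : 1 ≤ n := by omega
  obtain ⟨μ₀, hμ₀⟩ := exists_riemVol g₀
  obtain ⟨μ₁, hμ₁⟩ := exists_riemVol g₁
  obtain ⟨m₀, hm₀⟩ := exists_liouville hn1 hμ₀
  obtain ⟨m₁, hm₁⟩ := exists_liouville hn1 hμ₁
  obtain ⟨ε, hε, -, hop⟩ := exists_openness hn1 hμ₀ hμ₁ hm₀ hm₁ (h _ _ _ _ hμ₀ hμ₁ hm₀ hm₁)
  by_contra hcon
  rw [not_or] at hcon
  have key : ∀ g : RMetric (EV n) M, NegCurvature g → g ∉ US n M → ∃ g', Eq g' ∧ C0Close g g' ε := by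
    intro g hN hg
    by_contra hno
    push Not at hno
    exact hg ⟨hN, ε, hε, hno⟩
  obtain ⟨g₀', ⟨hN₀', φ₀, ν₀, k₀, hφ₀, hν₀, hk₀, e₀⟩, hc₀⟩ := key g₀ hN₀ hcon.1
  obtain ⟨g₁', ⟨hN₁', φ₁, ν₁, k₁, hφ₁, hν₁, hk₁, e₁⟩, hc₁⟩ := key g₁ hN₁ hcon.2
  have hlt := hop g₀' g₁' hc₀ hc₁ ν₀ ν₁ k₀ k₁ hν₀ hν₁ hk₀ hk₁
  obtain ⟨c, hc, -, hsm⟩ := criterion hn hN₀' hN₁' hφ₀ hφ₁ hν₀ hν₁ hk₀ hk₁ (Or.inl hlt) e₀ e₁
  exact absurd (mul_eq_one_of_smul hk₀ hk₁ hc hsm) hlt.ne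

/-- if `B₀₁ B₁₀ ≤ 1`, then `A₀₁ A₁₀ < 1` or the metrics are homothetic -/
theorem lt_or_smul (hn : 1 ≤ n) {g₀ g₁ : RMetric (EV n) M} {μ₀ μ₁ : Measure M}
    {m₀ : Measure (UT g₀)} {m₁ : Measure (UT g₁)} (hμ₀ : IsRiemVol g₀ μ₀)
    (hm₀ : IsLiouville g₀ μ₀ m₀) (hm₁ : IsLiouville g₁ μ₁ m₁)
    (h : (∫ p, nrm g₀ g₁ p ^ 2 ∂m₀) * (∫ p, nrm g₁ g₀ p ^ 2 ∂m₁) ≤ 1) :
    (∃ c : ℝ, ∀ x v w, g₁.inner x v w = c * g₀.inner x v w) ∨
      (∫ p, nrm g₀ g₁ p ∂m₀) * (∫ p, nrm g₁ g₀ p ∂m₁) < 1 := by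
  have := hm₀.1
  have := hm₁.1
  obtain ⟨hB₀, hC₀, -⟩ := integral_nrm_le (g₀ := g₀) (g₁ := g₁) (ν := m₀) rfl
  obtain ⟨hB₁, hC₁, -⟩ := integral_nrm_le (g₀ := g₁) (g₁ := g₀) (ν := m₁) rfl
  have hh := homothetic_of_eq hn hμ₀ hm₀ (g₀ := g₀) (g₁ := g₁)
  have hA₁ : 0 < ∫ p, nrm g₁ g₀ p ∂m₁ := by
    have := compactSpace_UT g₁
    have hcont := continuous_nrm g₁ g₀
    have hi1 : Integrable (nrm g₁ g₀) m₁ :=
      hcont.integrable_of_hasCompactSupport (HasCompactSupport.of_compactSpace _)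
    rw [integral_pos_iff_support_of_nonneg (fun p => (nrm_pos g₁ g₀ p).le) hi1]
    have : Function.support (nrm g₁ g₀) = univ := by
      ext p; simp [(nrm_pos g₁ g₀ p).ne']
    rw [this]; simp
  set A₀ := ∫ p, nrm g₀ g₁ p ∂m₀
  set A₁ := ∫ p, nrm g₁ g₀ p ∂m₁
  set B₀ := ∫ p, nrm g₀ g₁ p ^ 2 ∂m₀
  set B₁ := ∫ p, nrm g₁ g₀ p ^ 2 ∂m₁
  have hsB₀ := Real.sqrt_pos.2 hB₀
  have h5 : Real.sqrt B₀ * Real.sqrt B₁ ≤ 1 := by
    rw [← Real.sqrt_mul hB₀.le]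
    exact Real.sqrt_le_one.2 h
  rcases le_or_gt (Real.sqrt B₀) A₀ with h6 | h6
  · exact Or.inl ⟨B₀, hh h6⟩
  · right
    have h7 : A₀ * A₁ < Real.sqrt B₀ * Real.sqrt B₁ := mul_lt_mul h6 hC₁ hA₁ hsB₀.le
    linarith

end Gen

open Gen in
/-- the second theorem -/
theorem generic [CompactSpace M] [T2Space M] (hn : 2 ≤ n) [ConnectedSpace M] [MeasurableSpace M]
    [BorelSpace M] :
    ∃ 𝒰 : Set (RMetric (EV n) M),
      (∀ g ∈ 𝒰, NegCurvature g ∧ ¬ LocSymmetric g ∧ ∀ φ μ m, IsGeoFlow g φ → IsRiemVol g μ →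
        IsLiouville g μ m → ksEntropy m (φ 1) < topEntropy (φ 1)) ∧
      (∀ g ∈ 𝒰, ∃ ε > 0, ∀ g', NegCurvature g' → C0Close g g' ε → g' ∈ 𝒰) ∧
      (∀ g₀ g₁, NegCurvature g₀ → NegCurvature g₁ →
        (∀ μ₀ μ₁ m₀ m₁, IsRiemVol g₀ μ₀ → IsRiemVol g₁ μ₁ → IsLiouville g₀ μ₀ m₀ →
          IsLiouville g₁ μ₁ m₁ → (∫ p, nrm g₀ g₁ p ∂m₀) * (∫ p, nrm g₁ g₀ p ∂m₁) < 1) →
        g₀ ∈ 𝒰 ∨ g₁ ∈ 𝒰) ∧
      (∀ g₀ g₁, NegCurvature g₀ → NegCurvature g₁ →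
        ((∃ u : M → ℝ, Continuous u ∧ IsConf g₀ g₁ u) ∨
          ∃ J c, IsKaehler g₀ J ∧ IsKaehler g₁ J ∧ SameClass g₀ g₁ J c) →
        (∃ c : ℝ, ∀ x v w, g₁.inner x v w = c * g₀.inner x v w) ∨ g₀ ∈ 𝒰 ∨ g₁ ∈ 𝒰) ∧
      (∀ g, NegCurvature g → ∀ (k : ℕ) (S : Finset M) (K : M → Set (EV n)),
        (∀ a ∈ S, IsCompact (K a) ∧ K a ⊆ (chartAt (EV n) a).target) → ∀ ε > 0,
        ∃ g' ∈ 𝒰, ∀ a ∈ S, CkClose g g' k a (K a) ε) := by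
  have hn1 : 1 ≤ n := by omega
  have hconf : ∀ (g₀ g₁ : RMetric (EV n) M), NegCurvature g₀ → NegCurvature g₁ →
      ∀ u : M → ℝ, Continuous u → IsConf g₀ g₁ u → (∃ x y, u x ≠ u y) →
      g₀ ∈ US n M ∨ g₁ ∈ US n M := fun g₀ g₁ hN₀ hN₁ u hu hc hne =>
    mem_or_mem hn hN₀ hN₁ fun μ₀ μ₁ m₀ m₁ hμ₀ hμ₁ hm₀ hm₁ =>
      hc.mul_lt_one hn hu hne hμ₀ hμ₁ hm₀ hm₁
  refine ⟨US n M, ?_, ?_, fun g₀ g₁ hN₀ hN₁ h => mem_or_mem hn hN₀ hN₁ h, ?_, ?_⟩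
  · rintro g ⟨hN, ε, hε, hg⟩
    refine ⟨hN, fun hs => ?_, fun φ μ m hφ hμ hm => ?_⟩
    · obtain ⟨φ, hφ⟩ := exists_geoFlow g
      obtain ⟨μ, hμ⟩ := exists_riemVol g
      obtain ⟨m, hm⟩ := exists_liouville hn1 hμ
      exact hg g ⟨hN, φ, μ, m, hφ, hμ, hm, ksEntropy_eq_of_locSymmetric hn hφ hμ hm hN hs⟩
        (C0Close.refl g hε)
    · refine lt_of_le_of_ne (ksEntropy_le_topEntropy hn hφ hμ hm hN) fun he => ?_
      exact hg g ⟨hN, φ, μ, m, hφ, hμ, hm, he⟩ (C0Close.refl g hε)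
  · rintro g ⟨hN, ε, hε, hg⟩
    have hδ : 0 < min 1 (ε / 3) := lt_min one_pos (by positivity)
    refine ⟨min 1 (ε / 3), hδ, fun g' hN' hc => ⟨hN', min 1 (ε / 3), hδ, fun g'' he hc' => ?_⟩⟩
    refine hg g'' he (C0Close.trans hδ (min_le_left _ _) ?_ hc hc')
    have := min_le_right (1 : ℝ) (ε / 3)
    linarith
  · rintro g₀ g₁ hN₀ hN₁ (⟨u, hu, hc⟩ | ⟨J, c, hK₀, hK₁, hc⟩)
    · by_cases hne : ∃ x y, u x ≠ u y
      · exact Or.inr (hconf g₀ g₁ hN₀ hN₁ u hu hc hne)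
      · push Not at hne
        obtain ⟨x₀⟩ := (inferInstance : Nonempty M)
        exact Or.inl ⟨Real.exp (2 * u x₀), fun x v w => by rw [hc x v w, hne x x₀]⟩
    · obtain ⟨φ₀, hφ₀⟩ := exists_geoFlow g₀
      obtain ⟨φ₁, hφ₁⟩ := exists_geoFlow g₁
      obtain ⟨μ₀, hμ₀⟩ := exists_riemVol g₀
      obtain ⟨μ₁, hμ₁⟩ := exists_riemVol g₁
      obtain ⟨m₀, hm₀⟩ := exists_liouville hn1 hμ₀
      obtain ⟨m₁, hm₁⟩ := exists_liouville hn1 hμ₁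
      have := hm₀.1
      have := hm₁.1
      have hB₀ := integral_nrm_sq hn1 hφ₀ hμ₀ hm₀ hK₀ hK₁ hc
      obtain ⟨hc0, -, -⟩ := integral_nrm_le hB₀
      have hB₁ := integral_nrm_sq hn1 hφ₁ hμ₁ hm₁ hK₁ hK₀ (hc.symm hc0.ne')
      rcases lt_or_smul hn1 hμ₀ hm₀ hm₁ (by rw [hB₀, hB₁, mul_inv_cancel₀ hc0.ne']) with h | h
      · exact Or.inl h
      · right
        refine mem_or_mem hn hN₀ hN₁ fun μ₀' μ₁' m₀' m₁' hμ₀' hμ₁' hm₀' hm₁' => ?_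
        obtain rfl := hμ₀.unique hμ₀'
        obtain rfl := hμ₁.unique hμ₁'
        obtain rfl := hm₀.unique hm₀'
        obtain rfl := hm₁.unique hm₁'
        exact h
  · intro g hN k S K hK ε hε
    by_cases hg : g ∈ US n M
    · refine ⟨g, hg, fun a _ i j l _ u _ => ?_⟩
      rw [sub_self, norm_zero]
      exact hε
    · obtain ⟨u, hu, hne⟩ := exists_nonconst hn1 M
      obtain ⟨δ₀, hδ₀, hneg⟩ := exists_neg_conf hN hu
      have hcl : ∃ δ : ℝ, 0 < δ ∧ ∀ a ∈ S, ∀ t : ℝ, |t| < δ → ∀ g' : RMetric (EV n) M,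
          IsConf g g' (fun x => t * u x) → CkClose g g' k a (K a) ε := by
        choose! δ hδ hδ' using fun a (ha : a ∈ S) =>
          exists_close_conf g hu k a (hK a ha).1 (hK a ha).2 hε
        rcases S.eq_empty_or_nonempty with hS | hS
        · exact ⟨1, one_pos, fun a ha => by simp [hS] at ha⟩
        · obtain ⟨a₀, ha₀, hmin⟩ := S.exists_min_image δ hS
          exact ⟨δ a₀, hδ a₀ ha₀, fun a ha t ht => hδ' a ha t (ht.trans_le (hmin a ha))⟩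
      obtain ⟨δ₁, hδ₁, hclose⟩ := hcl
      obtain ⟨t, ht0, ht⟩ := exists_between (lt_min hδ₀ hδ₁)
      have hta : |t| = t := abs_of_pos ht0
      have htu : ContMDiff 𝓘(ℝ, EV n) 𝓘(ℝ, ℝ) ∞ (fun x => t * u x) := contMDiff_const.mul hu
      obtain ⟨g', hc⟩ := exists_conf g htu
      have hN' := hneg t (by rw [hta]; exact ht.trans_le (min_le_left _ _)) g' hc
      have hne' : ∃ x y, t * u x ≠ t * u y := by
        obtain ⟨x, y, hxy⟩ := hne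
        exact ⟨x, y, fun h => hxy (mul_left_cancel₀ ht0.ne' h)⟩
      refine ⟨g', (hconf g g' hN hN' _ htu.continuous hc hne').resolve_left hg, fun a ha => ?_⟩
      exact hclose a ha t (by rw [hta]; exact ht.trans_le (min_le_right _ _)) g' hc

end Vale.Agent.P207
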